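import Vale.Agent.P095.Loc

/-! Excision of a state. -/

open Filter Topology TopologicalSpace

namespace Vale.Agent.P095

open Vale.Agent.P101

variable {B : Type} [CStarAlgebra B] {y u v : B} {ε ε' : ℝ}

/-- `u` is small on the right ideal generated by `y`. -/
def ExcR (y u : B) (ε : ℝ) : Prop :=
  ∀ b b', ‖star (y * b) * u * (y * b')‖ ≤ ε * (‖y * b‖ * ‖y * b'‖)

theorem ExcR.add (h : ExcR y u ε) (h' : ExcR y v ε') : ExcR y (u + v) (ε + ε') := fun b b' => by
  rw [mul_add, add_mul, add_mul]
  exact (norm_add_le _ _).trans (add_le_add (h b b') (h' b b'))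

theorem ExcR.smul (h : ExcR y u ε) (c : ℂ) : ExcR y (c • u) (‖c‖ * ε) := fun b b' => by
  rw [mul_smul_comm, smul_mul_assoc, norm_smul, mul_assoc ‖c‖]
  exact mul_le_mul_of_nonneg_left (h b b') (norm_nonneg _)

theorem ExcR.norm (y u : B) : ExcR y u ‖u‖ := fun b b' => by
  refine (norm_mul₃_le).trans_eq ?_
  rw [norm_star]; ring

theorem ExcR.mono (h : ExcR y u ε) (h' : ε ≤ ε') : ExcR y u ε' := fun b b' =>
  (h b b').trans (mul_le_mul_of_nonneg_right h' (by positivity))

theorem ExcR.mul (h : ExcR y u ε) (c : B) : ExcR (y * c) u ε := fun b b' => by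
  simpa only [mul_assoc] using h (c * b) (c * b')

theorem ExcR.le (h0 : y ≠ 0) {c : ℂ} (h : ExcR y (u - algebraMap ℂ B c) ε) : ‖c‖ ≤ ‖u‖ + ε := by
  have := ((ExcR.norm y u).add (h.smul (-1))) 1 1
  rw [neg_one_smul, ← sub_eq_add_neg, sub_sub_cancel, mul_one, Algebra.algebraMap_eq_smul_one,
    mul_smul_comm, mul_one, smul_mul_assoc, norm_smul, CStarRing.norm_star_mul_self] at this
  simpa using le_of_mul_le_mul_right this (mul_pos (norm_pos_iff.2 h0) (norm_pos_iff.2 h0))

theorem exc_cs (hu : IsSelfAdjoint u) (hε : 0 < ε) (h0 : ∀ b, Pos (star (y * b) * u * (y * b)))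
    (h1 : ∀ b, Pos (ε • (star (y * b) * (y * b)) - star (y * b) * u * (y * b))) :
    ExcR y u ε := fun b b' => by
  have n : ∀ b, ‖star (y * b) * u * (y * b)‖ ≤ ε * (‖y * b‖ * ‖y * b‖) := fun b => by
    have := (h0 b).norm_le (h1 b)
    rwa [norm_smul, CStarRing.norm_star_mul_self, Real.norm_of_nonneg hε.le] at this
  rcases eq_or_ne (y * b) 0 with e | e
  · simp [e]
  have p0 := norm_pos_iff.2 e
  set Q := star (y * b) * u * (y * b') with hQ
  set s := ε * (‖y * b‖ * ‖y * b‖) with hs
  have s0 : 0 < s := by positivity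
  have k := ((Pos.sq Q).smul (r := 2 * s) (by positivity)).norm_le
    (y := star Q * (star (y * b) * u * (y * b)) * Q + (s * s) • (star (y * b') * u * (y * b'))) (by
      convert h0 (s • b' - b * Q) using 1
      rw [mul_sub y, mul_smul_comm, ← mul_assoc y]
      have e1 : star (y * b') * u * (y * b) = star Q := by
        simp only [hQ, star_mul, hu.star_eq, star_star, mul_assoc]
      generalize y * b = w at *
      generalize y * b' = w' at *
      have e2 : star (w * Q) * u * w' = star Q * Q := by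
        rw [star_mul, mul_assoc, mul_assoc, ← mul_assoc (star w), ← hQ]
      have e3 : star w' * u * (w * Q) = star Q * Q := by rw [← mul_assoc, e1]
      simp only [star_sub, star_smul, star_trivial, mul_sub, sub_mul, smul_mul_assoc, mul_smul_comm,
        e2, e3]
      simp only [star_mul, mul_assoc]
      module)
  have k1 : ‖star Q * (star (y * b) * u * (y * b)) * Q‖ ≤ ‖Q‖ * s * ‖Q‖ :=
    norm_mul₃_le.trans (by rw [norm_star]; gcongr; exact n b)
  have k2 := k.trans ((norm_add_le _ _).trans (add_le_add k1 ((norm_smul _ _).trans_le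
    (mul_le_mul_of_nonneg_left (n b') (norm_nonneg _)))))
  rw [norm_smul, CStarRing.norm_star_mul_self, Real.norm_of_nonneg (by positivity),
    Real.norm_of_nonneg (by positivity)] at k2
  refine loc_sq (by positivity) (le_of_mul_le_mul_left ?_ s0)
  calc _ ≤ s * s * (ε * (‖y * b'‖ * ‖y * b'‖)) := by linarith
    _ = _ := by rw [hs]; ring

theorem exc_sa (h0 : y ≠ 0) (hu : IsSelfAdjoint u) (hε : 0 < ε) :
    ∃ (b : B) (t : ℝ), y * b ≠ 0 ∧ ExcR (y * b) (t • (1 : B) - u) ε := by
  let P : ℝ → Prop := fun t => ∀ b, Pos (star (y * b) * (t • (1 : B) - u) * (y * b))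
  obtain ⟨t, h1, h2⟩ : ∃ t, P t ∧ ¬P (t - ε) := by
    by_contra! hc
    have k : ∀ n : ℕ, P (‖u‖ - n * ε) := fun n => by
      induction n with
      | zero => intro b; simpa using (Pos.of_norm hu le_rfl).conj (y * b)
      | succ n ih => convert hc _ ih using 1; push_cast; ring
    obtain ⟨n, hn⟩ := exists_nat_gt (2 * ‖u‖ / ε)
    rw [div_lt_iff₀ hε] at hn
    have q := (k n 1).add ((Pos.of_norm' hu le_rfl).conj (y * 1))
    have := ((Pos.sq y).smul (sub_pos.2 hn).le).norm_le (y := 0) (by
      convert q using 1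
      simp only [mul_one, mul_sub, sub_mul, mul_add, add_mul, mul_smul_comm, smul_mul_assoc]
      module)
    rw [norm_zero, norm_smul, CStarRing.norm_star_mul_self, Real.norm_of_nonneg (sub_pos.2 hn).le]
      at this
    exact this.not_gt (mul_pos (sub_pos.2 hn) (mul_pos (norm_pos_iff.2 h0) (norm_pos_iff.2 h0)))
  obtain ⟨b, hb⟩ := not_forall.1 h2
  let _ := CStarAlgebra.spectralOrder B
  have := CStarAlgebra.spectralOrderedRing B
  have st : ∀ t : ℝ, IsSelfAdjoint (t • (1 : B) - u) := fun t =>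
    ((IsSelfAdjoint.all t).smul (.one B)).sub hu
  set A := star (y * b) * ((t - ε) • (1 : B) - u) * (y * b) with hA
  have sA : IsSelfAdjoint A := (st _).conjugate' _
  have p0 : A⁻ ≠ 0 := fun e => hb (pos_iff.2 ((CFC.negPart_eq_zero_iff A).1 e))
  have pp := CFC.negPart_nonneg A
  have sp : IsSelfAdjoint A⁻ := .of_nonneg pp
  have e1 : star (y * (b * A⁻)) * ((t - ε) • (1 : B) - u) * (y * (b * A⁻)) = -(A⁻ * A⁻ * A⁻) := by
    have : A⁻ * A * A⁻ = -(A⁻ * A⁻ * A⁻) := by
      nth_rw 2 [← CFC.posPart_sub_negPart A]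
      rw [mul_sub, CFC.negPart_mul_posPart, zero_sub, neg_mul]
    rw [← this, ← mul_assoc y, star_mul, sp.star_eq]
    generalize A⁻ = p
    simp only [hA, mul_assoc]
  refine ⟨b * A⁻, t, fun e => p0 (sa_cube_zero sp (by simpa [e] using e1)),
    exc_cs (st t) hε (fun c => by simpa only [mul_assoc] using h1 (b * A⁻ * c)) fun c => ?_⟩
  convert ((pos_iff.2 pp).conj A⁻).conj c using 1
  rw [sp.star_eq, ← neg_neg (A⁻ * A⁻ * A⁻), ← e1]
  generalize y * (b * A⁻) = w
  simp only [star_mul, mul_sub, sub_mul, mul_neg, neg_mul, mul_smul_comm, smul_mul_assoc, mul_one,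
    mul_assoc]
  module

theorem exc_step (h0 : y ≠ 0) (u : B) (hε : 0 < ε) :
    ∃ (b : B) (c : ℂ), y * b ≠ 0 ∧ ExcR (y * b) (u - algebraMap ℂ B c) ε := by
  obtain ⟨b, s, h1, h2⟩ := exc_sa h0 (realPart u).2 (half_pos hε)
  obtain ⟨b', t, h3, h4⟩ := exc_sa h1 (imaginaryPart u).2 (half_pos hε)
  refine ⟨b * b', s + Complex.I * t, by rwa [← mul_assoc], ?_⟩
  rw [← mul_assoc]
  convert ((h2.mul b').smul (-1)).add (h4.smul (-Complex.I)) using 1
  · nth_rw 1 [← realPart_add_I_smul_imaginaryPart u]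
    rw [Algebra.algebraMap_eq_smul_one, ← Complex.coe_smul, ← Complex.coe_smul]
    module
  · simp

theorem excS : ExcS := by
  intro B _ I hI
  have := hI.sep
  obtain ⟨a, ha, a0⟩ := hI.ne
  obtain ⟨b, hb, e, he, -, se, eb, h⟩ := locS B I hI {a} (by simpa) (‖a‖ / 2) (by positivity)
  have b0 : b ≠ 0 := fun e => by
    have := (h a (by simp)).1
    rw [e, zero_mul, zero_sub, norm_neg] at this
    linarith [norm_pos_iff.2 a0]
  choose! f c h1 h2 using fun (k : ℕ) (y : B) (h0 : y ≠ 0) =>
    exc_step h0 (denseSeq B k.unpair.1) (Nat.one_div_pos_of_nat (n := k))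
  let y : ℕ → B := fun k => Nat.rec b (fun k y => y * f k y) k
  have ys : ∀ k, y (k + 1) = y k * f k (y k) := fun k => rfl
  have y0 : ∀ k, y k ≠ 0 := fun k => by
    induction k with
    | zero => exact b0
    | succ k ih => exact h1 k _ ih
  have yI : ∀ k, y k ∈ I := fun k => by
    induction k with
    | zero => exact hb
    | succ k ih => exact I.mul_mem_right _ _ ih
  have ev : ∀ {k u ε}, ExcR (y k) u ε → ∀ᶠ k in atTop, ExcR (y k) u ε := fun {k u ε} h =>
    eventually_atTop.2 ⟨k, fun m hm => by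
      induction hm with
      | refl => exact h
      | step _ ih => exact ih.mul _⟩
  let Γ : Submodule ℂ (B × ℂ) :=
    { carrier := {p | ∀ ε, 0 < ε → ∀ᶠ k in atTop, ExcR (y k) (p.1 - algebraMap ℂ B p.2) ε}
      add_mem' := fun {p q} hp hq ε hε => by
        filter_upwards [hp _ (half_pos hε), hq _ (half_pos hε)] with k h1 h2
        convert h1.add h2 using 1
        · simp only [Prod.fst_add, Prod.snd_add, map_add]; abel
        · simp
      zero_mem' := fun ε hε => .of_forall fun k => (ExcR.norm _ _).mono (by simpa using hε.le)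
      smul_mem' := fun z p hp ε hε => by
        filter_upwards [hp (ε / (‖z‖ + 1)) (by positivity)] with k h1
        convert (h1.smul z).mono (ε' := ε) (by
          rw [← mul_div_assoc, div_le_iff₀ (by positivity)]; nlinarith) using 1
        simp only [Prod.smul_fst, Prod.smul_snd, Algebra.algebraMap_eq_smul_one, smul_eq_mul]
        module }
  obtain ⟨l, l0, l1⟩ := exists_ext (LinearMap.fst ℂ B ℂ ∘ₗ Γ.subtype) (LinearMap.snd ℂ B ℂ ∘ₗ Γ.subtype)
    fun p => le_of_forall_pos_le_add fun ε hε => by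
      obtain ⟨k, hk⟩ := (p.2 ε hε).exists
      exact hk.le (y0 k)
  have l2 : ∀ z w, (z, w) ∈ Γ → l z = w := fun z w h => l1 ⟨_, h⟩
  have l3 : ∀ j ε, 0 < ε → ∀ᶠ k in atTop,
      ExcR (y k) (denseSeq B j - algebraMap ℂ B (l (denseSeq B j))) ε := fun j => by
    have k1 : ∀ m, ExcR (y (j.pair m + 1))
        (denseSeq B j - algebraMap ℂ B (c (j.pair m) (y (j.pair m)))) (1 / ((m : ℝ) + 1)) := fun m => by
      have := h2 (j.pair m) _ (y0 (j.pair m))
      rw [Nat.unpair_pair] at this
      exact this.mono (Nat.one_div_le_one_div (Nat.right_le_pair j m))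
    obtain ⟨w, -, φ, hφ, hw⟩ := (isCompact_closedBall (0 : ℂ) (‖denseSeq B j‖ + 1)).tendsto_subseq
      (x := fun m => c (j.pair m) (y (j.pair m))) fun m => mem_closedBall_zero_iff.2
        (((k1 m).mono (div_le_one_of_le₀ (by simp) (by positivity))).le (y0 (j.pair m + 1)))
    have : (denseSeq B j, w) ∈ Γ := fun ε hε => by
      obtain ⟨m, m1, m2⟩ := (((tendsto_iff_norm_sub_tendsto_zero.1 hw).eventually_le_const
        (half_pos hε)).and ((tendsto_one_div_add_atTop_nhds_zero_nat.comp
          hφ.tendsto_atTop).eventually_le_const (half_pos hε))).exists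
      refine ev (k := j.pair (φ m) + 1) ?_
      convert ((k1 (φ m)).add (ExcR.norm _ (algebraMap ℂ B (c (j.pair (φ m)) (y (j.pair (φ m))) - w)))).mono
        (ε' := ε) ?_ using 1
      · simp
      · have := (norm_algebraMap B _).trans_le (mul_le_mul m1 norm_one_le' (norm_nonneg _)
          (half_pos hε).le)
        simp only [Function.comp] at this m2
        linarith
    rw [l2 _ _ this]; exact this
  have e1 : l e = 1 := l2 _ _ fun ε hε => ev (k := 0) fun x x' => by
    change ‖star (b * x) * (e - algebraMap ℂ B 1) * (b * x')‖ ≤ _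
    rw [map_one, mul_assoc, sub_one_mul, ← mul_assoc e, eb, sub_self, mul_zero, norm_zero]
    positivity
  refine ⟨l, ⟨l0, l2 _ _ fun ε hε => .of_forall fun k => (ExcR.norm _ _).mono (by simpa using hε.le)⟩,
    ⟨e, he, by simp [e1]⟩, fun S ε hε => ?_⟩
  obtain ⟨k, hk⟩ := ((eventually_all_finset S (l := atTop)
    (p := fun z k => ExcR (y k) (z - algebraMap ℂ B (l z)) ε)).2 fun z _ => by
      obtain ⟨j, hj⟩ := (denseRange_denseSeq B).exists_dist_lt z (ε := ε / 3) (by positivity)
      rw [dist_eq_norm] at hj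
      filter_upwards [l3 j (ε / 3) (by positivity)] with k hk
      convert ((hk.add (ExcR.norm _ (z - denseSeq B j))).add
        (ExcR.norm _ (algebraMap ℂ B (l (denseSeq B j - z))))).mono (ε' := ε) ?_ using 1
      · simp only [map_sub]; abel
      · have := (norm_algebraMap B _).trans_le (mul_le_mul (l0 (denseSeq B j - z)) norm_one_le'
          (norm_nonneg _) (norm_nonneg _))
        rw [norm_sub_rev] at hj
        rw [norm_sub_rev z]
        linarith).exists
  exact ⟨y k, yI k, y0 k, hk⟩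

end Vale.Agent.P095
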