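import Vale.Agent.P095.Basic

/-! Quotients of C*-algebras and the central sequence algebra. -/

open Filter Topology TopologicalSpace BoundedContinuousFunction
open scoped BoundedContinuousFunction

namespace Vale.Agent.P095

open Vale.Agent.P101

theorem quot_unit {R : Type*} [CStarAlgebra R] (J : TwoSidedIdeal R) {y : R} (hy : y ∈ J) {ε : ℝ}
    (hε : 0 < ε) : ∃ e ∈ J, SC (1 - e) ∧ ‖y * (1 - e)‖ ≤ ε := by
  have sa := IsSelfAdjoint.star_mul_self y
  have sp := (Pos.sq y).spec
  have cg : ContinuousOn (fun t : ℝ => (t + ε ^ 2)⁻¹) (spectrum ℝ (star y * y)) :=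
    ContinuousOn.inv₀ (by fun_prop) fun t ht => by have := sp t ht; positivity
  have cf : ContinuousOn (fun t : ℝ => 1 - t * (t + ε ^ 2)⁻¹) (spectrum ℝ (star y * y)) :=
    continuousOn_const.sub ((continuousOn_id' _).mul cg)
  have e1 : 1 - star y * y * cfc (fun t : ℝ => (t + ε ^ 2)⁻¹) (star y * y) =
      cfc (fun t : ℝ => 1 - t * (t + ε ^ 2)⁻¹) (star y * y) := by
    rw [cfc_sub (fun _ => 1) (fun t => t * (t + ε ^ 2)⁻¹) _ continuousOn_const
      ((continuousOn_id' _).mul cg), cfc_const_one ℝ _,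
      cfc_mul _ _ _ (continuousOn_id' _) cg, cfc_id' ℝ _]
  have e2 : ∀ t, 0 ≤ t → 1 - t * (t + ε ^ 2)⁻¹ = ε ^ 2 / (t + ε ^ 2) := fun t ht => by
    field_simp; ring
  refine ⟨star y * y * cfc (fun t : ℝ => (t + ε ^ 2)⁻¹) (star y * y),
    J.mul_mem_right _ _ (J.mul_mem_left _ _ hy), ?_, ?_⟩ <;> rw [e1]
  · refine ⟨IsSelfAdjoint.cfc, norm_cfc_le zero_le_one fun t ht => ?_⟩
    have := sp t ht
    rw [e2 t this, Real.norm_of_nonneg (by positivity), div_le_one (by positivity)]
    linarith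
  · refine abs_le_of_sq_le_sq' ?_ hε.le |>.2
    rw [sq, ← CStarRing.norm_star_mul_self, star_mul, IsSelfAdjoint.cfc.star_eq, mul_assoc,
      ← mul_assoc (star y)]
    nth_rw 2 [← cfc_id' ℝ (star y * y)]
    rw [← cfc_mul _ _ _ (continuousOn_id' _) cf, ← cfc_mul _ (fun t => t * _) _ cf
      ((continuousOn_id' _).mul cf)]
    refine norm_cfc_le (sq_nonneg _) fun t ht => ?_
    have := sp t ht
    rw [e2 t this, Real.norm_of_nonneg (by positivity), div_mul_eq_mul_div, mul_div_assoc', ← mul_div_assoc,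
      div_div, div_le_iff₀ (by positivity)]
    have := sq_nonneg ε
    nlinarith [mul_nonneg this (mul_nonneg this this), mul_nonneg this (sq_nonneg t),
      mul_nonneg (mul_nonneg this this) ‹0 ≤ t›]

theorem quotS : QuotS := by
  intro R _ J hJ hs
  let K : Ideal R := J.asIdeal
  have hK : ∀ x, x ∈ K ↔ x ∈ J := fun x => TwoSidedIdeal.mem_asIdeal
  have : IsClosed (K : Set R) := hJ
  let U := R ⧸ K
  have le : ∀ x : R, ‖(Submodule.Quotient.mk x : U)‖ ≤ ‖x‖ := fun x => Submodule.Quotient.norm_mk_le _ x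
  have ap : ∀ (x : U) (ε : ℝ), 0 < ε → ∃ y : R, Submodule.Quotient.mk y = x ∧ ‖y‖ < ‖x‖ + ε :=
    fun x ε hε => Submodule.Quotient.norm_mk_lt x hε
  letI r : NormedRing U :=
    { __ := Ideal.Quotient.ring K
      __ := Submodule.Quotient.normedAddCommGroup K
      norm_mul_le := fun x y => by
        refine le_of_forall_pos_le_add fun ε hε => ?_
        have t : ContinuousAt (fun p : ℝ => (‖x‖ + p) * (‖y‖ + p)) 0 := by fun_prop
        obtain ⟨δ, h1, h2⟩ := ((t.eventually (gt_mem_nhds (a := ‖x‖ * ‖y‖ + ε) (by simpa))).filter_mono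
          (nhdsWithin_le_nhds (s := Set.Ioi 0)) |>.and self_mem_nhdsWithin).exists
        obtain ⟨a, rfl, ha⟩ := ap x δ h2
        obtain ⟨b, rfl, hb⟩ := ap y δ h2
        exact ((le (a * b)).trans ((norm_mul_le a b).trans (mul_le_mul ha.le hb.le (norm_nonneg _)
          ((norm_nonneg _).trans ha.le)))).trans h1.le }
  letI s : StarRing U :=
    { star := Quotient.map' star fun x y h => by
        rw [Submodule.quotientRel_def] at h ⊢
        rw [← star_sub]
        exact (hK _).2 (hs _ ((hK _).1 h))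
      star_involutive := by rintro ⟨x⟩; exact congrArg (Ideal.Quotient.mk _) (star_star x)
      star_mul := by rintro ⟨x⟩ ⟨y⟩; exact congrArg (Ideal.Quotient.mk _) (star_mul x y)
      star_add := by rintro ⟨x⟩ ⟨y⟩; exact congrArg (Ideal.Quotient.mk _) (star_add x y) }
  letI a : Algebra ℂ U := Ideal.Quotient.algebra ℂ
  letI : CStarAlgebra U :=
    { __ := r, __ := s, __ := a
      star_smul := by rintro c ⟨x⟩; exact congrArg (Ideal.Quotient.mk _) (star_smul c x)
      complete := (Submodule.Quotient.completeSpace K).complete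
      norm_mul_self_le := by
        rintro ⟨x⟩
        change ‖(Submodule.Quotient.mk x : U)‖ * ‖(Submodule.Quotient.mk x : U)‖ ≤
          ‖(Submodule.Quotient.mk (star x * x) : U)‖
        refine le_of_forall_pos_le_add fun ε hε => ?_
        obtain ⟨b, hb, hb'⟩ := ap (Submodule.Quotient.mk (star x * x)) _ (half_pos hε)
        obtain ⟨e, he, e1, e2⟩ := quot_unit J ((hK _).1 ((Submodule.Quotient.eq _).1 hb.symm))
          (half_pos hε)
        have h1 : (Submodule.Quotient.mk x : U) = Submodule.Quotient.mk (x * (1 - e)) :=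
          (Submodule.Quotient.eq _).2 ((hK _).2 (by
            rw [mul_sub, mul_one, sub_sub_cancel]; exact J.mul_mem_left _ _ he))
        have h2 := le (x * (1 - e))
        rw [← h1] at h2
        refine (mul_self_le_mul_self (norm_nonneg _) h2).trans ?_
        rw [← CStarRing.norm_star_mul_self, star_mul, e1.sa.star_eq,
          show (1 - e) * star x * (x * (1 - e)) = (1 - e) * (b * (1 - e) + (star x * x - b) * (1 - e)) by
            noncomm_ring]
        have h3 := (norm_mul_le b (1 - e)).trans (mul_le_of_le_one_right (norm_nonneg _) e1.le)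
        refine (norm_mul_le _ _).trans ((mul_le_of_le_one_left (norm_nonneg _) e1.le).trans
          ((norm_add_le _ _).trans ?_))
        linarith
      norm_smul_le := fun c x => by
        refine le_of_forall_pos_le_add fun ε hε => ?_
        obtain ⟨y, rfl, hy⟩ := ap x (ε / (‖c‖ + 1)) (by positivity)
        refine (le (c • y)).trans ((norm_smul_le c y).trans ?_)
        have := mul_le_mul_of_nonneg_left hy.le (norm_nonneg c)
        have e : ‖c‖ * (ε / (‖c‖ + 1)) ≤ ε := by
          rw [mul_div_assoc', div_le_iff₀ (by positivity)]; nlinarith [norm_nonneg c]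
        linarith }
  exact ⟨U, this, { Ideal.Quotient.mkₐ ℂ K with map_star' := fun _ => rfl },
    Ideal.Quotient.mk_surjective, fun x => Ideal.Quotient.eq_zero_iff_mem.trans (hK x)⟩

theorem Sys.kill {B V : Type} [CStarAlgebra B] [CStarAlgebra V] {I : TwoSidedIdeal B} (h : Sys B I)
    (j : B →⋆ₐ[ℂ] V) {f : V} (hf : ∀ b, Commute f (j b)) {b : B} (hb : b ∈ I) (h0 : b ≠ 0)
    (e : f * j b = 0) : ∀ a ∈ I, f * j a = 0 := by
  let K := TwoSidedIdeal.mk' {y | y ∈ I ∧ f * j y = 0} ⟨I.zero_mem, by simp⟩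
    (fun {x y} hx hy => ⟨I.add_mem hx.1 hy.1, by rw [map_add, mul_add, hx.2, hy.2, add_zero]⟩)
    (fun {x} hx => ⟨I.neg_mem hx.1, by rw [map_neg, mul_neg, hx.2, neg_zero]⟩)
    (fun {x y} hy => ⟨I.mul_mem_left _ _ hy.1, by
      rw [map_mul, ← mul_assoc, (hf x).eq, mul_assoc, hy.2, mul_zero]⟩)
    (fun {x y} hx => ⟨I.mul_mem_right _ _ hx.1, by rw [map_mul, ← mul_assoc, hx.2, zero_mul]⟩)
  have hK : ∀ y, y ∈ K ↔ y ∈ I ∧ f * j y = 0 := fun y => TwoSidedIdeal.mem_mk' ..
  rcases h.simple K (by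
    rw [TwoSidedIdeal.coe_mk']
    exact h.closed.inter (isClosed_eq (by fun_prop) continuous_const))
    (fun y hy => ((hK y).1 hy).1) with e1 | e1
  · exact absurd ((TwoSidedIdeal.mem_bot _).1 (e1 ▸ (hK b).2 ⟨hb, e⟩)) h0
  · exact fun a ha => ((hK a).1 (e1 ▸ ha)).2

theorem posPart_ne {M : Type*} [CStarAlgebra M] {x : M} (hx : Pos x) {r : ℝ} (h0 : 0 ≤ r)
    (hr : r < ‖x‖) : cfc (fun t : ℝ => max (t - r) 0) x ≠ 0 := fun h => by
  have := hx.sa
  refine hr.not_ge ?_
  rw [← cfc_id' ℝ x]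
  refine norm_cfc_le h0 fun t ht => ?_
  have h1 := norm_apply_le_norm_cfc (fun t : ℝ => max (t - r) 0) x ht
  rw [h, norm_zero, norm_le_zero_iff] at h1
  rw [Real.norm_of_nonneg (hx.spec t ht)]
  linarith [le_max_left (t - r) 0]

theorem posPart_eq {M : Type*} [CStarAlgebra M] {x : M} (hx : Pos x) {r : ℝ} (h0 : 0 < r) :
    cfc (fun t : ℝ => max (t - r) 0) x = x * cfc (fun t : ℝ => max (t - r) 0 / max t r) x := by
  have := hx.sa
  have c : Continuous fun t : ℝ => max (t - r) 0 / max t r :=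
    Continuous.div (by fun_prop) (by fun_prop) fun t => (h0.trans_le (le_max_right _ _)).ne'
  nth_rw 2 [← cfc_id' ℝ x]
  rw [← cfc_mul _ _ _ (continuousOn_id' _) c.continuousOn]
  refine cfc_congr fun t _ => ?_
  rcases le_total t r with h | h
  · simp [h]
  · have := h0.trans_le h
    simp only [max_eq_left h]; field_simp

theorem posPart_mul {M : Type*} [CStarAlgebra M] {x : M} (hx : IsSelfAdjoint x) (r : ℝ) :
    Pos (cfc (fun t : ℝ => max (t - r) 0) x * (x - r • 1)) := by
  rw [show x - r • 1 = cfc (fun t : ℝ => t - r) x by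
    rw [cfc_sub .., cfc_id' ℝ x, cfc_const _ _, Algebra.algebraMap_eq_smul_one], ← cfc_mul ..]
  refine Pos.cfc fun t _ => ?_
  rcases le_total t r with h | h
  · simp [h]
  · exact mul_nonneg (le_max_right _ _) (sub_nonneg.2 h)

theorem le_norm_of_conj {M : Type*} [CStarAlgebra M] {x w : M} (hx : IsSelfAdjoint x) (hw : Pos w)
    (h0 : w ≠ 0) (hc : Commute x w) {r : ℝ} (h : Pos (w * x - r • w)) : r ≤ ‖x‖ := by
  by_contra hr
  have h1 := (hw.mul (Pos.of_norm hx le_rfl) (((Commute.one_right _).smul_right _).sub_right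
    hc.symm)).add h
  rw [mul_sub, mul_smul_comm, mul_one, sub_add_sub_cancel, ← sub_smul] at h1
  have h2 := (hw.smul (r := r - ‖x‖) (by linarith)).norm_le (y := 0) (by
    rwa [zero_sub, ← neg_smul, neg_sub])
  rw [norm_zero, norm_le_zero_iff, smul_eq_zero, sub_eq_zero] at h2
  exact h2.elim (fun e => hr e.le) h0

theorem isFS : IsFS := by
  intro G B V _ _ _ I j α β hS hI hj hβ
  let J : TwoSidedIdeal (Cm j) := TwoSidedIdeal.mk' {x | ∀ a ∈ I, (x : V) * j a = 0} (by simp)
    (fun {x y} hx hy a ha => by simp [add_mul, hx a ha, hy a ha])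
    (fun {x} hx a ha => by simp [hx a ha])
    (fun {x y} hy a ha => by simp [mul_assoc, hy a ha])
    (fun {x y} hx a ha => by
      rw [MulMemClass.coe_mul, mul_assoc, (mem_Cm.1 y.2 a).eq, ← mul_assoc, hx a ha, zero_mul])
  have hJ : ∀ x, x ∈ J ↔ ∀ a ∈ I, (x : V) * j a = 0 := fun x => TwoSidedIdeal.mem_mk' ..
  obtain ⟨F, _, q, q1, q2⟩ := quotS (Cm j) J (by
    rw [TwoSidedIdeal.coe_mk']
    simp only [Set.ofPred_forall]
    exact isClosed_iInter fun a => isClosed_iInter fun _ =>
      isClosed_eq (by fun_prop) continuous_const) fun x hx => (hJ _).2 fun a ha => by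
      have := congrArg star ((hJ x).1 hx _ (hS.star a ha))
      rwa [(mem_Cm.1 x.2 _).eq, star_mul, ← map_star, star_star, star_zero] at this
  have hm : ∀ g, ∀ x ∈ Cm j, β g x ∈ Cm j := fun g x hx => mem_Cm.2 fun b => by
    rw [← act_inv α g b, ← hβ]; exact (mem_Cm.1 hx _).map _
  let β' : Act G (Cm j) := mkAct (fun g => ((β g : V →⋆ₐ[ℂ] V).comp (Cm j).subtype).codRestrict _
    fun x => hm g x x.2) (fun y => Subtype.ext (by simp)) fun g g' y => Subtype.ext (act_mul β g g' y)
  obtain ⟨γ, hγ⟩ := exists_act q1 β' fun g x hx => (q2 _).2 ((hJ _).2 fun a ha => by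
    change β g x * j a = 0
    rw [← act_inv α g a, ← hβ, ← map_mul, (hJ x).1 ((q2 x).1 hx) _ (hI _ _ ha), map_zero])
  refine ⟨F, _, q, γ, ⟨q1, fun x a ha => le_antisymm ?_ ?_⟩, fun g x y e => ?_⟩
  · obtain ⟨x', e, hx⟩ := lift_norm q1 (q x)
    have := (hJ _).1 ((q2 (x' - x)).1 (by rw [map_sub, e, sub_self])) a ha
    rw [AddSubgroupClass.coe_sub, sub_mul, sub_eq_zero] at this
    rw [← this]
    exact (norm_mul_le _ _).trans (mul_le_mul hx (hj a ha).le (norm_nonneg _) (norm_nonneg _))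
  · refine abs_le_of_sq_le_sq' ?_ (norm_nonneg _) |>.2
    rw [mul_pow, sq, sq, sq, ← CStarRing.norm_star_mul_self, ← CStarRing.norm_star_mul_self,
      ← CStarRing.norm_star_mul_self]
    refine le_of_forall_lt fun c hc => ?_
    rcases lt_or_ge c 0 with c0 | c0
    · exact c0.trans_le (norm_nonneg _)
    obtain ⟨r, s, r0, s0, h1, h2, h3⟩ : ∃ r s : ℝ, 0 ≤ r ∧ 0 < s ∧ r < ‖star (q x) * q x‖ ∧
        s < ‖star a * a‖ ∧ c < r * s := by
      set X := ‖star (q x) * q x‖
      set Y := ‖star a * a‖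
      have X0 : 0 ≤ X := norm_nonneg _
      have Y0 : 0 < Y := lt_of_le_of_ne (norm_nonneg _) fun e => by
        rw [← e, mul_zero] at hc; exact hc.not_ge c0
      have X1 : 0 < X := (pos_iff_pos_of_mul_pos (c0.trans_lt hc)).2 Y0
      have t : ContinuousAt (fun p : ℝ => p * X * (p * Y)) 1 := by fun_prop
      obtain ⟨p, h1, h2⟩ := ((t.eventually (lt_mem_nhds (a := c) (by simpa))).filter_mono
        (nhdsWithin_le_nhds (s := Set.Iio 1)) |>.and (Ioo_mem_nhdsLT zero_lt_one)).exists
      exact ⟨p * X, p * Y, by have := h2.1; positivity, by have := h2.1; positivity,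
        mul_lt_of_lt_one_left X1 h2.2, mul_lt_of_lt_one_left Y0 h2.2, h1⟩
    have pa : Pos (star a * a) := Pos.sq a
    set f := cfc (fun t : ℝ => max (t - r) 0) (star x * x)
    set b := cfc (fun t : ℝ => max (t - s) 0) (star a * a)
    have pf : Pos f := Pos.cfc fun t _ => le_max_right _ _
    have pb : Pos b := Pos.cfc fun t _ => le_max_right _ _
    have cm : ∀ (y : Cm j) b, Commute (y : V) (j b) := fun y => mem_Cm.1 y.2
    have ne : (f : V) * j b ≠ 0 := fun e => posPart_ne (Pos.sq (q x)) r0 h1 (by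
      rw [← map_star, ← map_mul, ← map_cfc' q (by fun_prop) (Pos.sq x).sa]
      exact (q2 _).2 ((hJ _).2 (hS.kill j (cm f) (by
        simp only [b, posPart_eq pa s0]
        exact I.mul_mem_right _ _ (I.mul_mem_left _ _ ha)) (posPart_ne pa s0.le h2) e)))
    have e : star ((x : V) * j a) * (x * j a) = (star x * x : Cm j) * j (star a * a) := by
      rw [star_mul, ← map_star, ← StarMemClass.coe_star, mul_assoc, ← mul_assoc _ (x : V),
        ← MulMemClass.coe_mul, ← mul_assoc, ← (cm _ _).eq, map_mul, mul_assoc]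
    rw [e]
    have c1 : Commute f (star x * x) := (Commute.refl _).cfc_real _
    have c2 : Commute b (star a * a) := (Commute.refl _).cfc_real _
    have P1 := (posPart_mul (Pos.sq x).sa r).map (Cm j).subtype
    have P2 := (posPart_mul pa.sa s).map j
    have P3 := pf.map (Cm j).subtype
    have P4 := pb.map j
    have P5 := (Pos.sq x).map (Cm j).subtype
    simp only [StarSubalgebra.coe_subtype] at P1 P3 P5
    have c3 : Commute (f : V) (star x * x : Cm j) := congrArg Subtype.val c1.eq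
    refine h3.trans_le (le_norm_of_conj (P5.mul (pa.map j) (cm _ _)).sa (P3.mul P4 (cm _ _)) ne
      ((c3.symm.mul_right (cm _ _)).mul_left ((cm _ _).symm.mul_right (c2.symm.map j))) ?_)
    convert ((P1.mul ((pb.mul pa c2).map j) (cm _ _)).add
      ((P3.mul P2 (cm _ _)).smul r0)) using 1
    have k := (cm (star x * x) b).eq
    have k1 : ((f * (star x * x - r • 1) : Cm j) : V) = f * ((star x * x : Cm j) - r • 1) := rfl
    rw [k1, map_mul j b, map_mul j b, map_sub, map_rsmul, map_one]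
    generalize ((star x * x : Cm j) : V) = X at *
    generalize j (star a * a) = Y at *
    rw [mul_assoc, ← mul_assoc (j b), ← k]
    simp only [mul_sub, sub_mul, mul_smul_comm, smul_mul_assoc, mul_one, smul_sub, smul_smul,
      mul_assoc]
    abel
  · rw [hγ]; exact congrArg q (Subtype.ext e)

theorem ctxS : CtxS := by
  intro G B _ _ I α hS hI
  obtain ⟨U, _, ul, hU, -⟩ := exists_ultra B (hyperfilter ℕ)
  obtain ⟨β, hβ⟩ := exists_act hU.surj (postAct α) fun g x hx => by
    have := hU.lim x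
    rw [hx, norm_zero] at this
    exact norm_eq_zero.1 (tendsto_nhds_unique (hU.lim _) (this.congr fun n => (act_norm α g _).symm))
  obtain ⟨F, _, q, γ, h1, h2⟩ := isFS G B U I (ul.comp cst) α β hS hI
    (fun a _ => tendsto_nhds_unique (hU.lim (const ℕ a)) tendsto_const_nhds) fun g b => hβ g _
  exact ⟨⟨hyperfilter ℕ, U, ul, β, F, q, γ, hS, hI, hyperfilter_le_cofinite, hU, hβ, h1, h2⟩⟩

end Vale.Agent.P095
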