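import Vale.Agent.P095.Basic

/-! The local inequality on a tree-like set. -/

namespace Vale.Agent.P095.Free

open Finset

variable {B : Type} [CStarAlgebra B] {κ H : Type} [Fintype κ] [Fintype H] {x : κ → B} {θ : ℝ}

theorem norm_single (hθ : ‖∑ i, x i * star (x i)‖ ≤ θ) (i : κ) : ‖star (x i) * x i‖ ≤ θ := by
  classical
  have p : ∀ j, Pos (x j * star (x j)) := fun j => by simpa using Pos.sq (star (x j))
  have := (p i).norm_le (y := ∑ j, x j * star (x j)) (by
    rw [← add_sum_erase _ _ (mem_univ i), add_sub_cancel_left]; exact Pos.sum fun j _ => p j)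
  rw [CStarRing.norm_self_mul_star] at this
  rw [CStarRing.norm_star_mul_self]
  exact this.trans hθ

theorem row (hθ : ‖∑ i, x i * star (x i)‖ ≤ θ) (y : κ → B) :
    Pos (θ • ∑ i, star (y i) * y i - star (∑ i, x i * y i) * ∑ i, x i * y i) := by
  rcases ((norm_nonneg _).trans hθ).eq_or_lt with h0 | h0
  · have : ∀ i, x i = 0 := fun i => by
      have := norm_single hθ i
      rw [CStarRing.norm_star_mul_self, ← h0] at this
      exact norm_eq_zero.1 (mul_self_eq_zero.1 (this.antisymm (mul_self_nonneg _)))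
    simpa [this, ← h0] using Pos.zero
  obtain ⟨z, hz⟩ : ∃ z, z = ∑ i, x i * y i := ⟨_, rfl⟩
  have sa : IsSelfAdjoint (∑ i, x i * star (x i)) :=
    (Pos.sum fun j _ => by simpa using Pos.sq (star (x j))).sa
  have p := ((Pos.sum fun i (_ : i ∈ univ) => Pos.sq (θ • y i - star (x i) * z)).add
    ((Pos.of_norm sa hθ).conj z)).smul (inv_pos.2 h0).le
  have e1 : ∑ i, star (y i) * (star (x i) * z) = star z * z := by
    conv_rhs => rw [hz, star_sum, sum_mul, ← hz]
    simp only [star_mul, mul_assoc]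
  have e2 : ∑ i, star z * (x i * y i) = star z * z := by rw [← mul_sum, ← hz]
  have e3 : ∑ i, star (θ • y i - star (x i) * z) * (θ • y i - star (x i) * z) =
      (θ * θ) • ∑ i, star (y i) * y i - θ • (star z * z) - θ • (star z * z) +
        star z * (∑ i, x i * star (x i)) * z := by
    conv_rhs => rw [← e1]
    nth_rw 2 [e1]
    conv_rhs => rw [← e2]
    simp only [smul_sum, mul_sum, sum_mul, ← sum_sub_distrib, ← sum_add_distrib]
    refine sum_congr rfl fun i _ => ?_
    simp only [star_sub, star_smul, star_trivial, star_mul, star_star, sub_mul, mul_sub,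
      smul_mul_assoc, mul_smul_comm, smul_smul, mul_assoc, smul_sub]
    abel
  rw [← hz]
  convert p using 1
  rw [e3]
  simp only [mul_sub, sub_mul, mul_smul_comm, smul_mul_assoc, mul_one, smul_add, smul_sub, smul_smul,
    ← mul_assoc, inv_mul_cancel₀ h0.ne', one_mul, one_smul]
  abel

theorem loc (hθ : ‖∑ i, x i * star (x i)‖ ≤ θ) (π : κ → Equiv.Perm H) (η : H → B)
    (A : H → κ → Prop) (h1 : ∀ h i j, η h ≠ 0 → A h i → A h j → i = j)
    (h2 : ∀ h i j, η (π i h) ≠ 0 → η (π j h) ≠ 0 → ¬A (π i h) i → ¬A (π j h) j → i = j) :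
    Pos (∑ h, ((2 : ℝ) • (star (∑ i, x i * η (π i h)) * ∑ i, x i * η (π i h)) -
      star (η h) * (∑ i, star (x i) * x i - algebraMap ℝ B (3 * θ)) * η h)) := by
  classical
  have θ0 : 0 ≤ θ := (norm_nonneg _).trans hθ
  obtain ⟨ya, hya⟩ : ∃ ya : H → κ → B, ∀ h i, ya h i = if A h i then η h else 0 := ⟨_, fun _ _ => rfl⟩
  obtain ⟨yb, hyb⟩ : ∃ yb : H → κ → B, ∀ h i, yb h i = if A h i then 0 else η h := ⟨_, fun _ _ => rfl⟩
  obtain ⟨a, ha⟩ : ∃ a : H → B, ∀ h, a h = ∑ i, x i * ya (π i h) i := ⟨_, fun _ => rfl⟩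
  obtain ⟨b, hb⟩ : ∃ b : H → B, ∀ h, b h = ∑ i, x i * yb (π i h) i := ⟨_, fun _ => rfl⟩
  have eT : ∀ h, ∑ i, x i * η (π i h) = a h + b h := fun h => by
    rw [ha, hb, ← sum_add_distrib]
    refine sum_congr rfl fun i _ => ?_
    rw [hya, hyb]; split_ifs <;> simp
  have E1 : ∀ h, star (b h) * b h =
      ∑ i, star (yb (π i h) i) * (star (x i) * x i) * yb (π i h) i := fun h => by
    rw [hb, star_sum, sum_mul_sum]
    refine sum_congr rfl fun i _ => ?_
    rw [sum_eq_single i (fun j _ hj => ?_) (by simp)]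
    · simp only [star_mul, mul_assoc]
    by_contra hc
    have c1 : yb (π i h) i ≠ 0 := fun e => hc (by simp [e])
    have c2 : yb (π j h) j ≠ 0 := fun e => hc (by simp [e])
    rw [hyb] at c1 c2
    simp only [ne_eq, ite_eq_left_iff, Classical.not_imp] at c1 c2
    exact hj (h2 h j i c2.2 c1.2 c2.1 c1.1)
  have re : ∀ F : H → κ → B, ∑ h, ∑ i, F (π i h) i = ∑ h, ∑ i, F h i := fun F => by
    rw [sum_comm, sum_comm (s := (univ : Finset H))]
    exact sum_congr rfl fun i _ => Equiv.sum_comp (π i) fun h => F h i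
  have E2 := re fun h i => star (yb h i) * (star (x i) * x i) * yb h i
  have E3 := re fun h i => star (ya h i) * ya h i
  have E4 : ∀ h, star (η h) * (∑ i, star (x i) * x i) * η h =
      ∑ i, star (ya h i) * (star (x i) * x i) * ya h i +
        ∑ i, star (yb h i) * (star (x i) * x i) * yb h i := fun h => by
    rw [mul_sum, sum_mul, ← sum_add_distrib]
    refine sum_congr rfl fun i _ => ?_
    rw [hya, hyb]; split_ifs <;> simp
  have P3 : ∀ h, Pos ((3 * θ) • (star (η h) * η h) - (∑ i, star (ya h i) * (star (x i) * x i) * ya h i +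
      (2 * θ) • ∑ i, star (ya h i) * ya h i)) := fun h => by
    by_cases c : ∃ i, ya h i ≠ 0
    · obtain ⟨i, hi⟩ := c
      have z : ∀ j, j ≠ i → ya h j = 0 := fun j hj => by
        by_contra hc
        rw [hya] at hi hc
        simp only [ne_eq, ite_eq_right_iff, Classical.not_imp] at hi hc
        exact hj (h1 h j i hi.2 hc.1 hi.1)
      have e : ya h i = η h := by
        rw [hya] at hi ⊢
        simp only [ne_eq, ite_eq_right_iff, Classical.not_imp] at hi
        exact if_pos hi.1
      rw [sum_eq_single i (fun j _ hj => by simp [z j hj]) (by simp),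
        sum_eq_single i (fun j _ hj => by simp [z j hj]) (by simp), e]
      convert (Pos.of_norm (IsSelfAdjoint.star_mul_self (x i)) (norm_single hθ i)).conj (η h) using 1
      simp only [mul_sub, sub_mul, mul_smul_comm, smul_mul_assoc, mul_one]
      module
    · push Not at c
      simpa [c] using (Pos.sq (η h)).smul (r := 3 * θ) (by positivity)
  have p := ((Pos.sum fun h (_ : h ∈ univ) => Pos.sq ((2 : ℝ) • a h + b h)).add
    ((Pos.sum fun h (_ : h ∈ univ) => row hθ fun i => ya (π i h) i).smul (r := 2) zero_le_two)).add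
    (Pos.sum fun h (_ : h ∈ univ) => P3 h)
  have e5 : ∀ h, (2 : ℝ) • (star (a h + b h) * (a h + b h)) =
      star ((2 : ℝ) • a h + b h) * ((2 : ℝ) • a h + b h) - (2 : ℝ) • (star (a h) * a h) +
        star (b h) * b h := fun h => by
    simp only [star_add, star_smul, star_trivial, add_mul, mul_add, smul_mul_assoc, mul_smul_comm]
    module
  convert p using 1
  simp only [← ha, eT, e5, E1, mul_sub, sub_mul, E4, Algebra.algebraMap_eq_smul_one, mul_smul_comm,
    smul_mul_assoc, mul_one, sum_sub_distrib, sum_add_distrib, ← smul_sum, E2, E3]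
  module

end Vale.Agent.P095.Free
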