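import Vale.Agent.P095.FreeC

/-! The matrix of the form and the removal of the bad eigenvectors. -/

namespace Vale.Agent.P095.Free

open Finset Matrix

variable {κ ν H : Type} [Fintype κ] [Fintype ν] [Fintype H] [DecidableEq ν] [DecidableEq H]

/-- The matrix of the form. -/
noncomputable def Ym (α : κ → κ → ν → ν → ℂ) (β : ν → ν → ℂ) (π : κ → Equiv.Perm H) :
    Matrix (ν × H) (ν × H) ℂ :=
  ∑ h, ∑ a, ∑ b, (∑ i, ∑ j, single (a, π i h) (b, π j h) (α i j a b) - single (a, h) (b, h) (β a b))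

variable {α : κ → κ → ν → ν → ℂ} {β : ν → ν → ℂ} {π : κ → Equiv.Perm H}

theorem form_Ym {E : Type} [CStarAlgebra E] (f : ν × H → E) : form f (Ym α β π) =
    ∑ h, ∑ a, ∑ b, (∑ i, ∑ j, α i j a b • (star (f (a, π i h)) * f (b, π j h)) -
      β a b • (star (f (a, h)) * f (b, h))) := by
  simp only [Ym, map_sum, map_sub, form_single]

theorem Ym_herm (hα : ∀ i j a b, star (α i j a b) = α j i b a) (hβ : ∀ a b, star (β a b) = β b a) :
    (Ym α β π).IsHermitian := by
  simp only [IsHermitian, Ym, conjTranspose_sum, conjTranspose_sub, conjTranspose_single, hα, hβ]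
  refine sum_congr rfl fun h _ => ?_
  rw [sum_comm]
  exact sum_congr rfl fun a _ => sum_congr rfl fun b _ => by rw [sum_comm]

theorem Ym_supp {p q : ν × H} (hp : Ym α β π p q ≠ 0) :
    p.2 = q.2 ∨ ∃ h i j, π i h = p.2 ∧ π j h = q.2 := by
  by_contra hc
  push Not at hc
  refine hp ?_
  simp only [Ym, Matrix.sum_apply, Matrix.sub_apply]
  refine sum_eq_zero fun h _ => sum_eq_zero fun a _ => sum_eq_zero fun b _ => ?_
  rw [sum_eq_zero fun i _ => sum_eq_zero fun j _ => ?_, single_apply_of_ne, sub_zero]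
  · rintro ⟨rfl, rfl⟩; exact hc.1 rfl
  · refine single_apply_of_ne _ _ _ _ _ ?_
    rintro ⟨rfl, rfl⟩; exact hc.2 h i j rfl rfl

omit [DecidableEq ν] [DecidableEq H] in
theorem pair_bound (f : ν × H → ℂ) (a b : ν) (σ τ : Equiv.Perm H) :
    ∑ h, ‖f (a, σ h)‖ * ‖f (b, τ h)‖ ≤ ∑ p, ‖f p‖ ^ 2 := by
  have k : ∀ (a : ν) (σ : Equiv.Perm H), ∑ h, ‖f (a, σ h)‖ ^ 2 ≤ ∑ p, ‖f p‖ ^ 2 := fun a σ => by
    rw [Equiv.sum_comp σ fun h => ‖f (a, h)‖ ^ 2, Fintype.sum_prod_type]
    exact single_le_sum (f := fun a => ∑ h, ‖f (a, h)‖ ^ 2)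
      (fun _ _ => sum_nonneg fun _ _ => sq_nonneg _) (mem_univ a)
  have := sum_le_sum fun h (_ : h ∈ univ) => two_mul_le_add_sq ‖f (a, σ h)‖ ‖f (b, τ h)‖
  simp only [mul_assoc, ← mul_sum, sum_add_distrib] at this
  linarith [k a σ, k b τ]

theorem Ym_bound (f : ν × H → ℂ) : ‖form f (Ym α β π)‖ ≤
    (∑ a, ∑ b, (∑ i, ∑ j, ‖α i j a b‖ + ‖β a b‖)) * ∑ p, ‖f p‖ ^ 2 := by
  rw [form_Ym, sum_comm, sum_mul]
  refine norm_sum_le_of_le _ fun a _ => ?_
  rw [sum_comm, sum_mul]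
  refine norm_sum_le_of_le _ fun b _ => ?_
  have k : ∀ (c : ℂ) (σ τ : Equiv.Perm H),
      ‖∑ h, c • (star (f (a, σ h)) * f (b, τ h))‖ ≤ ‖c‖ * ∑ p, ‖f p‖ ^ 2 := fun c σ τ => by
    rw [← smul_sum, norm_smul]
    exact mul_le_mul_of_nonneg_left ((norm_sum_le_of_le _ fun h _ => by simp).trans
      (pair_bound f a b σ τ)) (norm_nonneg _)
  rw [sum_sub_distrib, add_mul, sum_comm, sum_mul]
  refine (norm_sub_le _ _).trans (add_le_add (norm_sum_le_of_le _ fun i _ => ?_) (k _ 1 1))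
  rw [sum_comm, sum_mul]
  exact norm_sum_le_of_le _ fun j _ => k _ _ _

theorem eig_bound {ι : Type} [Fintype ι] [DecidableEq ι] {Y V : Matrix ι ι ℂ} {t : ι → ℝ} {R : ℝ}
    (h2 : V * Vᴴ = 1) (hY : Y = Vᴴ * diagonal (fun s => (t s : ℂ)) * V)
    (hR : ∀ f : ι → ℂ, ‖form f Y‖ ≤ R * ∑ p, ‖f p‖ ^ 2) (s : ι) : |t s| ≤ R := by
  have e1 : form (fun q => Vᴴ q s) Y = t s := by
    rw [form_col, conjTranspose_conjTranspose, hY]
    simp only [mul_assoc]
    rw [h2, mul_one, ← mul_assoc, h2, one_mul, diagonal_apply_eq]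
  have e2 : ((∑ p, ‖Vᴴ p s‖ ^ 2 : ℝ) : ℂ) = 1 := by
    have := congrFun (congrFun h2 s) s
    rw [one_apply_eq, mul_apply] at this
    rw [← this]
    push_cast
    exact sum_congr rfl fun p _ => by simp [Complex.mul_conj']
  have := hR fun q => Vᴴ q s
  rwa [e1, Complex.ofReal_eq_one.1 e2, mul_one, Complex.norm_real, Real.norm_eq_abs] at this

omit [DecidableEq H] in
theorem bessel {E : Type} [CStarAlgebra E] [DecidableEq H] {V : Matrix (ν × H) (ν × H) ℂ}
    (h1 : Vᴴ * V = 1) (g : H → E) (a : ν) :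
    ∑ s, star (∑ h, V s (a, h) • g h) * ∑ h, V s (a, h) • g h = ∑ h, star (g h) * g h := by
  have := form_conj (fun p : ν × H => if p.1 = a then g p.2 else 0) V fun _ => 1
  rw [diagonal_one, mul_one, h1, form_one] at this
  simp only [Fintype.sum_prod_type_right, smul_ite, smul_zero, sum_ite_eq', mem_univ, if_true,
    one_smul, apply_ite star, star_zero, ite_mul, mul_ite, zero_mul, mul_zero] at this
  rw [Fintype.sum_prod_type_right, ← this]

theorem remove {Y : Matrix (ν × H) (ν × H) ℂ} (hY : Y.IsHermitian) {R η : ℝ} {j : ℕ} (hη : 0 < η)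
    (R0 : 0 ≤ R) (hR : ∀ f : ν × H → ℂ, ‖form f Y‖ ≤ R * ∑ p, ‖f p‖ ^ 2)
    (hp : ∀ p, Pos (form (fun q => (((R : ℂ) • 1 - Y) ^ j) q p) Y)) :
    ∃ (r : ℕ) (Ξ : Matrix (Fin r) H ℂ), (r : ℝ) * (η * ((R + η) ^ j) ^ 2) ≤
        Fintype.card ν * (Fintype.card ν * Fintype.card H * (R * (R ^ j) ^ 2)) ∧
      ∀ (E : Type) [CStarAlgebra E], (∀ f : H → E, Pos (∑ h, star (f h) * f h -
        ∑ s, star (∑ h, Ξ s h • f h) * ∑ h, Ξ s h • f h)) ∧
      ∀ f : ν → H → E, Pos (form (fun p => f p.1 p.2) Y + η • ∑ h, ∑ a, star (f a h) * f a h +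
        (R * Fintype.card ν * (Fintype.card ν + 1)) •
          ∑ a, ∑ s, star (∑ h, Ξ s h • f a h) * ∑ h, Ξ s h • f a h) := by
  obtain ⟨V, t, h1, h2, e⟩ := spec hY
  have ht := eig_bound h2 e hR
  have p0 : 0 ≤ ∑ s, t s * ((R - t s) ^ j) ^ 2 := by
    obtain ⟨y, hy⟩ := Pos.sum fun p (_ : p ∈ univ) => hp p
    rw [tr h1 h2 e, Complex.star_def, Complex.conj_mul', ← Complex.ofReal_pow,
      Complex.ofReal_inj] at hy
    rw [hy]; positivity
  have ct := count hη ht p0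
  obtain ⟨n, hn⟩ : ∃ n : ℝ, n = Fintype.card ν := ⟨_, rfl⟩
  have n0 : 0 ≤ n := by rw [hn]; positivity
  let e' := (Fintype.equivFin ({s // t s ≤ -η} × ν)).symm
  have key : ∀ (E : Type) [CStarAlgebra E] (g : H → E),
      ∑ s, star (∑ h, (((√(n + 1))⁻¹ : ℝ) * V (e' s).1 ((e' s).2, h)) • g h) *
        ∑ h, (((√(n + 1))⁻¹ : ℝ) * V (e' s).1 ((e' s).2, h)) • g h =
      (n + 1)⁻¹ • ∑ s, if t s ≤ -η then
        ∑ a, star (∑ h, V s (a, h) • g h) * ∑ h, V s (a, h) • g h else 0 := fun E _ g => by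
    rw [Equiv.sum_comp e' fun s => star (∑ h, (((√(n + 1))⁻¹ : ℝ) * V s.1 (s.2, h)) • g h) *
      ∑ h, (((√(n + 1))⁻¹ : ℝ) * V s.1 (s.2, h)) • g h, Fintype.sum_prod_type, ← sum_filter,
      sum_subtype (p := fun s => t s ≤ -η) (F := inferInstance) _ (by simp), smul_sum]
    refine sum_congr rfl fun s _ => ?_
    rw [smul_sum]
    refine sum_congr rfl fun a _ => ?_
    simp only [mul_smul, Complex.coe_smul, ← smul_sum, star_smul, star_trivial, smul_mul_smul_comm]
    rw [smul_smul, ← mul_inv, Real.mul_self_sqrt (by positivity)]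
  refine ⟨_, fun s h => ((√(n + 1))⁻¹ : ℝ) * V (e' s).1 ((e' s).2, h), ?_, fun E _ => ⟨fun g => ?_,
    fun f => ?_⟩⟩
  · rw [Fintype.card_prod, Fintype.card_subtype]
    rw [Fintype.card_prod] at ct
    push_cast at ct ⊢
    rw [mul_comm _ (Fintype.card ν : ℝ), mul_assoc]
    gcongr
  · rw [key]
    convert ((Pos.sum fun h (_ : h ∈ univ) => Pos.sq (g h)).add (Pos.sum fun s (_ : s ∈ univ) =>
      show Pos (if t s ≤ -η then 0 else
        ∑ a, star (∑ h, V s (a, h) • g h) * ∑ h, V s (a, h) • g h) by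
        split_ifs
        · exact Pos.zero
        · exact Pos.sum fun a _ => Pos.sq _)).smul (r := (n + 1)⁻¹) (by positivity) using 1
    have e3 := sum_congr rfl fun a (_ : a ∈ univ) => bessel h1 g a
    rw [sum_comm, sum_const, card_univ, ← Nat.cast_smul_eq_nsmul ℝ, ← hn] at e3
    rw [sub_eq_iff_eq_add, ← smul_add, add_assoc, ← sum_add_distrib]
    simp only [ite_add_ite, zero_add, add_zero, ite_self, e3]
    rw [← one_smul ℝ (∑ h, star (g h) * g h), smul_smul, ← add_smul, smul_smul, mul_one, add_comm 1,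
      inv_mul_cancel₀ (by positivity)]
  · have e3 := form_conj (fun p : ν × H => f p.1 p.2) V fun _ => 1
    rw [diagonal_one, mul_one, h1, form_one, Fintype.sum_prod_type_right] at e3
    simp only [one_smul] at e3
    simp only [key, ← smul_sum]
    rw [e, form_conj, e3, ← hn, smul_smul, mul_assoc (R * n),
      mul_inv_cancel₀ (by positivity), mul_one, sum_comm (s := (univ : Finset ν)), smul_sum, smul_sum,
      ← sum_add_distrib, ← sum_add_distrib]
    refine Pos.sum fun s _ => ?_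
    simp only [Complex.coe_smul, Fintype.sum_prod_type]
    obtain ⟨y, hy⟩ : ∃ y : ν → ν → E, ∀ a a', y a a' = ∑ h, V s (a', h) • f a h := ⟨_, fun _ _ => rfl⟩
    simp only [← hy]
    split_ifs with c
    · have q1 := (Pos.sq (∑ a, y a a)).smul (r := t s + η + R) (by linarith [(abs_le.1 (ht s)).1])
      have q2 := (cs_pos fun a => y a a).smul R0
      have q3 := (Pos.sum fun a (_ : a ∈ univ) => Pos.sum fun b (_ : b ∈ univ.erase a) =>
        Pos.sq (y a b)).smul (r := R * n) (by positivity)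
      convert (q1.add q2).add q3 using 1
      simp only [sum_erase_eq_sub (mem_univ _), sum_sub_distrib, ← hn]
      module
    · convert (Pos.sq (∑ a, y a a)).smul (r := t s + η) (by linarith) using 1
      simp only [sum_const_zero]
      module

end Vale.Agent.P095.Free
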