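import Vale.Agent.P095.FreeA
import Vale.Agent.P095.FreeB
import Vale.Agent.P095.FreeD

/-! Finite models of the free group: the statement `FreeS`. -/

namespace Vale.Agent.P095

open Finset Matrix Vale.Agent.P101

namespace Free

variable {B : Type} [CStarAlgebra B] {l : B →L[ℂ] ℂ}

theorem state_star (hl : IsState l) (x : B) : star (l x) = l (star x) := by
  obtain ⟨H, _, _, _, π, Ω, h, -⟩ := exists_gns l hl.le hl.one
  have h1 := h 1 x
  have h2 := h x 1
  rw [star_one, one_mul] at h1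
  rw [mul_one] at h2
  rw [← h1, ← h2]
  exact inner_conj_symm _ _

open scoped ComplexOrder in
theorem state_pos (hl : IsState l) {x : B} (hx : Pos x) : Pos (l x) := by
  let _ := CStarAlgebra.spectralOrder B
  have := CStarAlgebra.spectralOrderedRing B
  exact pos_iff.2 (state_nonneg l hl.le hl.one x (pos_iff.1 hx))

theorem sandwich {n : ℕ} (d : Fin n → B) (u v : Fin n → ℂ) (z : B) :
    l (star (∑ a, u a • d a) * z * ∑ b, v b • d b) =
      ∑ a, ∑ b, l (star (d a) * z * d b) • (star (u a) * v b) := by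
  simp only [star_sum, sum_mul, mul_sum, map_sum, star_smul, smul_mul_assoc, mul_smul_comm, map_smul,
    smul_eq_mul]
  rw [sum_comm]
  exact sum_congr rfl fun a _ => sum_congr rfl fun b _ => by ring

theorem supp {k : ℕ} {ν H : Type} [Fintype ν] [Fintype H] [DecidableEq ν] [DecidableEq H]
    (α : Fin k → Fin k → ν → ν → ℂ) (β : ν → ν → ℂ) (Φ : FreeGroup (Fin k) →* Equiv.Perm H) (R : ℂ)
    (p : ν × H) (j : ℕ) : ∀ q, ((R • 1 - Ym α β fun i => Φ (.of i)) ^ j) q p ≠ 0 →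
      ∃ w : FreeGroup (Fin k), w.norm ≤ 2 * j ∧ Φ w p.2 = q.2 := by
  induction j with
  | zero =>
    intro q hq
    rw [pow_zero] at hq
    obtain rfl : q = p := by by_contra hc; exact hq (one_apply_ne hc)
    exact ⟨1, by simp, by simp⟩
  | succ j ih =>
    intro q hq
    rw [pow_succ', mul_apply] at hq
    obtain ⟨q', -, h⟩ := exists_ne_zero_of_sum_ne_zero hq
    obtain ⟨w, hw, e⟩ := ih q' (right_ne_zero_of_mul h)
    have h' := left_ne_zero_of_mul h
    by_cases c : q = q'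
    · exact ⟨w, by omega, c ▸ e⟩
    rw [Matrix.sub_apply, Matrix.smul_apply, one_apply_ne c, smul_zero, zero_sub, neg_ne_zero] at h'
    rcases Ym_supp h' with c' | ⟨h0, i, i', e1, e2⟩
    · exact ⟨w, by omega, c' ▸ e⟩
    · refine ⟨.of i * ((FreeGroup.of i')⁻¹ * w), ?_, ?_⟩
      · have := norm_of_mul_le i ((FreeGroup.of i')⁻¹ * w)
        have := norm_inv_mul_le i' w
        omega
      · simp [e, ← e1, ← e2]

theorem tree_pos {k : ℕ} {H : Type} [Fintype H] {x : Fin k → B} {θ : ℝ}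
    (hθ : ‖∑ i, x i * star (x i)‖ ≤ θ) (Φ : FreeGroup (Fin k) →* Equiv.Perm H) {L : ℕ} {h0 : H}
    (hΦ : ∀ w w' : FreeGroup (Fin k), w.norm ≤ L + 1 → w'.norm ≤ L + 1 → Φ w h0 = Φ w' h0 → w = w')
    (η : H → B) (hη : ∀ h, η h ≠ 0 → ∃ w : FreeGroup (Fin k), w.norm ≤ L ∧ Φ w h0 = h) :
    Pos (∑ h, ((2 : ℝ) • (star (∑ i, x i * η (Φ (.of i) h)) * ∑ i, x i * η (Φ (.of i) h)) -
      star (η h) * (∑ i, star (x i) * x i - algebraMap ℝ B (3 * θ)) * η h)) := by
  refine loc hθ (fun i => Φ (.of i)) η (fun h i => ∃ w : FreeGroup (Fin k), w.norm ≤ L ∧ Φ w h0 = h ∧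
    ((FreeGroup.of i)⁻¹ * w).norm ≤ w.norm) ?_ ?_
  · rintro h i j - ⟨w, hw, e, c⟩ ⟨w', hw', e', c'⟩
    obtain rfl := hΦ w w' (by omega) (by omega) (e.trans e'.symm)
    exact eq_of_le' c c'
  · intro h i j a a' c c'
    obtain ⟨w, hw, e⟩ := hη _ a
    obtain ⟨w', hw', e'⟩ := hη _ a'
    have b := not_le.1 fun b => c ⟨w, hw, e, b⟩
    have b' := not_le.1 fun b => c' ⟨w', hw', e', b⟩
    have := hΦ ((FreeGroup.of i)⁻¹ * w) ((FreeGroup.of j)⁻¹ * w')
      ((norm_inv_mul_le i w).trans (by omega)) ((norm_inv_mul_le j w').trans (by omega))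
      (by simp [e, e'])
    refine eq_of_le (v := (FreeGroup.of i)⁻¹ * w) (by simpa using b.le) ?_
    rw [this]; simpa using b'.le

theorem form_eq (hl : IsState l) {k n : ℕ} {H : Type} [Fintype H] [DecidableEq H] (x : Fin k → B)
    (d : Fin n → B) (z : B) (π : Fin k → Equiv.Perm H) (v : Fin n × H → ℂ) :
    form v (Ym (fun i j a b => 2 * l (star (d a) * (star (x i) * x j) * d b))
      (fun a b => l (star (d a) * z * d b)) π) =
    l (∑ h, ((2 : ℝ) • (star (∑ i, x i * ∑ a, v (a, π i h) • d a) * ∑ i, x i * ∑ a, v (a, π i h) • d a) -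
      star (∑ a, v (a, h) • d a) * z * ∑ a, v (a, h) • d a)) := by
  rw [form_Ym, map_sum]
  refine sum_congr rfl fun h _ => ?_
  have e : ∀ y : Fin k → B, star (∑ i, x i * y i) * ∑ i, x i * y i =
      ∑ i, ∑ j, star (y i) * (star (x i) * x j) * y j := fun y => by
    simp only [star_sum, sum_mul_sum, star_mul, mul_assoc]
  rw [e, map_sub, sandwich, ← Complex.coe_smul, map_smul]
  simp only [map_sum, sandwich, sum_sub_distrib, smul_sum]
  congr 1
  rw [eq_comm, sum_congr rfl fun i _ => sum_comm, sum_comm]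
  refine sum_congr rfl fun a _ => ?_
  rw [sum_congr rfl fun i _ => sum_comm, sum_comm]
  refine sum_congr rfl fun b _ => sum_congr rfl fun i _ => sum_congr rfl fun j _ => ?_
  simp [mul_assoc]

theorem form_pos (hl : IsState l) {k n : ℕ} {H : Type} [Fintype H] [DecidableEq H] {x : Fin k → B}
    {θ : ℝ} (hθ : ‖∑ i, x i * star (x i)‖ ≤ θ) (d : Fin n → B) {z : B}
    (hz : z = ∑ i, star (x i) * x i - algebraMap ℝ B (3 * θ))
    (Φ : FreeGroup (Fin k) →* Equiv.Perm H) {L : ℕ} {h0 : H}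
    (hΦ : ∀ w w' : FreeGroup (Fin k), w.norm ≤ L + 1 → w'.norm ≤ L + 1 → Φ w h0 = Φ w' h0 → w = w')
    (v : Fin n × H → ℂ) (hv : ∀ q, v q ≠ 0 → ∃ w : FreeGroup (Fin k), w.norm ≤ L ∧ Φ w h0 = q.2) :
    Pos (form v (Ym (fun i j a b => 2 * l (star (d a) * (star (x i) * x j) * d b))
      (fun a b => l (star (d a) * z * d b)) fun i => Φ (.of i))) := by
  rw [form_eq hl, hz]
  refine state_pos hl (tree_pos hθ Φ hΦ (fun h => ∑ a, v (a, h) • d a) fun h hh => ?_)
  obtain ⟨a, -, ha⟩ := exists_ne_zero_of_sum_ne_zero hh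
  exact hv _ (left_ne_zero_of_smul ha)

end Free

open Free

theorem freeS : FreeS := by
  intro B _ l hl k n x d θ η hθ hη
  obtain ⟨z, hz⟩ : ∃ z, z = ∑ i, star (x i) * x i - algebraMap ℝ B (3 * θ) := ⟨_, rfl⟩
  have sz : star z = z := by
    rw [hz, Algebra.algebraMap_eq_smul_one]; simp [star_sum]
  obtain ⟨R, hR⟩ : ∃ R : ℝ, R = ∑ a, ∑ b, (∑ i, ∑ j, ‖2 * l (star (d a) * (star (x i) * x j) * d b)‖ +
    ‖l (star (d a) * z * d b)‖) := ⟨_, rfl⟩
  have R0 : 0 ≤ R := by rw [hR]; positivity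
  refine ⟨R * n * (n + 1), by positivity, fun m => ?_⟩
  have Rη : 0 < R + η := by positivity
  obtain ⟨j, hj⟩ := exists_pow_lt_of_lt_one (show 0 < η / (n * n * m * R + 1) by positivity)
    (show R / (R + η) < 1 by rw [div_lt_one Rη]; linarith)
  obtain ⟨N, Φ, hΦ⟩ := exists_model (α := Fin k) (2 * j + 1)
  obtain ⟨r, Ξ, hr, h⟩ := remove (Y := Ym (fun i j a b => 2 * l (star (d a) * (star (x i) * x j) * d b))
      (fun a b => l (star (d a) * z * d b)) fun i => Φ (.of i)) (R := R) (j := j)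
    (Ym_herm (fun i j a b => by simp [state_star hl, mul_assoc])
      fun a b => by simp [state_star hl, mul_assoc, sz]) hη R0 (fun f => hR ▸ Ym_bound f)
    fun p => form_pos hl hθ d hz Φ (hΦ p.2) _ (supp _ _ Φ R p j)
  refine ⟨N, r, fun i => Φ (.of i), Ξ, ?_, fun E _ => ⟨(h E).1, fun f => ?_⟩⟩
  · simp only [Fintype.card_fin] at hr
    rw [div_pow, div_lt_div_iff₀ (by positivity) (by positivity)] at hj
    have h1 : R ^ j ≤ (R + η) ^ j := by gcongr; linarith
    have h2 : 0 < (R + η) ^ j := by positivity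
    have h3 : 0 ≤ R ^ j := by positivity
    have h4 : n * n * m * R * (R ^ j) ^ 2 ≤ η * ((R + η) ^ j) ^ 2 := by
      have : n * n * m * R * R ^ j ≤ η * (R + η) ^ j := by linarith
      calc _ = n * n * m * R * R ^ j * R ^ j := by ring
        _ ≤ η * (R + η) ^ j * (R + η) ^ j := by gcongr
        _ = _ := by ring
    have h5 : (r * m : ℝ) * (η * ((R + η) ^ j) ^ 2) ≤ ((N + 2 : ℕ) : ℝ) * (η * ((R + η) ^ j) ^ 2) :=
      calc _ = m * (r * (η * ((R + η) ^ j) ^ 2)) := by ring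
        _ ≤ m * (n * (n * ((N + 2 : ℕ) : ℝ) * (R * (R ^ j) ^ 2))) := by gcongr
        _ = ((N + 2 : ℕ) : ℝ) * (n * n * m * R * (R ^ j) ^ 2) := by ring
        _ ≤ _ := by gcongr
    exact_mod_cast le_of_mul_le_mul_right h5 (by positivity)
  · have := (h E).2 f
    rwa [form_Ym, Fintype.card_fin, hz] at this

end Vale.Agent.P095
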