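import Vale.Agent.P095.Basic

/-! The central sequence algebra has no character. -/

open Filter Topology TopologicalSpace BoundedContinuousFunction
open scoped BoundedContinuousFunction

namespace Vale.Agent.P095

open Vale.Agent.P101

theorem char_oz {n : ℕ} {χ : Matrix (Fin (n + 2)) (Fin (n + 2)) ℂ →ₗ[ℂ] ℂ} (h : IsOZ χ) :
    χ 1 = 0 := by
  refine h.one_eq_zero (a := Matrix.single 0 1 1) (fun e => by simpa using congrFun₂ e 0 1) ?_
  have := h.mul (Matrix.single 0 1 1) (Matrix.single 0 1 1)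
  rwa [Matrix.single_mul_single_of_ne _ _ _ _ (by simp), map_zero, mul_zero, mul_self_eq_zero] at this

theorem char_dd' (p q : ℕ) : IsEmpty (DD (p + 2) (q + 2) →⋆ₐ[ℂ] ℂ) := ⟨fun χ => by
  let l : Matrix (Fin (p + 2)) (Fin (p + 2)) ℂ →ₗ[ℂ] DD (p + 2) (q + 2) :=
    ⟨⟨DD.lf, fun a b => DD.ext' (by simp [Matrix.add_kronecker])⟩,
      fun c a => DD.ext' fun t => by simp [Matrix.smul_kronecker, smul_comm c]⟩
  let r : Matrix (Fin (q + 2)) (Fin (q + 2)) ℂ →ₗ[ℂ] DD (p + 2) (q + 2) :=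
    ⟨⟨DD.rt, fun a b => DD.ext' (by simp [Matrix.kronecker_add])⟩,
      fun c a => DD.ext' fun t => by simp [Matrix.kronecker_smul, smul_comm c]⟩
  have hl : IsOZ l := ⟨fun a => DD.ext' fun t => by
      simp [l, map_star, Matrix.star_eq_conjTranspose, Matrix.conjTranspose_kronecker],
    fun a b => DD.ext' fun t => by simp [l, ← Matrix.mul_kronecker_mul]⟩
  have hr : IsOZ r := ⟨fun a => DD.ext' fun t => by
      simp [r, map_star, Matrix.star_eq_conjTranspose, Matrix.conjTranspose_kronecker],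
    fun a b => DD.ext' fun t => by simp [r, ← Matrix.mul_kronecker_mul]⟩
  have e : l 1 + r 1 = 1 := DD.ext' fun t => by simp [l, r, sub_smul]
  have h1 : χ (l 1) = 0 := char_oz (hl.map χ)
  have h2 : χ (r 1) = 0 := char_oz (hr.map χ)
  simpa [h1, h2] using congrArg χ e⟩

theorem char_dd : IsEmpty (DD 2 3 →⋆ₐ[ℂ] ℂ) := char_dd' 0 1

theorem LocS.seq (h : LocS) {B : Type} [CStarAlgebra B] {I : TwoSidedIdeal B} (hS : Sys B I) :
    ∃ e : ℕ → B, (∀ n, e n ∈ I ∧ SC (e n)) ∧ ∀ a ∈ I, Tendsto (fun n => e n * a) atTop (𝓝 a) ∧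
      Tendsto (fun n => a * e n) atTop (𝓝 a) := by
  classical
  have := hS.sep
  have : Nonempty (I : Set B) := ⟨⟨0, I.zero_mem⟩⟩
  let d : ℕ → B := fun n => denseSeq (I : Set B) n
  choose e h1 _ _ h2 _ _ h3 using fun n : ℕ => h B I hS ((Finset.range n).image d) (by
    simp only [Finset.mem_image]; rintro _ ⟨i, -, rfl⟩; exact (denseSeq (I : Set B) i).2) _
    (Nat.one_div_pos_of_nat (n := n))
  refine ⟨e, fun n => ⟨h1 n, h2 n⟩, fun a ha => ?_⟩
  have key : ∀ ε > 0, ∀ᶠ n in atTop, dist (e n * a) a < ε ∧ dist (a * e n) a < ε := fun ε hε => by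
    obtain ⟨i, hi⟩ := (denseRange_denseSeq (I : Set B)).exists_dist_lt ⟨a, ha⟩
      (show 0 < ε / 3 by positivity)
    have hi' : ‖a - d i‖ < ε / 3 := by rw [← dist_eq_norm]; exact hi
    filter_upwards [eventually_gt_atTop i, tendsto_one_div_add_atTop_nhds_zero_nat.eventually_lt_const
      (show 0 < ε / 3 by positivity)] with n h4 h5
    obtain ⟨k1, k2⟩ := h3 n _ (Finset.mem_image_of_mem _ (Finset.mem_range.2 h4))
    have t1 := (norm_mul_le (e n) (a - d i)).trans (mul_le_of_le_one_left (norm_nonneg _) (h2 n).le)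
    have t2 := (norm_mul_le (a - d i) (e n)).trans (mul_le_of_le_one_right (norm_nonneg _) (h2 n).le)
    rw [dist_eq_norm, dist_eq_norm,
      show e n * a - a = e n * (a - d i) + (e n * d i - d i) - (a - d i) by noncomm_ring,
      show a * e n - a = (a - d i) * e n + (d i * e n - d i) - (a - d i) by noncomm_ring]
    exact ⟨((norm_sub_le _ _).trans (add_le_add_left (norm_add_le _ _) _)).trans_lt (by linarith),
      ((norm_sub_le _ _).trans (add_le_add_left (norm_add_le _ _) _)).trans_lt (by linarith)⟩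
  exact ⟨Metric.tendsto_nhds.2 fun ε hε => (key ε hε).mono fun _ => And.left,
    Metric.tendsto_nhds.2 fun ε hε => (key ε hε).mono fun _ => And.right⟩

theorem tsp_ind {B Z P : Type} [CStarAlgebra B] [CStarAlgebra Z] [CStarAlgebra P]
    {I : TwoSidedIdeal B} {ι : B →⋆ₐ[ℂ] P} {κ : Z →⋆ₐ[ℂ] P} (L : ℕ → P →+ P) (C : ℝ)
    (hL : ∀ n x, ‖L n x‖ ≤ C * ‖x‖)
    (h : ∀ a ∈ I, ∀ z, Tendsto (fun n => L n (ι a * κ z)) atTop (𝓝 0)) {x : P} (hx : x ∈ tsp I ι κ) :
    Tendsto (fun n => ‖L n x‖) atTop (𝓝 0) := by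
  refine Metric.tendsto_nhds.2 fun ε hε => ?_
  obtain ⟨_, ⟨k, a, z, ha, rfl⟩, hy⟩ := Metric.mem_closure_iff.1 hx (ε / 2 / (|C| + 1)) (by positivity)
  have := tendsto_finsetSum Finset.univ fun i _ => h _ (ha i) (z i)
  simp only [← map_sum, Finset.sum_const_zero] at this
  filter_upwards [Metric.tendsto_nhds.1 this _ (half_pos hε)] with n hn
  set y := ∑ i, ι (a i) * κ (z i)
  rw [dist_zero_right] at hn ⊢
  rw [dist_eq_norm, lt_div_iff₀ (by positivity)] at hy
  rw [norm_norm, ← sub_add_cancel x y, map_add]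
  nlinarith [norm_add_le (L n (x - y)) (L n y), hL n (x - y), le_abs_self C, norm_nonneg (x - y)]

theorem char_gen (h : LocS) {G B : Type} [Group G] [CStarAlgebra B] {I : TwoSidedIdeal B}
    {α : Act G B} (c : Ctx I α) {Z D : Type} [CStarAlgebra Z] [CStarAlgebra D]
    (hD : IsEmpty (D →⋆ₐ[ℂ] ℂ)) (θ : ℕ → D →⋆ₐ[ℂ] Z)
    (hθ : ∀ f z, Tendsto (fun n => ‖θ n f * z - z * θ n f‖) atTop (𝓝 0)) (hA : AZ I Z) :
    IsEmpty (c.F →⋆ₐ[ℂ] ℂ) := by
  obtain ⟨P, _, i, ι, κ, h1, h2, h3, h4⟩ := hA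
  obtain ⟨e, he, he'⟩ := h.seq c.sys
  choose x₀ x1 x2 using fun n f => h3 _ (he n).1 (θ n f)
  have nb : ∀ n f, ‖ι (e n) * κ (θ n f)‖ ≤ ‖f‖ := fun n f => (norm_mul_le _ _).trans
    ((mul_le_of_le_one_left (norm_nonneg _) ((hom_le _ _).trans (he n).2.le)).trans
      (hom_le (κ.comp (θ n)) f))
  let x : D → ℕ →ᵇ B := fun f => ofNormedAddCommGroupDiscrete (x₀ · f) ‖f‖ fun n => by
    rw [← h2 _ (x1 n f), x2]; exact nb n f
  have z0 : ∀ y : ℕ →ᵇ B, (∀ n, y n ∈ I) → Tendsto (fun n => ‖i (y n)‖) atTop (𝓝 0) → c.ul y = 0 :=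
    fun y hy ht => c.ul_eq_zero.2 ((ht.mono_left c.atTop).congr fun n => h2 _ (hy n))
  have hx : ∀ f, c.ul (x f) ∈ Cm c.j := fun f => c.mem_N fun a ha => by
    rw [Commute, SemiconjBy, ← sub_eq_zero, c.j_apply, ← map_mul, ← map_mul, ← map_sub]
    refine z0 _ (fun n => I.sub_mem (I.mul_mem_left _ _ ha) (I.mul_mem_right _ _ ha)) ?_
    refine (tsp_ind (fun n => AddMonoidHom.mulLeft (ι (e n) * κ (θ n f)) -
      AddMonoidHom.mulRight (ι (e n) * κ (θ n f))) (2 * ‖f‖) (fun n y => ?_) (fun a ha z => ?_)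
      (h4 a ha)).congr fun n => by simp [x, x2]
    · have t1 := (norm_mul_le _ y).trans (mul_le_mul_of_nonneg_right (nb n f) (norm_nonneg _))
      have t2 := (norm_mul_le y _).trans (mul_le_mul_of_nonneg_left (nb n f) (norm_nonneg _))
      exact (norm_sub_le _ _).trans (by simp only [AddMonoidHom.coe_mulLeft, AddMonoidHom.mulRight_apply]; linarith)
    · have t1 : Tendsto (fun n => ‖e n * a - a * e n‖ * (‖f‖ * ‖z‖) +
          ‖a‖ * ‖θ n f * z - z * θ n f‖) atTop (𝓝 0) := by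
        simpa using (((he' a ha).1.sub (he' a ha).2).norm.mul_const (‖f‖ * ‖z‖)).add
          ((hθ f z).const_mul ‖a‖)
      refine squeeze_zero_norm (fun n => ?_) t1
      have e1 : ∀ a b z w, ι a * κ z * (ι b * κ w) = ι (a * b) * κ (z * w) := fun a b z w => by
        rw [map_mul, map_mul, mul_assoc, ← mul_assoc (κ z), ← (h1 b z).eq, mul_assoc, mul_assoc]
      simp only [AddMonoidHom.sub_apply, AddMonoidHom.coe_mulLeft, AddMonoidHom.mulRight_apply, e1]
      rw [show ι (e n * a) * κ (θ n f * z) - ι (a * e n) * κ (z * θ n f) =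
        ι (e n * a - a * e n) * κ (θ n f * z) + ι (a * e n) * κ (θ n f * z - z * θ n f) by
          simp only [map_sub]; noncomm_ring]
      refine (norm_add_le _ _).trans (add_le_add ((norm_mul_le _ _).trans (mul_le_mul (hom_le _ _)
        ((hom_le _ _).trans ((norm_mul_le _ _).trans (mul_le_mul_of_nonneg_right (hom_le _ _)
          (norm_nonneg _)))) (norm_nonneg _) (norm_nonneg _))) ((norm_mul_le _ _).trans
        (mul_le_mul ((hom_le _ _).trans ((norm_mul_le _ _).trans (mul_le_of_le_one_right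
          (norm_nonneg _) (he n).2.le))) (hom_le _ _) (norm_nonneg _) (norm_nonneg _))))
  have un : ∀ a ∈ I, Tendsto (fun n => ‖(ι (e n) - 1) * i a‖) atTop (𝓝 0) := fun a ha =>
    tsp_ind (fun n => AddMonoidHom.mulLeft (ι (e n) - 1)) 2 (fun n y => (norm_mul_le _ _).trans
      (mul_le_mul_of_nonneg_right ((norm_sub_le _ _).trans (by
        linarith [(hom_le ι _).trans (he n).2.le, norm_one_le' (M := P)])) (norm_nonneg _)))
      (fun a ha z => by
        simpa [sub_mul, mul_assoc] using ((((hom_cont ι).tendsto a).comp (he' a ha).1).sub_const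
          (ι a)).mul_const (κ z)) (h4 a ha)
  obtain ⟨a, ha, a0⟩ := c.sys.ne
  have ex : ∀ (y y' : ℕ →ᵇ B) (u u' : Cm c.j), c.ul y = u → c.ul y' = u' →
      Tendsto (fun n => ‖(i (y n) - i (y' n)) * i a‖) atTop (𝓝 0) → c.q u = c.q u' :=
    fun y y' u u' e1 e2 ht => c.isF.eq_of ha a0 (by
      rw [← sub_eq_zero, ← sub_mul, ← e1, ← e2, ← map_sub]
      exact (map_mul c.ul _ _).symm.trans (z0 ((y - y') * const ℕ a)
        (fun n => I.mul_mem_left _ _ ha) (ht.congr fun n => by simp)))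
  let L : D →ₗ[ℂ] c.F :=
    { toFun := fun f => c.q ⟨_, hx f⟩
      map_add' := fun f g => (ex _ (x f + x g) _ (⟨_, hx f⟩ + ⟨_, hx g⟩) rfl (map_add _ _ _)
        (by simp [x, x2, mul_add])).trans (map_add _ _ _)
      map_smul' := fun r f => (ex _ (r • x f) _ (r • ⟨_, hx f⟩) rfl (map_smul _ _ _)
        (by simp [x, x2])).trans (map_smul _ _ _) }
  have L1 : L 1 = 1 := (ex _ 1 _ 1 rfl (map_one _) (by simpa [x, x2] using un a ha)).trans (map_one _)
  refine ⟨fun χ => hD.false (χ.comp { AlgHom.ofLinearMap L L1 fun f g => ?_ with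
    map_star' := fun f => ?_ })⟩
  · refine (ex _ (x f * x g) _ (⟨_, hx f⟩ * ⟨_, hx g⟩) rfl (map_mul _ _ _) ?_).trans (map_mul _ _ _)
    refine squeeze_zero (fun _ => norm_nonneg _) (fun n => ?_)
      (by simpa using (un a ha).const_mul ‖f * g‖)
    refine le_of_eq_of_le ?_ ((norm_mul_le _ _).trans
      (mul_le_mul_of_nonneg_right (nb n (f * g)) (norm_nonneg _)))
    rw [← norm_neg]; congr 1
    simp only [x, BoundedContinuousFunction.mul_apply, map_mul, coe_ofNormedAddCommGroupDiscrete, x2]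
    rw [mul_assoc (ι (e n)) (κ (θ n f)) (_ * _), ← mul_assoc (κ (θ n f)), ← (h1 _ _).eq,
      ← mul_assoc _ (ι (e n) - 1), mul_sub, mul_assoc (ι (e n)) (_ * _) (ι (e n)), ← map_mul κ,
      ← (h1 _ _).eq]
    simp only [map_mul]
    noncomm_ring
  · refine (ex _ (star (x f)) _ (star ⟨_, hx f⟩) rfl (map_star _ _) ?_).trans (map_star _ _)
    refine tendsto_const_nhds.congr fun n => ?_
    change _ = ‖(i (x₀ n _) - i (star (x₀ n f))) * _‖
    rw [map_star i, x2, x2, star_mul, ((he _).2.sa.map ι).star_eq, ← map_star, ← map_star,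
      (h1 _ _).eq, sub_self, zero_mul, norm_zero]

theorem charS (h : LocS) : CharS := fun _ _ _ _ _ _ c _ _ ⟨θ, hθ⟩ => char_gen h c char_dd θ hθ

end Vale.Agent.P095
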