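import Vale.Agent.P095.Basic

/-! One-sided intertwining with a cocycle. -/

open Filter Topology TopologicalSpace
open scoped MultiplierAlgebra

namespace Vale.Agent.P095

open Vale.Agent.P101

theorem int_mult {C P : Type} [NonUnitalCStarAlgebra C] [CStarAlgebra P] (j : C →⋆ₙₐ[ℂ] P)
    (hj : Function.Injective j) (h : ∀ c x, (∃ c', j c' = x * j c) ∧ ∃ c', j c' = j c * x) :
    ∃ μ : P → 𝓜(ℂ, C), (∀ x c, j ((μ x).fst c) = x * j c) ∧ (∀ x y, μ (x * y) = μ x * μ y) ∧
      (∀ x, μ (star x) = star (μ x)) ∧ μ 1 = 1 ∧ ∀ c, μ (j c) = c := by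
  choose l hl using fun c x => (h c x).1
  choose r hr using fun c x => (h c x).2
  have n := NonUnitalStarAlgHom.norm_map j hj
  let L : P → C →L[ℂ] C := fun x => LinearMap.mkContinuous
    ⟨⟨(l · x), fun a b => hj (by simp [hl, mul_add])⟩, fun a b => hj (by simp [hl])⟩ ‖x‖
    fun c => by rw [← n, ← n c]; exact (congrArg _ (hl c x)).trans_le (norm_mul_le _ _)
  let R : P → C →L[ℂ] C := fun x => LinearMap.mkContinuous
    ⟨⟨(r · x), fun a b => hj (by simp [hr, add_mul])⟩, fun a b => hj (by simp [hr])⟩ ‖x‖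
    fun c => by rw [← n, ← n c, mul_comm]; exact (congrArg _ (hr c x)).trans_le (norm_mul_le _ _)
  have hL : ∀ x c, j (L x c) = x * j c := fun x c => hl c x
  have hR : ∀ x c, j (R x c) = j c * x := fun x c => hr c x
  refine ⟨fun x => ⟨(L x, R x), fun a b => hj (by simp [hL, hR, mul_assoc])⟩, hL, fun x y => ?_,
    fun x => ?_, ?_, fun c => ?_⟩ <;> ext c <;> apply hj <;>
    simp [hL, hR, mul_assoc, map_star]

theorem int_lim {P : Type*} [MetricSpace P] [CompleteSpace P] {f : ℕ → P} (n : ℕ)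
    (h : ∀ k, n ≤ k → dist (f k) (f (k + 1)) ≤ 1 / 2 ^ k) :
    ∃ y, Tendsto f atTop (𝓝 y) ∧ dist (f n) y ≤ 2 / 2 ^ n := by
  have e : ∀ k, dist (f (k + n)) (f (k + 1 + n)) ≤ 2 / 2 ^ n / 2 / 2 ^ k := fun k => by
    rw [Nat.add_right_comm]
    convert h (k + n) (Nat.le_add_left n k) using 1
    rw [pow_add]; field_simp
  obtain ⟨y, hy⟩ := cauchySeq_tendsto_of_complete (cauchySeq_of_le_geometric_two e)
  exact ⟨y, (tendsto_add_atTop_iff_nat n).1 hy, by
    simpa using dist_le_of_le_geometric_two_of_tendsto₀ e hy⟩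

theorem int_core {G A C P : Type} [Group G] [Countable G] [NonUnitalCStarAlgebra A]
    [NonUnitalCStarAlgebra C] [CStarAlgebra P] [SeparableSpace A] [SeparableSpace C]
    (i : A →⋆ₙₐ[ℂ] P) (j : C →⋆ₙₐ[ℂ] P) (β' : Act G P) (hi : Function.Injective i)
    (hj : Function.Injective j) (hij : ∀ a, ∃ c, j c = i a)
    (hid : ∀ c x, (∃ c', j c' = x * j c) ∧ ∃ c', j c' = j c * x)
    (h : ∀ (S : Finset A) (T : Finset C) (K : Finset G) (ε : ℝ), 0 < ε → ∃ w ∈ unitary P,
      (∀ a ∈ S, ‖w * i a - i a * w‖ ≤ ε) ∧ (∀ g ∈ K, ‖β' g w - w‖ ≤ ε) ∧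
      ∀ x ∈ T, ∃ a, ‖star w * j x * w - i a‖ ≤ ε) :
    ∃ (θ : A ≃⋆ₐ[ℂ] C) (W : ℕ → P), (∀ n, W n ∈ unitary P) ∧
      (∀ a, Tendsto (fun n => W n * i a * star (W n)) atTop (𝓝 (j (θ a)))) ∧
      ∀ g, ∃ y, Tendsto (fun n => W n * star (β' g (W n))) atTop (𝓝 y) := by
  classical
  obtain ⟨en, hen⟩ := exists_surjective_nat G
  choose v hv h1 h3 h2 using fun F T (n : ℕ) => h F T ((Finset.range n).image en) (1 / 2 ^ n)
    (by positivity)
  choose! b hb using h2
  have hc : ∀ u w c, ∃ c', j c' = u * j c * w := fun u w c => by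
    obtain ⟨c₁, e⟩ := (hid c u).1
    exact e ▸ (hid c₁ w).2
  choose cj hcj using hc
  let T : ℕ → P → Finset C := fun n u => (Finset.range n).image fun k => cj (star u) u (denseSeq C k)
  let s : ℕ → P × Finset A := fun n => Nat.rec (1, ∅) (fun n s =>
    (s.1 * v s.2 (T n s.1) n, insert (denseSeq A n) s.2 ∪ (T n s.1).image (b s.2 (T n s.1) n))) n
  have s1 : ∀ n, (s (n + 1)).1 = (s n).1 * v (s n).2 (T n (s n).1) n := fun _ => rfl
  have s2 : ∀ n, (s (n + 1)).2 = insert (denseSeq A n) (s n).2 ∪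
      (T n (s n).1).image (b (s n).2 (T n (s n).1) n) := fun _ => rfl
  have s0 : (s 0).1 = 1 := rfl
  clear_value s
  have hu : ∀ n, (s n).1 ∈ unitary P := fun n => by
    induction n with
    | zero => exact s0 ▸ one_mem _
    | succ n ih => exact s1 n ▸ mul_mem ih (hv _ _ _)
  have mono : Monotone fun n => (s n).2 := monotone_nat_of_le_succ fun n => by
    rw [s2]; exact (Finset.subset_insert _ _).trans Finset.subset_union_left
  have cn : ∀ u ∈ unitary P, ∀ x, ‖u * x * star u‖ = ‖x‖ := fun u hu x => by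
    rw [CStarRing.norm_mul_mem_unitary _ (Unitary.star_mem hu), CStarRing.norm_mem_unitary_mul _ hu]
  have ni := NonUnitalStarAlgHom.norm_map i hi
  have nj := NonUnitalStarAlgHom.norm_map j hj
  let φ : ℕ → A → P := fun n x => (s n).1 * i x * star (s n).1
  have step : ∀ n, ∀ x ∈ (s n).2, dist (φ n x) (φ (n + 1) x) ≤ 1 / 2 ^ n := fun n x hx => by
    set w := v (s n).2 (T n (s n).1) n
    have : φ (n + 1) x - φ n x = (s n).1 * ((w * i x - i x * w) * star w) * star (s n).1 := by
      simp only [φ, s1, star_mul, sub_mul, mul_sub, mul_assoc]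
      rw [← mul_assoc w (star w), (hv _ _ _).2, one_mul]
    rw [dist_comm, dist_eq_norm, this, cn _ (hu n),
      CStarRing.norm_mul_mem_unitary _ (Unitary.star_mem (hv _ _ _))]
    exact h1 _ _ _ x hx
  have lim : ∀ n, ∀ x ∈ (s n).2, ∃ y, Tendsto (φ · x) atTop (𝓝 y) ∧ dist (φ n x) y ≤ 2 / 2 ^ n :=
    fun n x hx => int_lim n fun k hk => step k x (mono hk hx)
  have cl := (NonUnitalStarAlgHom.isometry j hj).isClosedEmbedding.isClosed_range
  have ex : ∀ x, ∃ c, Tendsto (φ · x) atTop (𝓝 (j c)) := fun x => by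
    obtain ⟨y, hy⟩ := cauchySeq_tendsto_of_complete (u := (φ · x)) (Metric.cauchySeq_iff'.2
      fun ε hε => by
        obtain ⟨k, hk⟩ := (denseRange_denseSeq A).exists_dist_lt x (show 0 < ε / 3 by positivity)
        obtain ⟨y, hy, -⟩ := lim (k + 1) (denseSeq A k) (by simp [s2])
        have e : ∀ n, dist (φ n x) (φ n (denseSeq A k)) < ε / 3 := fun n => by
          rwa [dist_eq_norm, norm_ad (hu n), ← map_sub, ni, ← dist_eq_norm]
        refine (Metric.cauchySeq_iff'.1 hy.cauchySeq (ε / 3) (by positivity)).imp fun N hN n hn => ?_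
        linarith [dist_triangle4_right (φ n x) (φ N x) (φ n (denseSeq A k)) (φ N (denseSeq A k)),
          e n, e N, hN n hn])
    obtain ⟨c, rfl⟩ := cl.mem_of_tendsto hy (.of_forall fun n => by
      obtain ⟨c, hc⟩ := hij x
      exact ⟨_, (hcj _ _ c).trans (by rw [hc])⟩)
    exact ⟨c, hy⟩
  choose θ₀ hθ using ex
  let θ : A →⋆ₙₐ[ℂ] C :=
    { toFun := θ₀
      map_smul' := fun c x => hj (tendsto_nhds_unique (hθ _) (by
        simpa [φ] using (hθ x).const_smul c))
      map_zero' := hj (tendsto_nhds_unique (hθ _) (by simp [φ]))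
      map_add' := fun x y => hj (tendsto_nhds_unique (hθ _) (by
        simpa [φ, mul_add, add_mul] using (hθ x).add (hθ y)))
      map_mul' := fun x y => hj (tendsto_nhds_unique (hθ _) (by
        rw [map_mul]
        refine ((hθ x).mul (hθ y)).congr fun n => ?_
        simp only [φ, map_mul, mul_assoc]
        rw [← mul_assoc (star _) (s n).1, (hu n).1, one_mul]))
      map_star' := fun x => hj (tendsto_nhds_unique (hθ _) (by
        simpa [φ, map_star, mul_assoc] using (hθ x).star)) }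
  have iso : ∀ x, ‖θ x‖ = ‖x‖ := fun x => (nj _).symm.trans (tendsto_nhds_unique (hθ x).norm
    (tendsto_const_nhds.congr fun n => by simp only [φ, cn _ (hu n), ni]))
  have inj : Function.Injective θ := (injective_iff_map_eq_zero θ).2 fun x hx => by
    rw [← norm_eq_zero, ← iso, hx, norm_zero]
  have cl' := (NonUnitalStarAlgHom.isometry θ inj).isClosedEmbedding.isClosed_range
  have sur : Function.Surjective θ := fun c => (denseRange_denseSeq C).induction_on
      (p := fun c => c ∈ Set.range θ) c cl' fun k => by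
    rw [← cl'.closure_eq, Metric.mem_closure_range_iff]
    intro ε hε
    obtain ⟨n, hn1, hn2⟩ := ((eventually_gt_atTop k).and ((tendsto_pow_atTop_nhds_zero_of_lt_one
      (r := (1 / 2 : ℝ)) (by norm_num) (by norm_num)).eventually_lt_const (half_pos hε))).exists
    have hx : cj (star (s n).1) (s n).1 (denseSeq C k) ∈ T n (s n).1 :=
      Finset.mem_image_of_mem _ (Finset.mem_range.2 hn1)
    set x := b (s n).2 (T n (s n).1) n (cj (star (s n).1) (s n).1 (denseSeq C k))
    obtain ⟨y, hy, hy'⟩ := lim (n + 1) x (by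
      rw [s2]; exact Finset.mem_union_right _ (Finset.mem_image_of_mem _ hx))
    refine ⟨x, ?_⟩
    have e1 : j (θ x) = y := tendsto_nhds_unique (hθ x) hy
    have e2 : dist (j (denseSeq C k)) (φ (n + 1) x) ≤ 1 / 2 ^ n := by
      refine le_of_eq_of_le ?_ (hb (s n).2 _ n _ hx)
      rw [← cn _ (hu (n + 1)), dist_eq_norm, hcj]
      congr 1
      have := (hu (n + 1)).2
      rw [mul_sub, sub_mul, show star (v (s n).2 (T n (s n).1) n) * (star (s n).1 *
        j (denseSeq C k) * (s n).1) * v (s n).2 (T n (s n).1) n =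
        star (s (n + 1)).1 * j (denseSeq C k) * (s (n + 1)).1 by
        simp only [s1, star_mul, mul_assoc], ← mul_assoc, ← mul_assoc, this, one_mul,
        mul_assoc (j (denseSeq C k)), this, mul_one]
    rw [← (NonUnitalStarAlgHom.isometry j hj).dist_eq, e1]
    refine (dist_triangle _ _ _).trans_lt ((add_le_add e2 hy').trans_lt ?_)
    rw [one_div_pow] at hn2
    rw [show (2 : ℝ) / 2 ^ (n + 1) = 1 / 2 ^ n by rw [pow_succ]; field_simp]
    linarith
  have hu' : ∀ g, ∀ w ∈ unitary P, β' g w ∈ unitary P := fun g w hw =>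
    map_unitary (β' g : P →⋆ₐ[ℂ] P) hw
  refine ⟨StarAlgEquiv.ofBijective θ ⟨inj, sur⟩, fun n => (s n).1, hu, hθ, fun g => ?_⟩
  · obtain ⟨k, rfl⟩ := hen g
    refine (int_lim (k + 1) fun n hn => ?_).imp fun _ => And.left
    set w := v (s n).2 (T n (s n).1) n
    have : (s n).1 * star (β' (en k) (s n).1) - (s (n + 1)).1 * star (β' (en k) (s (n + 1)).1) =
        (s n).1 * ((β' (en k) w - w) * star (β' (en k) w)) * star (β' (en k) (s n).1) := by
      rw [sub_mul, (hu' _ _ (hv _ _ _)).2, s1, map_mul, star_mul]; noncomm_ring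
    rw [dist_eq_norm, this, CStarRing.norm_mul_mem_unitary _ (Unitary.star_mem (hu' _ _ (hu n))),
      CStarRing.norm_mem_unitary_mul _ (hu n),
      CStarRing.norm_mul_mem_unitary _ (Unitary.star_mem (hu' _ _ (hv _ _ _)))]
    exact h3 _ _ _ _ (Finset.mem_image_of_mem _ (Finset.mem_range.2 hn))

theorem intS : IntS := by
  intro G A C P _ _ _ _ _ _ _ i j α β β' hi hj hij hid hα hβ h
  obtain ⟨θ, W, hu, hθ, exu⟩ := int_core i j β' hi hj hij hid h
  have hu' : ∀ g, ∀ w ∈ unitary P, β' g w ∈ unitary P := fun g w hw =>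
    map_unitary (β' g : P →⋆ₐ[ℂ] P) hw
  have cb : ∀ g, Continuous (β' g) := fun g => hom_cont (β' g : P →⋆ₐ[ℂ] P)
  choose u hu0 using exu
  have uu : ∀ g, u g ∈ unitary P := fun g => isClosed_unitary.mem_of_tendsto (hu0 g)
    (.of_forall fun n => mul_mem (hu n) (Unitary.star_mem (hu' g _ (hu n))))
  have co : ∀ g g', u (g * g') = u g * β' g (u g') := fun g g' => tendsto_nhds_unique (hu0 _)
    (((hu0 g).mul (((cb g).tendsto _).comp (hu0 g'))).congr fun n => by
      simp only [Function.comp, map_mul, map_star, StarAlgEquiv.mul_apply, mul_assoc]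
      rw [← mul_assoc (star _), (hu' g _ (hu n)).1, one_mul])
  have eq : ∀ g a, j (θ (α g a)) = u g * j (β g (θ a)) * star (u g) := fun g a =>
    tendsto_nhds_unique (hθ _) (by
      rw [← hβ]
      refine (((hu0 g).mul (((cb g).tendsto _).comp (hθ a))).mul (hu0 g).star).congr fun n => ?_
      simp only [Function.comp, map_mul, map_star, mul_assoc, star_mul, star_star, hα]
      rw [← mul_assoc (star _), (hu' g _ (hu n)).1, one_mul, ← mul_assoc (star _),
        (hu' g _ (hu n)).1, one_mul])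
  obtain ⟨μ, m1, m2, m3, m4, m5⟩ := int_mult j hj hid
  refine ⟨θ, fun g => μ (u g), fun g =>
    ⟨by rw [← m3, ← m2, (uu g).1, m4], by rw [← m3, ← m2, (uu g).2, m4]⟩, fun g g' c => hj ?_,
    fun g a => ?_⟩
  · rw [m1, m1, ← hβ, m1, map_mul, hβ, StarAlgEquiv.apply_symm_apply, co, mul_assoc]
  · rw [← m5, ← m5, ← m3, ← m2, ← m2]
    exact congrArg μ (eq g a)

end Vale.Agent.P095
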