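import Vale.Agent.P095.Gen
import Vale.Agent.P095.Int
import Vale.Agent.P095.Char

/-! Strong self-absorption. -/

open Filter Topology TopologicalSpace BoundedContinuousFunction
open scoped BoundedContinuousFunction

namespace Vale.Agent.P095

open Vale.Agent.P101

theorem minNorm_comm {A B : Type} [CStarAlgebra A] [CStarAlgebra B] {n : ℕ} (a : Fin n → A)
    (b : Fin n → B) : minNorm a b ≤ minNorm b a := by
  refine Real.sSup_le ?_ (minNorm_nonneg _ _)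
  rintro _ ⟨H, _, _, _, K, _, _, _, π, σ, ⟨π', hπ⟩, ⟨σ', hσ⟩, rfl⟩
  simp only [hπ, hσ]
  refine le_trans (ContinuousLinearMap.opNorm_le_bound _
    (ContinuousLinearMap.opNorm_nonneg _) fun x => ?_) (le_minNorm σ' π' b a)
  rw [← (TensorProduct.commIsometry ℂ H K).norm_map, ← (TensorProduct.commIsometry ℂ H K).norm_map x]
  refine le_of_eq_of_le (congrArg _ ?_) (ContinuousLinearMap.le_opNorm _ _)
  simp only [_root_.sum_apply, map_sum]
  exact Finset.sum_congr rfl fun i _ =>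
    (DFunLike.congr_fun (TensorProduct.mapL_comp_commIsometry (σ' (b i)) (π' (a i))) x).symm

theorem ssa_graph {A B C Q : Type} [CStarAlgebra A] [CStarAlgebra B] [CStarAlgebra C]
    [CStarAlgebra Q] (ι : A →⋆ₐ[ℂ] C) (κ : B →⋆ₐ[ℂ] C) (ι' : A →⋆ₐ[ℂ] Q) (κ' : B →⋆ₐ[ℂ] Q)
    (h1 : ∀ a b, Commute (ι a) (κ b)) (h2 : ∀ a b, Commute (ι' a) (κ' b))
    (hd : Dense {x : C | ∃ (n : ℕ) (a : Fin n → A) (b : Fin n → B), x = ∑ i, ι (a i) * κ (b i)})
    (h : ∀ (n : ℕ) (a : Fin n → A) (b : Fin n → B),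
      ‖∑ i, ι' (a i) * κ' (b i)‖ ≤ ‖∑ i, ι (a i) * κ (b i)‖) :
    ∃ Θ : C →⋆ₐ[ℂ] Q, (∀ a, Θ (ι a) = ι' a) ∧ ∀ b, Θ (κ b) = κ' b := by
  let E := StarAlgebra.adjoin ℂ (Set.range (ι.prod ι') ∪ Set.range (κ.prod κ'))
  have m1 : ∀ b, (ι b, ι' b) ∈ E := fun b => StarAlgebra.subset_adjoin ℂ _ (.inl ⟨b, rfl⟩)
  have m2 : ∀ z, (κ z, κ' z) ∈ E := fun b => StarAlgebra.subset_adjoin ℂ _ (.inr ⟨b, rfl⟩)
  obtain ⟨Θ, hΘ⟩ := exists_of_graph ((StarAlgHom.fst ℂ C Q).comp E.subtype)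
    ((StarAlgHom.snd ℂ C Q).comp E.subtype) (hd.mono (by
      rintro _ ⟨n, a, z, rfl⟩
      exact ⟨∑ i, ⟨_, m1 (a i)⟩ * ⟨_, m2 (z i)⟩, by rw [map_sum]; rfl⟩)) fun t => by
      obtain ⟨n, a, z, e⟩ := exists_sum_of_adjoin _ _
        (fun a b => Prod.ext (h1 a b).eq (h2 a b).eq) t.2
      change ‖t.1.2‖ ≤ ‖t.1.1‖
      rw [e]
      simp only [Prod.snd_sum, Prod.fst_sum]
      exact h n a z
  exact ⟨Θ, fun b => hΘ ⟨_, m1 b⟩, fun z => hΘ ⟨_, m2 z⟩⟩

/-- Approximate unitary equivalence. -/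
def AU {Z C : Type} [CStarAlgebra C] (f g : Z → C) : Prop :=
  ∀ (F : Finset Z) (ε : ℝ), 0 < ε → ∃ v ∈ unitary C, ∀ d ∈ F, ‖v * f d * star v - g d‖ < ε

namespace AU

variable {Z C : Type} [CStarAlgebra C] {f g k : Z → C}

theorem symm (h : AU f g) : AU g f := fun F ε hε => by
  obtain ⟨v, hv, h⟩ := h F ε hε
  refine ⟨_, Unitary.star_mem hv, fun d hd => lt_of_eq_of_lt ?_ (h d hd)⟩
  rw [← norm_ad (Unitary.star_mem hv) (v * f d * star v), norm_sub_rev, star_star]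
  simp only [← mul_assoc, hv.1, one_mul]
  rw [mul_assoc (f d), hv.1, mul_one]

theorem trans (h : AU f g) (h' : AU g k) : AU f k := fun F ε hε => by
  obtain ⟨v, hv, h⟩ := h F _ (half_pos hε)
  obtain ⟨w, hw, h'⟩ := h' F _ (half_pos hε)
  refine ⟨_, mul_mem hw hv, fun d hd => (norm_sub_le_norm_sub_add_norm_sub _ _ _).trans_lt
    ((add_lt_add (lt_of_eq_of_lt ?_ ((norm_ad hw _ _).trans_lt (h d hd))) (h' d hd)).trans_eq
      (add_halves ε))⟩
  simp only [star_mul, mul_assoc]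

theorem map {Q : Type} [CStarAlgebra Q] (h : AU f g) (π : C →⋆ₐ[ℂ] Q) : AU (π ∘ f) (π ∘ g) :=
  fun F ε hε => by
    obtain ⟨v, hv, h⟩ := h F ε hε
    exact ⟨_, map_unitary π hv, fun d hd => by
      simpa [map_star] using (hom_le π _).trans_lt (h d hd)⟩

theorem comp {Y : Type} (h : AU f g) (ψ : Y → Z) : AU (f ∘ ψ) (g ∘ ψ) := fun F ε hε => by
  classical
  exact (h (F.image ψ) ε hε).imp fun v hv => ⟨hv.1, fun d hd => hv.2 _ (Finset.mem_image_of_mem _ hd)⟩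

end AU

variable {Z : Type} [CStarAlgebra Z]

theorem IsSSA.flip (h : IsSSA Z) : HasApproxInnerHalfFlip Z := by
  obtain ⟨C, _, ι, κ, hm, φ, h⟩ := h
  let ψ := (φ.symm : C →⋆ₐ[ℂ] Z).comp κ
  obtain ⟨σ, s1, s2⟩ := ssa_graph ι κ κ ι hm.1 (fun a b => (hm.1 b a).symm) hm.2.1 fun n a b => by
    simp only [← hm.1, hm.2.2]; exact minNorm_comm _ _
  obtain ⟨Θ, t1, t2⟩ := fin_ext hm ψ
  have h1 : AU (ι ∘ ψ) κ := by
    convert AU.comp h ψ; ext; simp [ψ]
  have h2 : AU (κ ∘ ψ) ι := by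
    convert h1.map σ <;> ext <;> simp [s1, s2]
  have h3 : AU (κ ∘ ψ) (ι ∘ ψ) := by
    convert h2.map Θ <;> ext <;> simp [t1, t2]
  exact ⟨C, _, ι, κ, hm, h2.symm.trans (h3.trans h1)⟩

theorem IsSSA.central [SeparableSpace Z] (h : IsSSA Z) :
    ∃ θ : ℕ → Z →⋆ₐ[ℂ] Z, ∀ f z, Tendsto (fun n => ‖θ n f * z - z * θ n f‖) atTop (𝓝 0) := by
  classical
  obtain ⟨C, _, ι, κ, hm, φ, h⟩ := h
  choose v hv h using fun n : ℕ => h ((Finset.range n).image (denseSeq Z)) _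
    (Nat.one_div_pos_of_nat (n := n))
  refine ⟨fun n => ((φ.symm : C →⋆ₐ[ℂ] Z).comp
    (Unitary.conjStarAlgAut ℂ C ⟨v n, hv n⟩ : C →⋆ₐ[ℂ] C)).comp κ, fun f z =>
    Metric.tendsto_nhds.2 fun ε hε => ?_⟩
  obtain ⟨k, hk⟩ := (denseRange_denseSeq Z).exists_dist_lt z
    (show 0 < ε / (2 * ‖f‖ + 1) / 3 by positivity)
  filter_upwards [eventually_gt_atTop k, tendsto_one_div_add_atTop_nhds_zero_nat.eventually_lt_const
    (show 0 < ε / (2 * ‖f‖ + 1) / 3 by positivity)] with n h1 h2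
  have e1 := (h n _ (Finset.mem_image_of_mem _ (Finset.mem_range.2 h1))).trans h2
  rw [dist_eq_norm] at hk
  have e2 := (norm_ad (hv n) _ _).trans_le ((map_sub ι _ _ ▸ hom_le ι _).trans hk.le)
  have e3 : ‖φ (denseSeq Z k) - φ z‖ < ε / (2 * ‖f‖ + 1) / 3 := by
    rwa [← map_sub, StarAlgEquiv.norm_map, norm_sub_rev]
  have e4 := ((norm_sub_le_norm_sub_add_norm_sub _ _ _).trans_lt (add_lt_add_of_le_of_lt e2
    ((norm_sub_le_norm_sub_add_norm_sub _ _ _).trans_lt (add_lt_add e1 e3)))).trans_eq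
    (show _ = ε / (2 * ‖f‖ + 1) by ring)
  set y := v n * ι z * star (v n)
  set w := v n * κ f * star (v n)
  have c : y * w = w * y := by
    simpa using (Commute.map (hm.1 z f) (Unitary.conjStarAlgAut ℂ C ⟨v n, hv n⟩)).eq
  have n1 : ‖w‖ ≤ ‖f‖ := by simpa using (norm_ad (hv n) _ 0).trans_le (by simpa using hom_le κ f)
  change dist ‖φ.symm w * z - z * φ.symm w‖ 0 < ε
  rw [dist_zero_right, norm_norm, ← StarAlgEquiv.norm_map φ, map_sub, map_mul φ, map_mul φ,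
    φ.apply_symm_apply, show w * φ z - φ z * w = (y - φ z) * w - w * (y - φ z) by
      rw [mul_sub, sub_mul, c]; abel]
  rw [lt_div_iff₀ (by positivity)] at e4
  have t1 := (norm_mul_le w (y - φ z)).trans (mul_le_mul_of_nonneg_right n1 (norm_nonneg _))
  have t2 := (norm_mul_le (y - φ z) w).trans (mul_le_mul_of_nonneg_left n1 (norm_nonneg _))
  nlinarith [norm_sub_le ((y - φ z) * w) (w * (y - φ z)), norm_nonneg (y - φ z)]

theorem zp_of_flip (hZ : IsJiangSu Z) : ZP Z := by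
  intro G ε hε
  obtain ⟨⟨T, hT, mono, dT⟩, C, _, ι, κ, hm, hf⟩ := hZ
  obtain ⟨v, hv, h1⟩ := hf G (ε / 3) (by positivity)
  have hO : IsOpen {w : C | ∀ z ∈ G, ‖w * ι z * star w - κ z‖ < ε / 3} := by
    simp only [Set.ofPred_forall]
    exact G.finite_toSet.isOpen_biInter fun z _ => isOpen_lt (by fun_prop) continuous_const
  obtain ⟨r, r0, hr⟩ := Metric.isOpen_iff.1 hO v h1
  have d0 : 0 < min (r / 2) (1 / 2) := by positivity
  let O := {w : C | ‖star w * w - 1‖ < min (r / 2) (1 / 2) ∧ ‖w * star w - 1‖ < min (r / 2) (1 / 2) ∧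
    ‖w - v‖ < r / 2}
  have hO' : IsOpen O := by
    simp only [O, Set.ofPred_and]
    exact (isOpen_lt (by fun_prop) continuous_const).inter
      ((isOpen_lt (by fun_prop) continuous_const).inter (isOpen_lt (by fun_prop) continuous_const))
  obtain ⟨_, ⟨k, a₀, b₀, rfl⟩, hw₀⟩ := hm.2.1.exists_mem_open hO'
    ⟨v, by simpa only [hv.1, sub_self, norm_zero], by simpa only [hv.2, sub_self, norm_zero],
      by simpa⟩
  obtain ⟨⟨a, b⟩, ⟨ha, hb⟩, hw⟩ := ((dense_pi Set.univ fun (_ : Fin k) _ => dT).prod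
    (dense_pi Set.univ fun (_ : Fin k) _ => dT)).exists_mem_open (hO'.preimage
      (f := fun a : (Fin k → Z) × (Fin k → Z) => ∑ i, ι (a.1 i) * κ (a.2 i)) (by fun_prop))
    ⟨(a₀, b₀), hw₀⟩
  replace hw : ∑ i, ι (a i) * κ (b i) ∈ O := hw
  choose z' hz1 hz2 using fun z => Metric.mem_closure_iff.1 (dT z) (ε / 3) (by positivity)
  have ev : ∀ x ∈ ⋃ n, T n, ∀ᶠ N in atTop, x ∈ T N := fun x hx => by
    obtain ⟨n, hn⟩ := Set.mem_iUnion.1 hx
    exact (eventually_ge_atTop n).mono fun N h => mono h hn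
  obtain ⟨N, ⟨n1, n2⟩, n3⟩ := (((eventually_all.2 fun i => ev _ (ha i trivial)).and
    (eventually_all.2 fun i => ev _ (hb i trivial))).and
    ((eventually_all_finset G).2 fun z _ => ev _ (hz1 z))).exists
  obtain ⟨p, q, hp, hq, hpq, j₀, hj, hr'⟩ := hT N
  let j : DD p q →⋆ₐ[ℂ] Z := j₀
  have : NeZero p := ⟨by omega⟩
  have : NeZero q := ⟨by omega⟩
  choose f hf using fun i => show ∃ f, j f = a i from (hr' ▸ n1 i : a i ∈ Set.range j)
  choose g hg using fun i => show ∃ f, j f = b i from (hr' ▸ n2 i : b i ∈ Set.range j)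
  choose! y hy using fun z hz => show ∃ f, j f = z' z from (hr' ▸ n3 z hz : z' z ∈ Set.range j)
  set s := Set.range (ι.comp j) ∪ Set.range (κ.comp j)
  let E := (StarAlgebra.adjoin ℂ s).topologicalClosure
  have hE : IsClosed (E : Set C) := StarSubalgebra.isClosed_topologicalClosure _
  have hs : s ⊆ E := (StarAlgebra.subset_adjoin ℂ _).trans (StarSubalgebra.le_topologicalClosure _)
  let ι' := (ι.comp j).codRestrict E fun a => hs (Or.inl ⟨a, rfl⟩)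
  let κ' := (κ.comp j).codRestrict E fun a => hs (Or.inr ⟨a, rfl⟩)
  have ew : ((∑ i, ι' (f i) * κ' (g i) : E) : C) = ∑ i, ι (a i) * κ (b i) := by simp [ι', κ', hf, hg]
  obtain ⟨u, hu, e⟩ := near_unitary (w := ∑ i, ι' (f i) * κ' (g i)) d0.le
    ((min_le_right _ _).trans_lt (by norm_num)) (le_of_eq_of_le (by rw [← ew]; rfl) hw.1.le)
    (le_of_eq_of_le (by rw [← ew]; rfl) hw.2.1.le)
  have e' : (u : C) ∈ Metric.ball v r := by
    rw [Metric.mem_ball, dist_eq_norm]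
    refine (norm_sub_le_norm_sub_add_norm_sub _ _ _).trans_lt ((add_lt_add_of_le_of_lt
      (le_of_eq_of_le ?_ (e.trans (min_le_left _ _))) hw.2.2).trans_eq (add_halves r))
    rw [← ew]; rfl
  have n4 : ∀ z ∈ G, ‖j (y z) - z‖ ≤ ε / 3 := fun z hz => by
    rw [hy z hz, ← dist_eq_norm, dist_comm]; exact (hz2 z).le
  refine ⟨p, q, hp, hq, hpq, j, y, fun z hz => (n4 z hz).trans (by linarith), fun Q _ α β hc => ?_⟩
  obtain ⟨Θ, t1, t2⟩ := ssa_graph ι' κ' α β (fun a b => Subtype.ext (hm.1 _ _)) hc (fun x => by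
      rw [closure_subtype]
      refine closure_mono (fun y hy => ?_) x.2
      obtain ⟨n, a, b, rfl⟩ := exists_sum_of_adjoin (ι.comp j) (κ.comp j) (fun _ _ => hm.1 _ _) hy
      exact ⟨_, ⟨n, a, b, rfl⟩, by simp [ι', κ']⟩) fun n x y => by
    rw [← NonUnitalStarAlgHom.norm_map E.subtype Subtype.val_injective, map_sum]
    refine (nuc j hj α β hc x y).trans (le_of_le_of_eq (Real.sSup_le ?_ (minNorm_nonneg _ _))
      (hm.2.2 n (fun i => j (x i)) fun i => j (y i)).symm)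
    rintro _ ⟨H, _, _, _, K, _, _, _, π, σ, ⟨π', hπ⟩, ⟨σ', hσ⟩, rfl⟩
    obtain ⟨R, _, l, m, c1, c2⟩ := rep_pair π' σ'
    simp only [hπ, hσ]
    refine (c2 n _ y).symm.trans_le (le_trans ?_ (minNorm_comm _ _))
    simp only [(c1 _ _).eq]
    exact nuc j hj m l (fun _ _ => (c1 _ _).symm) y _
  refine ⟨_, map_unitary Θ hu, fun z hz => ?_⟩
  rw [← t1, ← t2, ← map_star, ← map_mul, ← map_mul, ← map_sub]
  refine (hom_le Θ _).trans ?_
  have a1 := (norm_ad (map_unitary E.subtype hu) _ _).trans_le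
    ((map_sub ι _ _ ▸ hom_le ι _).trans (n4 z hz))
  have a2 := (map_sub κ _ _ ▸ hom_le κ _).trans (n4 z hz)
  rw [norm_sub_rev] at a2
  exact ((norm_sub_le_norm_sub_add_norm_sub _ _ _).trans (add_le_add a1
    ((norm_sub_le_norm_sub_add_norm_sub _ _ _).trans (add_le_add (hr e' z hz).le a2)))).trans_eq
    (by ring)

theorem exists_ssa (h1 : ZzS) (h2 : CtxS) (h3 : CopyS) (h4 : UniS) :
    ∃ (Z : Type) (_ : CStarAlgebra Z), IsJS Z ∧ IsSSA Z := by
  obtain ⟨Z, _, hZ, zp, θ, hθ⟩ := h1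
  have := hZ.nontrivial
  have := hZ.separable
  have := hZ.simple
  obtain ⟨C, _, ι, κ, hm⟩ := exists_minTensor Z Z
  obtain ⟨c⟩ := h2 Unit Z ⊤ 1 ⟨inferInstance, isClosed_univ, fun _ _ => trivial,
    ⟨1, trivial, one_ne_zero⟩, fun _ => ⟨0, trivial⟩, fun J _ _ => eq_bot_or_eq_top J⟩
    fun _ _ _ => trivial
  let θ' : DD 2 3 →⋆ₐ[ℂ] ℕ →ᵇ Z :=
    { toFun := fun f => ofNormedAddCommGroupDiscrete (θ · f) ‖f‖ fun n => hom_le _ _
      map_one' := by ext; simp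
      map_mul' := fun _ _ => by ext; simp
      map_zero' := by ext; simp
      map_add' := fun _ _ => by ext; simp
      commutes' := fun _ => by ext; simp [Algebra.algebraMap_eq_smul_one]
      map_star' := fun _ => by ext; simp [map_star] }
  let θ₁ : DD 2 3 →⋆ₐ[ℂ] Fix c.γ := (c.q.comp ((c.ul.comp θ').codRestrict _ fun f =>
    mem_Cm.2 fun b => sub_eq_zero.1 ((map_sub c.ul (θ' f * const ℕ b) (const ℕ b * θ' f)).symm.trans
      (c.ul_eq_zero.2 ((hθ f b).mono_left c.atTop)) ▸ by simp [c.j_apply]))).codRestrict _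
    fun f g => by rw [show g = 1 from rfl, map_one]; rfl
  have : SeparableSpace C := hm.2.1.isSeparable_iff.1
    ((isSeparable_adjoin ((isSeparable_hom ι).union (isSeparable_hom κ))).mono (by
      rintro _ ⟨n, a, b, rfl⟩
      exact StarSubalgebra.le_topologicalClosure _ (sum_mem fun i _ => mul_mem
        (StarAlgebra.subset_adjoin ℂ _ (Or.inl ⟨_, rfl⟩))
        (StarAlgebra.subset_adjoin ℂ _ (Or.inr ⟨_, rfl⟩)))))
  obtain ⟨φ, W, w1, w2, -⟩ := int_core ι.toNonUnitalStarAlgHom (NonUnitalStarAlgHom.id ℂ C)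
    (1 : Act Unit C) hm.injective Function.injective_id (fun _ => ⟨_, rfl⟩)
    (fun _ _ => ⟨⟨_, rfl⟩, _, rfl⟩) fun S T K ε hε => by
      obtain ⟨w, hw, k1, k2, k3⟩ := h4 Unit Z ⊤ 1 c Z C ι κ 1
        (fun K ε hε => ⟨{1}, by simp, fun t _ => by simp [hε.le]⟩) zp (h3 _ _ _ _ c).2.2
        ⟨fun χ => char_dd.false (χ.comp θ₁)⟩ hm.injective hm.1 (fun _ _ => rfl) (fun _ _ => rfl)
        S T K ε hε fun x _ => closure_mono (by
          rintro _ ⟨n, a, b, rfl⟩; exact ⟨n, a, b, fun _ => trivial, rfl⟩) (hm.2.1 x)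
      exact ⟨w, hw, k1, k2, fun x hx => (k3 x hx).imp fun _ => And.right⟩
  refine ⟨Z, _, hZ.isJS, C, _, ι, κ, hm, φ, fun F ε hε => ?_⟩
  obtain ⟨n, hn⟩ := ((eventually_all_finset F).2 fun d _ =>
    (tendsto_iff_norm_sub_tendsto_zero.1 (w2 d)).eventually_lt_const hε).exists
  exact ⟨W n, w1 n, hn⟩

theorem ssa_data (h : LocS) (h1 : IsJS Z) (h2 : IsSSA Z) : Nontrivial Z ∧ SeparableSpace Z ∧ ZP Z ∧
    ∀ (G B : Type) [Group G] [CStarAlgebra B] (I : TwoSidedIdeal B) (α : Act G B)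
      (c : Ctx I α), AZ I Z → IsEmpty (c.F →⋆ₐ[ℂ] ℂ) := by
  have hZ : IsJiangSu Z := ⟨h1.1, h2.flip⟩
  have := hZ.separable
  obtain ⟨θ, hθ⟩ := h2.central
  obtain ⟨T, hT, -⟩ := h1.1
  obtain ⟨p, q, hp, hq, -, j, -⟩ := hT 0
  obtain ⟨p, rfl⟩ := Nat.exists_eq_add_of_le' hp
  obtain ⟨q, rfl⟩ := Nat.exists_eq_add_of_le' hq
  exact ⟨hZ.nontrivial, this, zp_of_flip hZ, fun G B _ _ I α c =>
    char_gen h c ⟨fun χ => (char_dd' p q).false (χ.comp j)⟩ θ hθ⟩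

end Vale.Agent.P095
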