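import Vale.Agent.P095.Basic

/-! Local units, fullness and averaging. -/

namespace Vale.Agent.P095

open Vale.Agent.P101

theorem loc_fin {X M : Type*} [AddCommMonoid M] (φ : X → M) {s : M}
    (hs : s ∈ AddSubmonoid.closure (Set.range φ)) : ∃ (m : ℕ) (v : Fin m → X), s = ∑ i, φ (v i) := by
  induction hs using AddSubmonoid.closure_induction with
  | mem x hx => obtain ⟨v, rfl⟩ := hx; exact ⟨1, fun _ => v, by simp⟩
  | zero => exact ⟨0, Fin.elim0, by simp⟩
  | add x y _ _ hx hy =>
    obtain ⟨m, v, rfl⟩ := hx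
    obtain ⟨n, w, rfl⟩ := hy
    exact ⟨m + n, Fin.append v w, by simp [Fin.sum_univ_add]⟩

theorem loc_mem {X M ι : Type*} [AddCommMonoid M] [Fintype ι] (φ : X → M) (v : ι → X) :
    ∑ i, φ (v i) ∈ AddSubmonoid.closure (Set.range φ) :=
  sum_mem fun i _ => AddSubmonoid.subset_closure ⟨v i, rfl⟩

theorem loc_sum_mem {B ι : Type*} [Ring B] (I : TwoSidedIdeal B) {s : Finset ι} {f : ι → B}
    (h : ∀ i ∈ s, f i ∈ I) : ∑ i ∈ s, f i ∈ I :=
  Finset.sum_induction f (· ∈ I) (fun _ _ => I.add_mem) I.zero_mem h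

theorem loc_sq {a b : ℝ} (hb : 0 ≤ b) (h : a * a ≤ b * b) : a ≤ b := abs_le_of_sq_le_sq' (by
  rwa [sq, sq]) hb |>.2

theorem locS : LocS := by
  intro B _ I hI S hS ε hε
  let _ := CStarAlgebra.spectralOrder B
  have := CStarAlgebra.spectralOrderedRing B
  set h := ∑ x ∈ S, (x * star x + star x * x) with hh
  have hI1 : h ∈ I := loc_sum_mem I fun x hx =>
    I.add_mem (I.mul_mem_right _ _ (hS x hx)) (I.mul_mem_left _ _ (hS x hx))
  have p : ∀ x ∈ S, 0 ≤ x * star x + star x * x := fun x _ =>
    add_nonneg (mul_star_self_nonneg x) (star_mul_self_nonneg x)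
  have h0 : 0 ≤ h := Finset.sum_nonneg p
  have hs : IsSelfAdjoint h := .of_nonneg h0
  set δ := ε * ε / 2 with hδ
  have d0 : 0 < δ := by positivity
  let f : ℝ → ℝ := fun t => max 0 (min 1 ((t - δ) / δ))
  let g : ℝ → ℝ := fun t => (max t δ)⁻¹
  have cf : Continuous f := by fun_prop
  have m0 : ∀ t, 0 < max t δ := fun t => d0.trans_le (le_max_right _ _)
  have cg : Continuous g := Continuous.inv₀ (by fun_prop) fun t => (m0 t).ne'
  have e1 : cfc (fun t => t * g t) h = h * cfc g h := by
    rw [cfc_mul _ _ _ (continuousOn_id' _) cg.continuousOn, cfc_id' ℝ h]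
  have f0 : ∀ t, 0 ≤ f t := fun t => le_max_left _ _
  have f1 : ∀ t, f t ≤ 1 := fun t => max_le zero_le_one (min_le_left _ _)
  have e2 : cfc (fun t => t * g t) h * cfc f h = cfc f h := by
    rw [← cfc_mul _ _ _ (by fun_prop) cf.continuousOn]
    refine cfc_congr fun t _ => ?_
    rcases le_total t δ with ht | ht
    · have : f t = 0 := max_eq_left ((min_le_right _ _).trans
        (div_nonpos_of_nonpos_of_nonneg (by linarith) d0.le))
      simp only [this, mul_zero]
    · simp only [g, max_eq_left ht, mul_inv_cancel₀ (d0.trans_le ht).ne', one_mul]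
  have eI : cfc (fun t => t * g t) h ∈ I := e1 ▸ I.mul_mem_right _ _ hI1
  have key : ‖(1 - cfc f h) * h * (1 - cfc f h)‖ ≤ ε * ε := by
    have e3 : 1 - cfc f h = cfc (fun t => 1 - f t) h := by
      rw [cfc_sub _ _ _ (by fun_prop) cf.continuousOn, cfc_const_one ℝ h]
    rw [e3]
    nth_rw 2 [← cfc_id' ℝ h]
    rw [← cfc_mul _ _ _ (by fun_prop) (by fun_prop), ← cfc_mul _ _ _ (by fun_prop) (by fun_prop)]
    refine norm_cfc_le (by positivity) fun t ht => ?_
    have t0 := spectrum_nonneg_of_nonneg h0 ht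
    have := f0 t
    have := f1 t
    rw [Real.norm_of_nonneg (by have : 0 ≤ 1 - f t := by linarith
                                positivity)]
    rcases le_total t (2 * δ) with ht | ht
    · have : (1 - f t) * (1 - f t) ≤ 1 := by nlinarith
      nlinarith
    · have : f t = 1 := by
        simp only [f]
        rw [min_eq_left ((one_le_div d0).2 (by linarith)), max_eq_right zero_le_one]
      rw [this]; simp; positivity
  have sb : IsSelfAdjoint (cfc f h) := IsSelfAdjoint.cfc
  have sb' : IsSelfAdjoint (1 - cfc f h) := (IsSelfAdjoint.one B).sub sb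
  have k2 : ∀ y : B, star y * y ≤ h → ‖y * cfc f h - y‖ ≤ ε := fun y hy => by
    refine loc_sq hε.le ?_
    rw [norm_sub_rev, ← mul_one_sub, ← CStarRing.norm_star_mul_self]
    refine le_trans (CStarAlgebra.norm_le_norm_of_nonneg_of_le (star_mul_self_nonneg _) ?_) key
    have := star_left_conjugate_le_conjugate hy (1 - cfc f h)
    rwa [sb'.star_eq, mul_assoc, mul_assoc, ← mul_assoc, ← sb'.star_eq, ← star_mul, sb'.star_eq]
      at this
  refine ⟨cfc f h, e2 ▸ I.mul_mem_right _ _ eI, _, eI,
    ⟨sb, norm_cfc_le zero_le_one fun t _ => by rw [Real.norm_of_nonneg (f0 t)]; exact f1 t⟩,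
    ⟨IsSelfAdjoint.cfc, norm_cfc_le zero_le_one fun t ht => ?_⟩, e2, fun x hx => ⟨?_, ?_⟩⟩
  · have t0 := spectrum_nonneg_of_nonneg h0 ht
    rw [Real.norm_of_nonneg (mul_nonneg t0 (inv_pos.2 (m0 t)).le)]
    exact mul_inv_le_one_of_le₀ (le_max_left _ _) (m0 t).le
  · have := k2 (star x) (by
      rw [star_star]
      exact (le_add_of_nonneg_right (star_mul_self_nonneg x)).trans (Finset.single_le_sum p hx))
    rwa [← norm_star, star_sub, star_mul, star_star, sb.star_eq] at this
  · exact k2 x ((le_add_of_nonneg_left (mul_star_self_nonneg x)).trans (Finset.single_le_sum p hx))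

/-- Approximate domination by elements of the right ideal of `g`. -/
def SimpP {B : Type} [CStarAlgebra B] (g c : B) : Prop :=
  ∀ η : ℝ, 0 < η → ∃ s ∈ AddSubmonoid.closure (Set.range fun v => star (g * v) * (g * v)),
    Pos (η • (1 : B) + s - c)

section

variable {B : Type} [CStarAlgebra B] {g c c' : B}

theorem SimpP.add (h : SimpP g c) (h' : SimpP g c') : SimpP g (c + c') := fun η hη => by
  obtain ⟨s, hs, p⟩ := h (η / 2) (by positivity)
  obtain ⟨s', hs', p'⟩ := h' (η / 2) (by positivity)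
  exact ⟨s + s', add_mem hs hs', by convert p.add p' using 1; module⟩

theorem SimpP.mono (h : SimpP g c) (h' : Pos (c - c')) : SimpP g c' := fun η hη => by
  obtain ⟨s, hs, p⟩ := h η hη
  exact ⟨s, hs, by convert p.add h' using 1; abel⟩

theorem SimpP.conj (h : SimpP g c) (a : B) : SimpP g (star a * c * a) := fun η hη => by
  obtain ⟨s, hs, p⟩ := h (η / (‖a‖ * ‖a‖ + 1)) (by positivity)
  refine ⟨star a * s * a, ?_, ?_⟩
  · clear p
    induction hs using AddSubmonoid.closure_induction with
    | mem x hx =>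
      obtain ⟨v, rfl⟩ := hx
      exact AddSubmonoid.subset_closure ⟨v * a, by simp only [star_mul, mul_assoc]⟩
    | zero => simp
    | add x y _ _ hx hy => rw [mul_add, add_mul]; exact add_mem hx hy
  · have q := (Pos.of_norm (IsSelfAdjoint.star_mul_self a) (r := ‖a‖ * ‖a‖ + 1)
      (by rw [CStarRing.norm_star_mul_self]; linarith)).smul
      (r := η / (‖a‖ * ‖a‖ + 1)) (by positivity)
    convert (p.conj a).add q using 1
    rw [smul_sub, smul_smul, div_mul_cancel₀ _ (by positivity)]
    simp only [mul_sub, sub_mul, mul_add, add_mul, mul_smul_comm, smul_mul_assoc, mul_one]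
    abel

theorem SimpP.smul (h : SimpP g c) {r : ℝ} (hr : 0 ≤ r) : SimpP g (r • c) := by
  convert h.conj (√r • (1 : B)) using 1
  simp [smul_smul, Real.mul_self_sqrt hr]

theorem SimpP.lim (h : ∀ η : ℝ, 0 < η → SimpP g (c - η • (1 : B))) : SimpP g c := fun η hη => by
  obtain ⟨s, hs, p⟩ := h (η / 2) (by positivity) (η / 2) (by positivity)
  exact ⟨s, hs, by convert p using 1; module⟩

theorem simp_par (x y : B) :
    Pos ((2 : ℝ) • (star x * x) + (2 : ℝ) • (star y * y) - star (x + y) * (x + y)) := by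
  convert Pos.sq (x - y) using 1
  simp only [star_add, star_sub, two_smul]
  noncomm_ring

end

theorem simpS : SimpS := by
  intro B _ I hI g hg g0 c hc hs η hη
  let J : TwoSidedIdeal B := TwoSidedIdeal.mk' {x | x ∈ I ∧ SimpP g (star x * x)}
    ⟨I.zero_mem, fun η hη => ⟨0, zero_mem _, by simpa using Pos.one.smul hη.le⟩⟩
    (fun {x y} hx hy => ⟨I.add_mem hx.1 hy.1,
      ((hx.2.smul zero_le_two).add (hy.2.smul zero_le_two)).mono (simp_par x y)⟩)
    (fun {x} hx => ⟨I.neg_mem hx.1, by simpa using hx.2⟩)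
    (fun {x y} hy => ⟨I.mul_mem_left _ _ hy.1, (hy.2.smul (mul_self_nonneg ‖x‖)).mono (by
      convert (Pos.of_norm (IsSelfAdjoint.star_mul_self x) CStarRing.norm_star_mul_self.le).conj y
        using 1
      simp only [star_mul, mul_sub, sub_mul, mul_smul_comm, smul_mul_assoc, mul_one, mul_assoc])⟩)
    (fun {x y} hx => ⟨I.mul_mem_right _ _ hx.1, by
      convert hx.2.conj y using 1; simp only [star_mul, mul_assoc]⟩)
  have hJ : ∀ x, x ∈ J ↔ x ∈ I ∧ SimpP g (star x * x) := fun x => TwoSidedIdeal.mem_mk' ..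
  have cl : IsClosed (J : Set B) := by
    refine isClosed_of_closure_subset fun x hx => (hJ x).2 ⟨hI.closed.closure_subset
      (closure_mono (fun y hy => ((hJ y).1 hy).1) hx), SimpP.lim fun η hη => ?_⟩
    obtain ⟨y, hy, d⟩ := Metric.mem_closure_iff.1 hx √(η / 2) (by positivity)
    rw [dist_eq_norm] at d
    have q := (Pos.of_norm (IsSelfAdjoint.star_mul_self (x - y)) (r := η / 2) (by
      rw [CStarRing.norm_star_mul_self, ← Real.mul_self_sqrt (x := η / 2) (by positivity)]
      exact mul_self_le_mul_self (norm_nonneg _) d.le)).smul zero_le_two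
    refine (((hJ y).1 hy).2.smul zero_le_two).mono ?_
    convert (simp_par y (x - y)).add q using 1
    rw [add_sub_cancel]
    module
  have hg' : g ∈ J := (hJ g).2 ⟨hg, fun η hη => ⟨star g * g,
    AddSubmonoid.subset_closure ⟨1, by simp⟩, by simpa using Pos.one.smul hη.le⟩⟩
  obtain h | h := hI.simple J cl fun x hx => ((hJ x).1 hx).1
  · exact absurd (by simpa [h] using hg') g0
  have p : SimpP g (c - (η / 2) • (1 : B)) := by
    refine ((((hJ c).1 (h ▸ hc)).2).smul (r := 1 / (2 * η)) (by positivity)).mono ?_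
    convert (Pos.sq (c - η • (1 : B))).smul (r := 1 / (2 * η)) (by positivity) using 1
    simp only [star_sub, star_smul, star_one, star_trivial, hs.star_eq, mul_sub, sub_mul,
      mul_smul_comm, smul_mul_assoc, mul_one, one_mul]
    match_scalars <;> field_simp <;> ring
  obtain ⟨s, hs, p⟩ := p (η / 2) (by positivity)
  obtain ⟨m, v, rfl⟩ := loc_fin _ hs
  exact ⟨m, v, by convert p using 1; rw [Algebra.algebraMap_eq_smul_one]; module⟩

theorem ces_aux {B ι : Type} [CStarAlgebra B] [Fintype ι] (C : Set B) (w : ι → B)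
    (hw : ∑ j, star (w j) * w j = 1) (hC : ∀ j, ∀ z ∈ C, w j * z ∈ C) {r y : B} (hr : r ∈ C)
    (h1 : star r * r = y) (h2 : r * star r = y) {k δ : ℝ} (hk : 0 < k) (hδ : 0 ≤ δ)
    (h : Pos ((1 + δ) • (1 : B) - k⁻¹ • y - ∑ j, w j * star (w j))) (M : ℕ) :
    ∃ T, ((M : ℝ) • y, T) ∈
      AddSubmonoid.closure (Set.range fun z : C => (star (z : B) * z, (z : B) * star (z : B))) ∧
      Pos ((k * (1 + δ) ^ M) • (1 : B) - T) := by
  induction M with
  | zero => exact ⟨0, by rw [Nat.cast_zero, zero_smul]; exact zero_mem _,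
      by simpa using Pos.one.smul hk.le⟩
  | succ M ih =>
    obtain ⟨T, hT, p⟩ := ih
    refine ⟨y + ∑ j, w j * T * star (w j), ?_, ?_⟩
    · obtain ⟨m, z, e⟩ := loc_fin _ hT
      have e1 : (M : ℝ) • y = ∑ i, star (z i : B) * z i := by
        simpa [Prod.fst_sum] using congrArg Prod.fst e
      have e2 : T = ∑ i, (z i : B) * star (z i : B) := by
        simpa [Prod.snd_sum] using congrArg Prod.snd e
      have := add_mem (AddSubmonoid.subset_closure (Set.mem_range_self (⟨r, hr⟩ : C))) (loc_mem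
        (fun z : C => (star (z : B) * z, (z : B) * star (z : B)))
        fun p : Fin m × ι => ⟨w p.2 * z p.1, hC _ _ (z p.1).2⟩)
      convert this using 1
      refine Prod.ext ?_ ?_
      · simp only [Prod.fst_add, Prod.fst_sum, h1, Fintype.sum_prod_type, star_mul]
        have : ∀ x : B, ∑ j, star x * star (w j) * (w j * x) = star x * x := fun x => by
          simp only [mul_assoc, ← Finset.mul_sum]
          simp only [← mul_assoc, ← Finset.sum_mul, hw, one_mul]
        simp only [this, ← e1]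
        push_cast; module
      · simp only [Prod.snd_add, Prod.snd_sum, h2, Fintype.sum_prod_type_right, star_mul, e2,
          Finset.mul_sum, Finset.sum_mul, mul_assoc]
    · have c1 : 1 ≤ (1 + δ) ^ M := one_le_pow₀ (by linarith)
      have q1 := Pos.sum (s := Finset.univ) fun j _ => p.conj (star (w j))
      have q2 := h.smul (r := k * (1 + δ) ^ M) (by positivity)
      have q3 := (h1 ▸ Pos.sq r).smul (sub_nonneg.2 c1)
      convert (q1.add q2).add q3 using 1
      simp only [star_star, mul_sub, sub_mul, mul_smul_comm, smul_mul_assoc, mul_one,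
        Finset.sum_sub_distrib, ← Finset.smul_sum]
      match_scalars <;> field_simp <;> ring

theorem cesS : CesS := by
  rintro B _ e y γ he hy ey hγ ⟨k, x, hx, p⟩
  let C : Set B := {z | e * z = z ∧ z * e = z}
  set s := ∑ i, star (x i) * x i with hs
  have ps : Pos s := Pos.sum fun i _ => Pos.sq _
  set K := ‖s‖ + γ with hK
  have K0 : 0 < K := by positivity
  obtain ⟨a, pa, aa, ca⟩ := (Pos.of_norm ps.sa (r := K) (by linarith)).sqrt
  have hx' : ∀ i, e * star (x i) = star (x i) := fun i => by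
    rw [← he.star_eq, ← star_mul, (hx i).2]
  have ce : Commute a e := ca e <| (Commute.one_left e).smul_left _ |>.sub_left <|
    Commute.sum_left _ _ _ fun i _ => by
      rw [Commute, SemiconjBy, mul_assoc, (hx i).2, ← mul_assoc, hx']
  obtain ⟨r, pr, rr, -⟩ := hy.sqrt
  have er : e * r = r := by
    rw [← sub_eq_zero, ← CStarRing.mul_star_self_eq_zero_iff, star_sub, star_mul, pr.sa.star_eq,
      he.star_eq, ← sub_one_mul, ← mul_sub_one, mul_assoc, ← mul_assoc r, rr, ← mul_assoc,
      sub_one_mul, ey, sub_self, zero_mul]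
  have re : r * e = r := by rw [← pr.sa.star_eq, ← he.star_eq, ← star_mul, er]
  have sq : (√K)⁻¹ * (√K)⁻¹ = K⁻¹ := by rw [← mul_inv, Real.mul_self_sqrt K0.le]
  set M := ⌈K / γ⌉₊ with hM
  have M1 : K / γ ≤ M := Nat.le_ceil _
  have M2 : (M : ℝ) < K / γ + 1 := Nat.ceil_lt_add_one (by positivity)
  have M0 : (0 : ℝ) < M := (div_pos K0 hγ).trans_le M1
  obtain ⟨T, hT, q⟩ := ces_aux C (fun j : Option (Fin k) => (√K)⁻¹ • j.elim a x) (by
      simp only [Fintype.sum_option, Option.elim, star_smul, star_trivial, smul_mul_smul_comm, sq,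
        pa.sa.star_eq, aa, ← Finset.smul_sum, ← hs]
      rw [sub_add_cancel, smul_smul, inv_mul_cancel₀ K0.ne', one_smul])
    (by
      rintro (_ | j) z hz
      · exact ⟨by simp only [Option.elim, smul_mul_assoc, mul_smul_comm]
                  rw [← mul_assoc, ← ce.eq, mul_assoc, hz.1], by rw [mul_assoc, hz.2]⟩
      · exact ⟨by simp only [Option.elim, smul_mul_assoc, mul_smul_comm]
                  rw [← mul_assoc, (hx j).1], by rw [mul_assoc, hz.2]⟩)
    (r := r) (y := y) ⟨er, re⟩ (by rw [pr.sa.star_eq, rr]) (by rw [pr.sa.star_eq, rr]) K0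
    (δ := γ / K) (by positivity) (by
      convert p.smul (r := K⁻¹) (by positivity) using 1
      simp only [Fintype.sum_option, Option.elim, star_smul, star_trivial, smul_mul_smul_comm, sq,
        pa.sa.star_eq, aa, ← Finset.smul_sum, ← hs, Finset.sum_sub_distrib,
        Algebra.algebraMap_eq_smul_one]
      match_scalars <;> field_simp <;> ring) M
  obtain ⟨m, z, e⟩ := loc_fin _ hT
  have e1 : (M : ℝ) • y = ∑ i, star (z i : B) * z i := by
    simpa [Prod.fst_sum] using congrArg Prod.fst e
  have e2 : T = ∑ i, (z i : B) * star (z i : B) := by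
    simpa [Prod.snd_sum] using congrArg Prod.snd e
  have sm : (√M)⁻¹ * (√M)⁻¹ = (M : ℝ)⁻¹ := by rw [← mul_inv, Real.mul_self_sqrt M0.le]
  refine ⟨m, fun i => (√M)⁻¹ • (z i : B), fun i => ⟨by rw [mul_smul_comm, (z i).2.1],
    by rw [smul_mul_assoc, (z i).2.2]⟩, ?_, ?_⟩
  · simp only [star_smul, star_trivial, smul_mul_smul_comm, sm, ← Finset.smul_sum, ← e1]
    rw [smul_smul, inv_mul_cancel₀ M0.ne', one_smul]
  · simp only [star_smul, star_trivial, smul_mul_smul_comm, sm, ← Finset.smul_sum, ← e2]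
    have pT : Pos T := e2 ▸ Pos.sum fun i _ => by simpa using Pos.sq (star (z i : B))
    have n1 := pT.norm_le q
    have b1 : (1 + γ / K) ^ M ≤ 10 := by
      have g1 : γ / K ≤ 1 := (div_le_one K0).2 (by linarith [norm_nonneg s])
      have g2 : M * (γ / K) ≤ 2 := by
        have := mul_le_mul_of_nonneg_right M2.le (div_pos hγ K0).le
        rw [add_mul, div_mul_div_cancel₀ hγ.ne', div_self K0.ne'] at this
        linarith
      calc (1 + γ / K) ^ M ≤ Real.exp (γ / K) ^ M :=
            pow_le_pow_left₀ (by positivity) (by linarith [Real.add_one_le_exp (γ / K)]) _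
        _ = Real.exp (M * (γ / K)) := (Real.exp_nat_mul _ _).symm
        _ ≤ Real.exp (1 + 1) := Real.exp_le_exp.2 (by linarith)
        _ ≤ 10 := by
          rw [Real.exp_add]
          nlinarith [Real.exp_one_lt_d9, Real.exp_pos 1]
    rw [norm_smul, Real.norm_of_nonneg (by positivity)] at n1 ⊢
    rw [inv_mul_le_iff₀ M0]
    rw [div_le_iff₀ hγ] at M1
    have := norm_one_le' (M := B)
    have : K * (1 + γ / K) ^ M * ‖(1 : B)‖ ≤ K * 10 * 1 := by gcongr
    nlinarith

end Vale.Agent.P095
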