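import Vale.Agent.P095.Dom
import Vale.Agent.P095.Loc

/-! Nuclearity gives the approximation property. -/

open scoped InnerProductSpace TensorProduct ComplexOrder
open UniformSpace TensorProduct

namespace Vale.Agent.P095

open Vale.Agent.P101

theorem cpa_pos {M : Type} [CStarAlgebra M] {x : M} (hx : IsSelfAdjoint x) : x⁺ = 0 ↔ Pos (-x) := by
  let _ := CStarAlgebra.spectralOrder M
  have := CStarAlgebra.spectralOrderedRing M
  rw [CFC.posPart_eq_zero_iff x hx, pos_iff, neg_nonneg]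

theorem cpa_neg {B D Q E : Type} [CStarAlgebra B] [CStarAlgebra D] [CStarAlgebra Q] [CStarAlgebra E]
    (I : TwoSidedIdeal B) (hI : ∀ x ∈ I, star x ∈ I) (ι : B →⋆ₐ[ℂ] Q × E) (κ : D →⋆ₐ[ℂ] Q × E)
    (hc : ∀ a d, Commute (ι a) (κ d)) (h : ∀ (n : ℕ) (a : Fin n → B) (d : Fin n → D), (∀ i, a i ∈ I) →
      ‖(∑ i, ι (a i) * κ (d i)).2‖ ≤ ‖(∑ i, ι (a i) * κ (d i)).1‖) {J : Type} [Fintype J] (a : J → I)
    (d : J → D) {Y : Q × E} (hY : Y = ∑ i, ι (a i) * κ (d i)) (hn : Pos (-(Y.1 + star Y.1))) :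
    Pos (-(Y.2 + star Y.2)) := by
  let φ : I × D → Q × E := fun p => ι p.1 * κ p.2
  have m : ∀ a ∈ I, ∀ d, ι a * κ d ∈ AddSubmonoid.closure (Set.range φ) := fun a ha d =>
    AddSubmonoid.subset_closure ⟨(⟨a, ha⟩, d), rfl⟩
  let T : NonUnitalStarSubalgebra ℂ (Q × E) :=
    { AddSubmonoid.closure (Set.range φ) with
      smul_mem' := fun c x hx => by
        induction hx using AddSubmonoid.closure_induction with
        | mem x hx =>
          obtain ⟨p, rfl⟩ := hx
          simpa using m _ p.1.2 (c • p.2)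
        | zero => rw [smul_zero]; exact zero_mem (AddSubmonoid.closure _)
        | add x y _ _ hx hy => rw [smul_add]; exact add_mem (S := AddSubmonoid _) hx hy
      mul_mem' := fun {x y} hx hy => by
        induction hx, hy using AddSubmonoid.closure_induction₂ with
        | mem x y hx hy =>
          obtain ⟨p, rfl⟩ := hx
          obtain ⟨q, rfl⟩ := hy
          have := m _ (I.mul_mem_left p.1 _ q.1.2) (p.2 * q.2)
          rwa [map_mul, map_mul, ← (hc _ _).symm.mul_mul_mul_comm] at this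
        | zero_left => rw [zero_mul]; exact zero_mem (AddSubmonoid.closure _)
        | zero_right => rw [mul_zero]; exact zero_mem (AddSubmonoid.closure _)
        | add_left x y z _ _ _ hx hy => rw [add_mul]; exact add_mem (S := AddSubmonoid _) hx hy
        | add_right x y z _ _ _ hx hy => rw [mul_add]; exact add_mem (S := AddSubmonoid _) hx hy
      star_mem' := fun {x} hx => by
        induction hx using AddSubmonoid.closure_induction with
        | mem x hx =>
          obtain ⟨p, rfl⟩ := hx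
          have := m _ (hI _ p.1.2) (star p.2)
          rwa [(hc _ _).eq, map_star, map_star, ← star_mul] at this
        | zero => rw [star_zero]; exact zero_mem (AddSubmonoid.closure _)
        | add x y _ _ hx hy => rw [star_add]; exact add_mem (S := AddSubmonoid _) hx hy }
  have y1 : Y ∈ T := hY ▸ loc_mem φ fun i => (a i, d i)
  have cl : IsClosed (T.topologicalClosure : Set (Q × E)) := isClosed_closure
  have y2 : (Y + star Y)⁺ ∈ T.topologicalClosure :=
    cfcₙ_mem (𝕜' := ℂ) _ (T.le_topologicalClosure (add_mem y1 (star_mem y1)))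
  have y3 := closure_minimal (t := {x : Q × E | ‖x.2‖ ≤ ‖x.1‖}) (fun x hx => by
    obtain ⟨n, v, rfl⟩ := loc_fin φ hx
    exact h n _ _ fun i => (v i).1.2) (isClosed_le (by fun_prop) (by fun_prop)) y2
  have s := IsSelfAdjoint.add_star_self Y
  have e1 : (Y + star Y)⁺.1 = 0 := (map_posPart (StarAlgHom.fst ℂ Q E) s).trans
    ((cpa_pos (IsSelfAdjoint.add_star_self Y.1)).2 hn)
  refine (cpa_pos (IsSelfAdjoint.add_star_self Y.2)).1
    ((map_posPart (StarAlgHom.snd ℂ Q E) s).symm.trans (norm_le_zero_iff.1 ?_))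
  rwa [Set.mem_ofPred_eq, e1, norm_zero] at y3

theorem cpa_pair {A B H K : Type} [CStarAlgebra A] [CStarAlgebra B] [NormedAddCommGroup H]
    [InnerProductSpace ℂ H] [CompleteSpace H] [NormedAddCommGroup K] [InnerProductSpace ℂ K]
    [CompleteSpace K] (π : A →⋆ₐ[ℂ] (H →L[ℂ] H)) (σ : B →⋆ₐ[ℂ] (K →L[ℂ] K)) :
    ∃ (ι : A →⋆ₐ[ℂ] (Completion (H ⊗[ℂ] K) →L[ℂ] Completion (H ⊗[ℂ] K)))
      (κ : B →⋆ₐ[ℂ] (Completion (H ⊗[ℂ] K) →L[ℂ] Completion (H ⊗[ℂ] K))),
      (∀ a b, Commute (ι a) (κ b)) ∧ ∀ a b, ι a * κ b = cpl (mapL (π a) (σ b)) := by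
  have one : mapL (1 : H →L[ℂ] H) (1 : K →L[ℂ] K) = 1 := mapL_id_id
  let ι : A →⋆ₐ[ℂ] (Completion (H ⊗[ℂ] K) →L[ℂ] Completion (H ⊗[ℂ] K)) :=
    { AlgHom.ofLinearMap
        { toFun := fun a => cpl (mapL (π a) 1)
          map_add' := fun a b => by rw [map_add, mapL_add_left, map_add]
          map_smul' := fun c a => by rw [map_smul, mapL_smul_left, map_smul]; rfl }
        (by simp [one]) (fun a b => by simp [← map_mul cpl, ← mapL_mul]) with
      map_star' := fun a => star_cpl fun x y => by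
        simpa [map_star] using inner_mapL (π a) (1 : K →L[ℂ] K) x y }
  let κ : B →⋆ₐ[ℂ] (Completion (H ⊗[ℂ] K) →L[ℂ] Completion (H ⊗[ℂ] K)) :=
    { AlgHom.ofLinearMap
        { toFun := fun a => cpl (mapL 1 (σ a))
          map_add' := fun a b => by rw [map_add, mapL_add_right, map_add]
          map_smul' := fun c a => by rw [map_smul, mapL_smul_right, map_smul]; rfl }
        (by simp [one]) (fun a b => by simp [← map_mul cpl, ← mapL_mul]) with
      map_star' := fun a => star_cpl fun x y => by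
        simpa [map_star] using inner_mapL (1 : H →L[ℂ] H) (σ a) x y }
  have e1 : ∀ a b, ι a * κ b = cpl (mapL (π a) (σ b)) := fun a b => by
    change cpl _ * cpl _ = _
    rw [← map_mul, ← mapL_mul, mul_one, one_mul]
  have e2 : ∀ a b, κ b * ι a = cpl (mapL (π a) (σ b)) := fun a b => by
    change cpl _ * cpl _ = _
    rw [← map_mul, ← mapL_mul, mul_one, one_mul]
  exact ⟨ι, κ, fun a b => (e1 a b).trans (e2 a b).symm, e1⟩

theorem cpa_op {H : Type} [NormedAddCommGroup H] [InnerProductSpace ℂ H] [CompleteSpace H]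
    (Y : H →L[ℂ] H) : Pos (-(Y + star Y)) ↔ ∀ v, (⟪v, Y v⟫_ℂ).re ≤ 0 := by
  rw [pos_iff, ContinuousLinearMap.nonneg_iff_isPositive, ContinuousLinearMap.isPositive_def']
  refine (and_iff_right (IsSelfAdjoint.add_star_self Y).neg).trans (forall_congr' fun v => ?_)
  have := inner_re_symm (𝕜 := ℂ) (Y v) v
  simp only [ContinuousLinearMap.reApplyInnerSelf, neg_apply, add_apply, inner_neg_left,
    inner_add_left, ContinuousLinearMap.star_eq_adjoint, ContinuousLinearMap.adjoint_inner_left,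
    map_neg, map_add, this]
  simp only [RCLike.re_to_complex]
  constructor <;> intro <;> linarith

section

variable {B : Type} [CStarAlgebra B] (l : B →L[ℂ] ℂ)

/-- The set of the approximating maps. -/
def CpaK : Set (B → B) := {φ | ∃ (n k : ℕ) (d : Fin n → B) (c : Fin k → Fin n → B), φ = cpm l d c}

theorem cpa_mem {ι κ : Type} [Fintype ι] [Fintype κ] (d : ι → B) (c : κ → ι → B) :
    (fun x => ∑ m, ∑ a, ∑ b, l (star (d a) * x * d b) • (star (c m a) * c m b)) ∈ CpaK l := by
  let e := (Fintype.equivFin ι).symm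
  let e' := (Fintype.equivFin κ).symm
  refine ⟨_, _, fun a => d (e a), fun m a => c (e' m) (e a), funext fun x => ?_⟩
  refine (Equiv.sum_comp e' _).symm.trans (Finset.sum_congr rfl fun m _ => ?_)
  exact (Equiv.sum_comp e _).symm.trans
    (Finset.sum_congr rfl fun a _ => (Equiv.sum_comp e _).symm)

theorem cpa_add {φ ψ : B → B} (h : φ ∈ CpaK l) (h' : ψ ∈ CpaK l) : φ + ψ ∈ CpaK l := by
  obtain ⟨n, k, d, c, rfl⟩ := h
  obtain ⟨n', k', d', c', rfl⟩ := h'
  convert cpa_mem l (Sum.elim d d') (Sum.elim (fun m => Sum.elim (c m) 0) fun m => Sum.elim 0 (c' m))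
    using 1
  ext x
  simp [cpm]

theorem cpa_smul {φ : B → B} (h : φ ∈ CpaK l) {r : ℝ} (hr : 0 ≤ r) : r • φ ∈ CpaK l := by
  obtain ⟨n, k, d, c, rfl⟩ := h
  refine ⟨n, k, d, fun m a => √r • c m a, funext fun x => ?_⟩
  simp only [cpm, Pi.smul_apply, Finset.smul_sum, star_smul, star_trivial, smul_mul_smul_comm,
    Real.mul_self_sqrt hr, smul_comm r]

end

theorem cpa_zero (h1 : DomS) {B : Type} [CStarAlgebra B] {I : TwoSidedIdeal B} (hI : Sys B I)
    (hN : Nuc I) {l : B →L[ℂ] ℂ} (hl : IsState l) (h0 : ∃ a ∈ I, l a ≠ 0) {k : ℕ} (x : Fin k → I) :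
    (fun i => (x i : B)) ∈ closure ((fun φ i => φ (x i)) '' CpaK l) := by
  by_contra hx
  obtain ⟨F, u, F1, F2⟩ := RCLike.geometric_hahn_banach_closed_point (𝕜 := ℂ)
    (Convex.closure (by
      rintro _ ⟨φ, hφ, rfl⟩ _ ⟨ψ, hψ, rfl⟩ a b ha hb -
      exact ⟨_, cpa_add l (cpa_smul l hφ ha) (cpa_smul l hψ hb), rfl⟩)) isClosed_closure hx
  simp only [RCLike.re_to_complex] at F1 F2
  have F3 : ∀ φ ∈ CpaK l, (F fun i => φ (x i)).re ≤ 0 ∧ 0 < u := fun φ hφ => by
    have k : ∀ r : ℝ, 0 ≤ r → r * (F fun i => φ (x i)).re < u := fun r hr => by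
      have := F1 ((r : ℂ) • fun i => φ (x i)) (subset_closure ⟨_, cpa_smul l hφ hr, by
        ext i; simp⟩)
      rwa [map_smul, smul_eq_mul, Complex.re_ofReal_mul] at this
    have u0 : 0 < u := by simpa using k 0 le_rfl
    refine ⟨not_lt.1 fun h => ?_, u0⟩
    simpa [h.ne'] using k (u / (F fun i => φ (x i)).re) (by positivity)
  have : Nontrivial B := ⟨⟨1, 0, fun h => by simpa [h] using hl.one⟩⟩
  obtain ⟨H, _, _, _, π, ξ, t, hd, tc, ht⟩ := h1 B k fun i =>
    F ∘L ContinuousLinearMap.single ℂ (fun _ => B) i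
  have hF : ∀ v : Fin k → B, F v = ∑ i, ⟪ξ, π (v i) (t i ξ)⟫_ℂ := fun v => by
    conv_lhs => rw [← Finset.univ_sum_single v, map_sum]
    exact Finset.sum_congr rfl fun i _ => ht i _
  obtain ⟨K, _, _, _, σ, Ω, hi, hd'⟩ := dom_gns l.toLinearMap fun x => dom_state l hl.le hl.one
  have inj : ∀ a ∈ I, σ a = 0 → a = 0 := by
    have cl : IsClosed ((I ⊓ TwoSidedIdeal.ker σ : TwoSidedIdeal B) : Set B) := by
      convert hI.closed.inter (isClosed_eq (hom_cont σ) (continuous_const (y := 0))) using 1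
      ext a; simp [TwoSidedIdeal.mem_inf, TwoSidedIdeal.mem_ker]
    obtain h | h := hI.simple _ cl inf_le_left
    · intro a ha h'
      simpa [h] using (TwoSidedIdeal.mem_inf B).2 ⟨ha, (TwoSidedIdeal.mem_ker σ).2 h'⟩
    · obtain ⟨a, ha, a0⟩ := h0
      have := (TwoSidedIdeal.mem_ker σ).1 ((TwoSidedIdeal.mem_inf B).1 (h.symm ▸ ha)).2
      exact absurd (by simpa [this] using (hi 1 a).symm) a0
  obtain ⟨ι, κ, hc, he⟩ := cpa_pair σ (Cm π).subtype
  have hc' : ∀ a (d : Cm π), π a * (Cm π).subtype d = (Cm π).subtype d * π a := fun a d =>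
    (mem_Cm.1 d.2 a).symm.eq
  have key := cpa_neg I hI.star (ι.prod π) (κ.prod (Cm π).subtype)
    (fun a d => Prod.ext (hc a d).eq (hc' a d)) (fun n a d ha => by
      have := hN _ _ _ _ σ (Cm π).subtype inj Subtype.val_injective π (Cm π).subtype hc' n a d ha
      rw [Prod.fst_sum, Prod.snd_sum]
      refine this.trans_eq ?_
      change _ = ‖∑ i, ι (a i) * κ (d i)‖
      simp only [he, ← map_sum, norm_cpl]
      rfl) x (fun i => ⟨t i, mem_Cm.2 (tc i)⟩) rfl ((cpa_op _).2 fun v => by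
      rw [Prod.fst_sum]
      change (⟪v, (∑ i, ι (x i) * κ ⟨t i, _⟩) v⟫_ℂ).re ≤ 0
      simp only [he, ← map_sum]
      induction v using Completion.induction_on with
      | hp => exact isClosed_le (by fun_prop) (by fun_prop)
      | ih v =>
        obtain ⟨n, a, b, rfl⟩ := exists_sum_tmul_eq v
        rw [cpl_coe, Completion.inner_coe]
        simp only [sum_apply, map_sum, mapL_tmul, inner_sum, sum_inner, TensorProduct.inner_tmul]
        refine ((DenseRange.piMap (fun _ : Fin n => hd') ).prodMap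
          (DenseRange.piMap (fun _ : Fin n => hd))).induction_on (p := fun z =>
            (∑ j, ∑ i, ∑ j', ⟪z.1 j', σ (x i) (z.1 j)⟫_ℂ * ⟪z.2 j', t i (z.2 j)⟫_ℂ).re ≤ 0) (a, b)
            (isClosed_le (by fun_prop) (by fun_prop)) fun z => ?_
        refine le_of_eq_of_le (congrArg _ ?_) (F3 _ ⟨n, 1, z.1, fun _ => z.2, rfl⟩).1
        rw [hF, Finset.sum_comm]
        refine Finset.sum_congr rfl fun i _ => ?_
        simp only [cpm, Fin.sum_univ_one, map_sum, map_smul, sum_apply, smul_apply, inner_sum,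
          inner_smul_right]
        rw [Finset.sum_comm]
        refine Finset.sum_congr rfl fun j _ => Finset.sum_congr rfl fun j' _ => ?_
        simp only [Prod.map_fst, Prod.map_snd, Pi.map_apply]
        rw [← mul_apply_eq_comp (σ _), ← map_mul, hi, ← mul_assoc, map_mul π, map_star,
          ← mul_apply_eq_comp (t i), (tc i _).eq, mul_apply_eq_comp, mul_apply_eq_comp,
          ContinuousLinearMap.star_eq_adjoint, ContinuousLinearMap.adjoint_inner_right]
        rfl)
  have := (cpa_op _).1 key ξ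
  rw [Prod.snd_sum, sum_apply, inner_sum] at this
  exact (F2.trans_le ((congrArg _ (hF _)).trans_le this)).not_gt
    (F3 _ ⟨0, 0, Fin.elim0, Fin.elim0, rfl⟩).2

theorem cpaS (h1 : DomS) (h2 : LocS) : CpaS := by
  classical
  intro B _ I hI hN l hl h0 S hS ε hε
  obtain ⟨b, hb, -, -, sb, -, -, h⟩ := h2 B I hI S hS (ε / 5) (by positivity)
  let e := (Fintype.equivFin (Option S)).symm
  obtain ⟨_, ⟨_, ⟨n, k, d, c, rfl⟩, rfl⟩, hd⟩ := Metric.mem_closure_iff.1 (cpa_zero h1 hI hN hl h0
    fun i => ⟨b * (e i).elim 1 (↑) * b, I.mul_mem_left _ _ hb⟩) (ε / 5) (by positivity)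
  have k1 : ∀ o : Option S, ‖cpm l d c (b * o.elim 1 (↑) * b) - b * o.elim 1 (↑) * b‖ ≤ ε / 5 :=
    fun o => by
      have := (dist_le_pi_dist _ _ (e.symm o)).trans hd.le
      rw [dist_comm, dist_eq_norm] at this
      simpa only [e.apply_symm_apply] using this
  have k2 : ∀ x, cpm l (fun a => b * d a) (fun m a => c m a * b) x = b * cpm l d c (b * x * b) * b :=
    fun x => by
      simp only [cpm, Finset.mul_sum, Finset.sum_mul, star_mul, sb.sa.star_eq, mul_smul_comm,
        smul_mul_assoc, mul_assoc]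
  have k3 : ∀ x, ‖b * x * b‖ ≤ ‖x‖ := fun x => norm_mul₃_le.trans (by
    have := sb.le
    calc _ ≤ 1 * ‖x‖ * 1 := by gcongr
      _ = _ := by ring)
  refine ⟨n, k, fun a => b * d a, fun m a => c m a * b, fun m a => I.mul_mem_left _ _ hb, ?_,
    fun x hx => ?_⟩
  · have := norm_le_norm_add_norm_sub' (cpm l d c (b * 1 * b)) (b * 1 * b)
    rw [k2]
    linarith [k3 (cpm l d c (b * 1 * b)), k3 1, norm_one_le' (M := B), (show ‖cpm l d c (b * 1 * b) -
      b * 1 * b‖ ≤ _ from k1 none)]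
  · have k4 : ‖b * x * b - x‖ ≤ 2 * (ε / 5) := by
      have := (norm_mul_le (b * x - x) b).trans (mul_le_of_le_one_right (norm_nonneg _) sb.le)
      have := norm_add_le ((b * x - x) * b) (x * b - x)
      rw [show (b * x - x) * b + (x * b - x) = b * x * b - x by noncomm_ring] at this
      linarith [h x hx]
    have := norm_add₃_le (a := b * (cpm l d c (b * x * b) - b * x * b) * b)
      (b := b * (b * x * b - x) * b) (c := b * x * b - x)
    rw [k2, show b * cpm l d c (b * x * b) * b - x = b * (cpm l d c (b * x * b) - b * x * b) * b +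
      b * (b * x * b - x) * b + (b * x * b - x) by noncomm_ring]
    linarith [k3 (cpm l d c (b * x * b) - b * x * b), k3 (b * x * b - x),
      (show ‖cpm l d c (b * x * b) - b * x * b‖ ≤ _ from k1 (some ⟨x, hx⟩))]

end Vale.Agent.P095
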