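import Vale.Agent.P095.Basic

/-! Domination of functionals by a vector state. -/

open scoped InnerProductSpace ComplexOrder

namespace Vale.Agent.P095

open Vale.Agent.P101

variable {B : Type} [CStarAlgebra B]

theorem dom_state (g : B →L[ℂ] ℂ) (h0 : ∀ x, ‖g x‖ ≤ ‖x‖) (h1 : g 1 = 1) {x : B} (hx : Pos x) :
    0 ≤ g x := by
  let _ := CStarAlgebra.spectralOrder B
  have := CStarAlgebra.spectralOrderedRing B
  exact state_nonneg g h0 h1 x (pos_iff.1 hx)

theorem dom_gns (g : B →ₗ[ℂ] ℂ) (hg : ∀ x, Pos x → 0 ≤ g x) :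
    ∃ (H : Type) (_ : NormedAddCommGroup H) (_ : InnerProductSpace ℂ H) (_ : CompleteSpace H)
      (π : B →⋆ₐ[ℂ] (H →L[ℂ] H)) (Ω : H), (∀ x y, ⟪π x Ω, π y Ω⟫_ℂ = g (star x * y)) ∧
      DenseRange fun b => π b Ω := by
  let _ := CStarAlgebra.spectralOrder B
  have := CStarAlgebra.spectralOrderedRing B
  let f : B →ₚ[ℂ] ℂ := PositiveLinearMap.mk₀ g fun x hx => hg x (pos_iff.2 hx)
  have key : ∀ y, f.gnsStarAlgHom y ((f.toPreGNS 1 : f.PreGNS) : f.GNS)
      = ((f.toPreGNS y : f.PreGNS) : f.GNS) := fun y => by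
    change f.gnsNonUnitalStarAlgHom y _ = _
    rw [f.gnsNonUnitalStarAlgHom_apply_coe]
    simp
  refine ⟨f.GNS, inferInstance, inferInstance, inferInstance, f.gnsStarAlgHom,
    ((f.toPreGNS 1 : f.PreGNS) : f.GNS), fun x y => ?_, ?_⟩
  · rw [key, key, UniformSpace.Completion.inner_coe, f.preGNS_inner_def]
    rfl
  · simp only [key]
    exact UniformSpace.Completion.denseRange_coe.comp f.toPreGNS.surjective.denseRange
      (UniformSpace.Completion.continuous_coe _)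

theorem dom_jordan [Nontrivial B] (g : B →L[ℂ] ℂ) : ∃ ρ σ : B →ₗ[ℂ] ℂ, (∀ x, Pos x → 0 ≤ ρ x) ∧
    (∀ x, Pos x → 0 ≤ σ x) ∧ ∀ x, g x + star (g (star x)) = ρ x - σ x := by
  set M : ℝ := 2 * ‖g‖ + 1 with hM
  have M0 : 0 < M := by positivity
  let h : B →ₗ[ℂ] ℂ :=
    { toFun := fun x => g x + star (g (star x))
      map_add' := fun x y => by simp only [star_add, map_add]; ring
      map_smul' := fun c x => by simp [mul_add] }
  let j : ℂ × B →ₗ[ℂ] B × B := ((Algebra.linearMap ℂ B).coprod LinearMap.id).prod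
    ((Algebra.linearMap ℂ B).coprod (-LinearMap.id))
  let g₀ : ℂ × B →ₗ[ℂ] ℂ := LinearMap.id.coprod (((M⁻¹ : ℝ) : ℂ) • h)
  have hre : ∀ d, (g₀ d).re ≤ ‖j d‖ := by
    rintro ⟨t, x⟩
    set N := ‖j (t, x)‖ with hN
    have k : ∀ y : B, ‖algebraMap ℂ B t + y‖ ≤ N →
        ‖(2 * t.re) • (1 : B) + (y + star y)‖ ≤ 2 * N := fun y hy => by
      have := norm_add_le (algebraMap ℂ B t + y) (star (algebraMap ℂ B t + y))
      rw [norm_star, show algebraMap ℂ B t + y + star (algebraMap ℂ B t + y) =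
        (2 * t.re) • (1 : B) + (y + star y) by
          rw [star_add, ← algebraMap_star_comm, add_add_add_comm, ← map_add, Complex.star_def,
            Complex.add_conj, Algebra.algebraMap_eq_smul_one, Complex.coe_smul]] at this
      linarith
    have k1 := k x (norm_fst_le (j (t, x)))
    have k2 := k (-x) (norm_snd_le (j (t, x)))
    have s0 : IsSelfAdjoint ((2 * t.re) • (1 : B)) := (IsSelfAdjoint.all _).smul (.one B)
    have n0 : 2 * t.re ≤ 2 * N := by
      have := norm_add_le ((2 * t.re) • (1 : B) + (x + star x))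
        ((2 * t.re) • (1 : B) + (-x + star (-x)))
      rw [show (2 * t.re) • (1 : B) + (x + star x) + ((2 * t.re) • (1 : B) + (-x + star (-x))) =
        (4 * t.re) • (1 : B) by rw [star_neg]; module, norm_smul, norm_one, mul_one] at this
      linarith [Real.le_norm_self (4 * t.re)]
    have n1 : ‖x + star x‖ ≤ 2 * N - 2 * t.re := norm_le_of_pos (by linarith)
      (by convert Pos.of_norm (s0.add (.add_star_self x)) k1 using 1; module)
      (by convert Pos.of_norm (s0.add (.add_star_self (-x))) k2 using 1; rw [star_neg]; module)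
    have n2 := (Complex.re_le_norm _).trans (g.le_of_opNorm_le_of_le le_rfl n1)
    have e : (g₀ (t, x)).re = t.re + M⁻¹ * (g (x + star x)).re := by simp [g₀, h]
    rw [e, ← le_sub_iff_add_le', inv_mul_le_iff₀ M0]
    nlinarith
  obtain ⟨G, G0, G1⟩ := exists_ext j g₀ fun d => by
    obtain ⟨c, h1, h2⟩ := Complex.exists_norm_eq_mul_self (g₀ d)
    have := hre (c • d)
    rwa [map_smul, map_smul, norm_smul, h1, one_mul, smul_eq_mul, ← h2, Complex.ofReal_re] at this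
  have g1 : G (1, 1) = 1 := by simpa [j, g₀] using G1 (1, 0)
  have M1 : (0 : ℂ) ≤ M := by exact_mod_cast M0.le
  refine ⟨(M : ℂ) • G.toLinearMap ∘ₗ LinearMap.inl ℂ B B, (M : ℂ) • G.toLinearMap ∘ₗ LinearMap.inr ℂ B B,
    ?_, ?_, fun x => ?_⟩
  · rintro _ ⟨y, rfl⟩
    exact mul_nonneg M1 (dom_state G G0 g1 ⟨(y, 0), Prod.ext rfl (mul_zero _).symm⟩)
  · rintro _ ⟨y, rfl⟩
    exact mul_nonneg M1 (dom_state G G0 g1 ⟨(0, y), Prod.ext (mul_zero _).symm rfl⟩)
  · have := G1 (0, x)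
    have e : j (0, x) = (x, 0) - (0, x) := by simp [j]
    rw [e, map_sub] at this
    simp only [LinearMap.smul_apply, LinearMap.comp_apply, LinearMap.inl_apply, LinearMap.inr_apply,
      ContinuousLinearMap.coe_coe, smul_eq_mul, ← mul_sub, this]
    simp [g₀, h, M0.ne']

theorem dom_rn {H : Type} [NormedAddCommGroup H] [InnerProductSpace ℂ H] [CompleteSpace H]
    (π : B →⋆ₐ[ℂ] (H →L[ℂ] H)) (Ω : H) (hd : DenseRange fun b => π b Ω) (σ : B →ₗ[ℂ] ℂ)
    (h0 : ∀ x, Pos x → 0 ≤ σ x) (h : ∀ x, σ (star x * x) ≤ ⟪π x Ω, π x Ω⟫_ℂ) :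
    ∃ t : H →L[ℂ] H, (∀ b, Commute t (π b)) ∧ ∀ b, σ b = ⟪Ω, π b (t Ω)⟫_ℂ := by
  obtain ⟨K, _, _, _, π', Ω', h1, -⟩ := dom_gns σ h0
  let e : B →ₗ[ℂ] H := ⟨⟨fun b => π b Ω, fun a b => by simp⟩, fun c a => by simp⟩
  let f : B →ₗ[ℂ] K := ⟨⟨fun b => π' b Ω', fun a b => by simp⟩, fun c a => by simp⟩
  have hV : ∀ b, f.extendOfNorm e (π b Ω) = π' b Ω' := LinearMap.extendOfNorm_eq (e := e) hd
    ⟨1, fun x => by
      have := (Complex.le_def.1 ((h1 x x).trans_le (h x))).1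
      rw [one_mul]
      refine abs_le_of_sq_le_sq' ?_ (norm_nonneg _) |>.2
      rwa [← inner_self_eq_norm_sq (𝕜 := ℂ), ← inner_self_eq_norm_sq (𝕜 := ℂ)]⟩
  set V := f.extendOfNorm e
  have k : ∀ a b, ⟪π a Ω, (V.adjoint ∘L V) (π b Ω)⟫_ℂ = σ (star a * b) := fun a b => by
    rw [ContinuousLinearMap.comp_apply, ContinuousLinearMap.adjoint_inner_right, hV, hV, h1]
  have ad : ∀ a v w, ⟪v, π a w⟫_ℂ = ⟪π (star a) v, w⟫_ℂ := fun a v w => by
    rw [map_star, ContinuousLinearMap.star_eq_adjoint, ContinuousLinearMap.adjoint_inner_left]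
  refine ⟨V.adjoint ∘L V, fun c => DFunLike.coe_injective
    (hd.equalizer (map_continuous _) (map_continuous _)
      (funext fun b => hd.eq_of_inner_right ℂ fun a => ?_)),
    fun b => ?_⟩
  · change ⟪_, (V.adjoint ∘L V) (π c (π b Ω))⟫_ℂ = ⟪_, π c ((V.adjoint ∘L V) (π b Ω))⟫_ℂ
    rw [ad, ← mul_apply_eq_comp (π c), ← mul_apply_eq_comp (π (star c)), ← map_mul, ← map_mul, k, k,
      star_mul, star_star, mul_assoc]
  · simpa [ad] using (k (star b) 1).symm

theorem domS : DomS := by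
  intro B _ _ k f
  choose ρ σ h1 h2 h3 using fun i => dom_jordan ((2⁻¹ : ℂ) • f i)
  choose ρ' σ' h1' h2' h3' using fun i => dom_jordan ((-2⁻¹ * Complex.I : ℂ) • f i)
  have p : ∀ x, Pos x → ∀ i ∈ Finset.univ, 0 ≤ (ρ i + σ i + ρ' i + σ' i) x := fun x hx i _ =>
    add_nonneg (add_nonneg (add_nonneg (h1 i x hx) (h2 i x hx)) (h1' i x hx)) (h2' i x hx)
  obtain ⟨H, _, _, _, π, Ω, h, hd⟩ := dom_gns (∑ i, (ρ i + σ i + ρ' i + σ' i)) fun x hx => by
    rw [LinearMap.sum_apply]; exact Finset.sum_nonneg (p x hx)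
  have key : ∀ i (τ : B →ₗ[ℂ] ℂ), (∀ x, Pos x → 0 ≤ τ x) →
      (∀ x, Pos x → τ x ≤ ρ i x + σ i x + ρ' i x + σ' i x) →
      ∃ t : H →L[ℂ] H, (∀ b, Commute t (π b)) ∧ ∀ b, τ b = ⟪Ω, π b (t Ω)⟫_ℂ :=
    fun i τ h0 h1 => dom_rn π Ω hd τ h0 fun x => by
      rw [h, LinearMap.sum_apply]
      exact (h1 _ (Pos.sq x)).trans (Finset.single_le_sum (p _ (Pos.sq x)) (Finset.mem_univ i))
  choose t1 a1 b1 using fun i => key i (ρ i) (h1 i) fun x hx => by
    linear_combination h2 i x hx + h1' i x hx + h2' i x hx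
  choose t2 a2 b2 using fun i => key i (σ i) (h2 i) fun x hx => by
    linear_combination h1 i x hx + h1' i x hx + h2' i x hx
  choose t3 a3 b3 using fun i => key i (ρ' i) (h1' i) fun x hx => by
    linear_combination h2 i x hx + h1 i x hx + h2' i x hx
  choose t4 a4 b4 using fun i => key i (σ' i) (h2' i) fun x hx => by
    linear_combination h2 i x hx + h1' i x hx + h1 i x hx
  refine ⟨H, _, _, inferInstance, π, Ω, fun i => t1 i - t2 i + Complex.I • (t3 i - t4 i), hd,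
    fun i b => ((a1 i b).sub_left (a2 i b)).add_left (((a3 i b).sub_left (a4 i b)).smul_left _),
    fun i b => ?_⟩
  simp only [add_apply, sub_apply, smul_apply, map_add, map_sub, map_smul, inner_add_right, inner_sub_right,
    inner_smul_right, ← b1, ← b2, ← b3, ← b4, ← h3, ← h3']
  simp only [smul_eq_mul, star_mul', Complex.star_def, map_neg, map_inv₀, map_ofNat,
    Complex.conj_I]
  linear_combination (2⁻¹ * f i b - 2⁻¹ * (starRingEnd ℂ) (f i (star b))) * Complex.I_mul_I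

end Vale.Agent.P095
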