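import Vale.Agent.P095.Basic

/-! Existence of good blocks. -/

open Finset

namespace Vale.Agent.P095

namespace Bl

variable {η : ℝ}

theorem lev_nonneg (η : ℝ) (l : ℕ) (s : ℝ) : 0 ≤ lev η l s := le_max_left _ _

theorem lev_le (η : ℝ) (l : ℕ) (s : ℝ) : lev η l s ≤ 1 := max_le zero_le_one (min_le_left _ _)

theorem lev_cont (η : ℝ) (l : ℕ) : Continuous (lev η l) := by
  unfold lev
  fun_prop

theorem lev_mul (hη : 0 < η) (l : ℕ) (s : ℝ) :
    η * lev η l s = min s ((l + 1 : ℕ) * η) - min s (l * η) := by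
  rw [lev, mul_max_of_nonneg _ _ hη.le, mul_min_of_nonneg _ _ hη.le, mul_div_cancel₀ _ hη.ne']
  push_cast
  simp only [max_def, min_def]
  split_ifs <;> linarith

theorem lev_zero (hη : 0 < η) {l : ℕ} {s : ℝ} (h : s ≤ l * η) : lev η l s = 0 :=
  max_eq_left (min_le_of_right_le (div_nonpos_of_nonpos_of_nonneg (by linarith) hη.le))

theorem lev_one (hη : 0 < η) {l : ℕ} {s : ℝ} (h : (l + 1 : ℕ) * η ≤ s) : lev η l s = 1 := by
  push_cast at h
  rw [lev, min_eq_left ((one_le_div hη).2 (by linarith)), max_eq_right zero_le_one]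

theorem lev_succ (hη : 0 < η) (l : ℕ) (s : ℝ) : lev η (l + 1) s ≤ lev η l s ^ 4 := by
  rcases le_total s ((l + 1 : ℕ) * η) with h | h
  · rw [lev_zero hη h]
    positivity
  · rw [lev_one hη h, one_pow]
    exact lev_le ..

theorem lev_sum (hη : 0 < η) (L : ℕ) {s : ℝ} (h0 : 0 ≤ s) (h1 : s ≤ L * η) :
    ∑ l ∈ range L, η * lev η l s = s := by
  simp only [lev_mul hη]
  rw [sum_range_sub fun l : ℕ => min s (l * η), min_eq_left h1, Nat.cast_zero, zero_mul,
    min_eq_right h0, sub_zero]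

/-- The weight function of a level. -/
noncomputable def ka (η : ℝ) (l : ℕ) (s : ℝ) : ℝ := lev η l (max s η) / max s η

theorem ka_cont (hη : 0 < η) (l : ℕ) : Continuous (ka η l) :=
  ((lev_cont η l).comp (by fun_prop)).div (by fun_prop)
    fun _ => (hη.trans_le (le_max_right _ _)).ne'

theorem ka_nonneg (hη : 0 < η) (l : ℕ) (s : ℝ) : 0 ≤ ka η l s :=
  div_nonneg (lev_nonneg ..) (hη.le.trans (le_max_right _ _))

theorem ka_mul (hη : 0 < η) (l : ℕ) {s : ℝ} (hs : 0 ≤ s) : s * ka η l s = lev η l s := by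
  rcases le_total η s with h | h
  · rw [ka, max_eq_left h, mul_div_cancel₀ _ (hη.trans_le h).ne']
  rw [ka, max_eq_right h]
  rcases l with _ | l
  · rw [lev_one hη (by simp), lev, Nat.cast_zero, zero_mul, sub_zero,
      min_eq_right ((div_le_one hη).2 h), max_eq_right (div_nonneg hs hη.le), mul_one_div]
  · have : η ≤ (l + 1 : ℕ) * η := le_mul_of_one_le_left hη.le (by simp)
    rw [lev_zero hη this, lev_zero hη (h.trans this), zero_div, mul_zero]

variable {G M : Type} [Group G] [CStarAlgebra M] {α : Act G M} {τ : M →ₗ[ℝ] ℝ} {E X Z P : M}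

theorem cfc_ka (hη : 0 < η) (l : ℕ) (hP : Pos P) :
    cfc (fun s => s * ka η l s) P = cfc (lev η l) P :=
  cfc_congr fun x hx => ka_mul hη l (hP.spec x hx)

/-- The sum over an orbit. -/
noncomputable def orb (α : Act G M) (F : Finset G) (P : M) : M := ∑ g : F, α g P

theorem orb_pos (F : Finset G) (hP : Pos P) : Pos (orb α F P) := Pos.sum fun _ _ => hP.map _

theorem tr_le (S : Finset G) (f : G → G) {s : ℝ} (hs : ∀ g, τ (α g P) ≤ s) :
    τ (∑ g ∈ S, α (f g) P) ≤ S.card * s := by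
  rw [map_sum, ← nsmul_eq_mul]
  exact sum_le_card_nsmul _ _ _ fun g _ => hs _

open Classical in
theorem shift (h1 : ConS) (hτ : IsRT τ) (hη : 0 < η) {F : Finset G} {L : ℕ} (hL : η * L = F.card)
    {θ s : ℝ} (hθ : 0 < θ) {t : G} (hF : ((F.filter fun g => t * g ∉ F).card : ℝ) ≤ θ ^ 2 * F.card)
    (hP : Pos P) (hs : ∀ g, τ (α g P) ≤ s) : ∑ l ∈ range L,
      nu τ (α t (cfc (lev η l) (orb α F P)) - cfc (lev η l) (orb α F P)) ^ 2 ≤ L * (4 * θ * s) := by
  have s0 : 0 ≤ s := (hτ.nonneg (hP.map _)).trans (hs 1)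
  have p : ∀ (S : Finset G) (f : G → G), Pos (∑ g ∈ S, α (f g) P) := fun S f =>
    Pos.sum fun _ _ => hP.map _
  have e0 : orb α F P = ∑ g ∈ F, α g P := sum_coe_sort F fun g => α g P
  have e1 : α t (orb α F P) = ∑ g ∈ F, α (t * g) P := by simp only [e0, map_sum, act_mul]
  have hsub : (F.filter fun g => t * g ∈ F).image (t * ·) ⊆ F := fun x hx => by
    obtain ⟨g, hg, rfl⟩ := mem_image.1 hx
    exact (mem_filter.1 hg).2
  have e2 : α t (orb α F P) - ∑ g ∈ F.filter fun g => t * g ∈ F, α (t * g) P =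
      ∑ g ∈ F.filter fun g => t * g ∉ F, α (t * g) P := by
    rw [e1, ← sum_filter_add_sum_filter_not F fun g => t * g ∈ F, add_sub_cancel_left]
  have e3 : orb α F P - ∑ g ∈ F.filter fun g => t * g ∈ F, α (t * g) P =
      ∑ g ∈ F \ (F.filter fun g => t * g ∈ F).image (t * ·), α g P := by
    rw [e0, ← sum_sdiff hsub, sum_image fun x _ y _ h => mul_left_cancel h, add_sub_cancel_right]
  have e4 : (F \ (F.filter fun g => t * g ∈ F).image (t * ·)).card =
      (F.filter fun g => t * g ∉ F).card := by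
    rw [card_sdiff_of_subset hsub, card_image_of_injective _ (mul_right_injective t),
      ← card_filter_add_card_filter_not (s := F) fun g => t * g ∈ F, add_tsub_cancel_left]
  have a := (h1 M τ hτ).2.1 _ _ _ (p _ _) (e2 ▸ p _ _) (e3 ▸ p _ id) η θ⁻¹ hη (inv_pos.2 hθ) L
  have a1 := (tr_le _ (t * ·) hs).trans (mul_le_mul_of_nonneg_right hF s0)
  have a2 := (tr_le _ id hs).trans (mul_le_mul_of_nonneg_right (e4 ▸ hF) s0)
  have a3 := tr_le F (t * ·) hs
  have a4 := tr_le F id hs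
  simp only [id] at a2 a4
  rw [e2, e3, div_inv_eq_mul] at a
  rw [← e1] at a3
  rw [← e0] at a4
  simp only [map_cfc' (α t) (lev_cont η _).continuousOn (orb_pos F hP).sa]
  refine le_of_mul_le_mul_left (a.trans ?_) hη
  have a5 := mul_le_mul_of_nonneg_left (add_le_add a1 a2) (inv_pos.2 hθ).le
  have a6 := mul_le_mul_of_nonneg_right (add_le_add a3 a4) hθ.le
  have a7 : θ⁻¹ * (θ ^ 2 * F.card * s + θ ^ 2 * F.card * s) = 2 * θ * F.card * s := by
    field_simp
    ring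
  rw [← mul_assoc, hL]
  linarith

/-- The data that generate a configuration. -/
structure Gen (α : Act G M) (E X Z : M) : Prop where
  prj : Prj E
  pauli : Pauli X Z
  cx : ∀ g g', Commute (α g E) (α g' X)
  cz : ∀ g g', Commute (α g E) (α g' Z)

theorem Gen.symm (h : Gen α E X Z) : Gen α E Z X := ⟨h.prj, h.pauli.symm, h.cz, h.cx⟩

theorem Gen.cfg (h : Gen α E X Z) (F : Finset G) :
    Cfg (fun g : F => α g E) (fun g => α g X) fun g => α g Z :=
  ⟨fun _ => h.prj.map _, fun _ => h.pauli.map _, fun _ _ => h.cx _ _, fun _ _ => h.cz _ _⟩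

theorem map_pj (g : G) : α g (E * pj X) = α g E * pj (α g X) := by
  rw [map_mul, pj, pj, map_rsmul, map_add, map_one]

theorem Gen.pos (h : Gen α E X Z) : Pos (E * pj X) ∧ Pos (E * pj (-X)) := by
  have c : Commute E X := by simpa using h.cx 1 1
  have k : ∀ Y, Pos ((1 : ℝ) • (1 : M) + Y) → Commute E Y → Pos (E * pj Y) := fun Y p c =>
    h.prj.pos.mul (Pos.smul (by simpa using p) (by norm_num))
      (((Commute.one_right E).add_right c).smul_right _)
  exact ⟨k _ (Pos.of_norm' h.pauli.sx h.pauli.norm_le) c,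
    k _ (Pos.of_norm' h.pauli.sx.neg ((norm_neg X).trans_le h.pauli.norm_le)) c.neg_right⟩

theorem Gen.tr (h : Gen α E X Z) (hτ : IsRT τ) (g : G) :
    τ (α g (E * pj X)) ≤ τ (α g E) ∧ τ (α g (E * pj (-X))) ≤ τ (α g E) := by
  have e : E = E * pj X + E * pj (-X) := by
    rw [← mul_add, show pj X + pj (-X) = 1 by simp only [pj]; module, mul_one]
  have a1 := hτ.nonneg (h.pos.1.map (α g))
  have a2 := hτ.nonneg (h.pos.2.map (α g))
  have a3 := congrArg (fun x => τ (α g x)) e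
  simp only [map_add] at a3
  constructor <;> linarith

theorem split (hτ : IsRT τ) (β : M ≃⋆ₐ[ℂ] M) (u a b : M) {e : ℝ} (h1 : nu τ (u - (a - b)) ≤ e)
    (h2 : nu τ (β (u - (a - b))) ≤ e) :
    nu τ (β u - u) ^ 2 ≤ 12 * e ^ 2 + 3 * nu τ (β a - a) ^ 2 + 3 * nu τ (β b - b) ^ 2 := by
  have e1 : β u - u = β (u - (a - b)) - (u - (a - b)) + ((β a - a) - (β b - b)) := by
    simp only [map_sub]
    abel
  have a1 := pow_le_pow_left₀ (nu_nonneg _ _) ((hτ.nu_add_le _ _).trans (add_le_add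
    ((hτ.nu_sub_le _ _).trans (add_le_add h2 h1)) (hτ.nu_sub_le (β a - a) (β b - b)))) 2
  rw [e1]
  nlinarith [sq_nonneg (2 * e - nu τ (β a - a)), sq_nonneg (2 * e - nu τ (β b - b)),
    sq_nonneg (nu τ (β a - a) - nu τ (β b - b))]

/-- The overlap. -/
noncomputable def ov (α : Act G M) (τ : M →ₗ[ℝ] ℝ) (E X : M) (p : G × G) : ℝ :=
  nu τ (α p.2 E * α p.1 E * (α p.1 X - α p.2 X))

theorem ov_comp (t g g' : G) : ov α (τ ∘ₗ rl (α t)) E X (g, g') = ov α τ E X (t * g, t * g') := by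
  simp only [ov, nu_comp, map_mul (α t), map_sub (α t), act_mul]

theorem levels (h1 : ConS) (hτ : IsRT τ) (hη : 0 < η) {F : Finset G} {L : ℕ} (hL : η * L = F.card)
    (hE : Prj E) {s : ℝ} (hs : ∀ g, τ (α g E) = s) :
    ∑ l ∈ range L, τ (cfc (lev η l) (orb α F E)) = L * s ∧
    ∑ l ∈ range L, (τ (cfc (lev η l) (orb α F E)) -
      τ (cfc (fun s => (s * ka η l s) ^ 4) (orb α F E))) ≤ L * (η * s) := by
  have hp : Pos (orb α F E) := orb_pos F hE.pos
  have t1 : τ (orb α F E) = F.card * s := by simp [orb, hs]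
  have hn : ‖orb α F E‖ ≤ L * η := by
    rw [mul_comm, hL, ← Fintype.card_coe, ← mul_one (Fintype.card F : ℝ), ← nsmul_eq_mul]
    exact (norm_sum_le _ _).trans (sum_le_card_nsmul _ _ _ fun g _ => (hE.map _).norm_le)
  constructor
  · have e : cfc (∑ l ∈ range L, fun s => η * lev η l s) (orb α F E) = orb α F E := by
      refine (cfc_congr fun x hx => ?_).trans (cfc_id' ℝ _ hp.sa)
      rw [Finset.sum_apply]
      exact lev_sum hη L (hp.spec x hx) ((le_abs_self x).trans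
        ((spectrum.norm_le_norm_mul_of_mem hx).trans
          ((mul_le_of_le_one_right (norm_nonneg _) norm_one_le').trans hn)))
    rw [cfc_sum (fun l s => η * lev η l s) _ _ fun l _ =>
      (continuous_const.mul (lev_cont η l)).continuousOn] at e
    simp only [cfc_const_mul η _ _ (lev_cont η _).continuousOn] at e
    rw [← e, map_sum, ← hL, mul_assoc] at t1
    simp only [map_smul, smul_eq_mul, ← mul_sum] at t1
    exact mul_left_cancel₀ hη.ne' t1
  · have a1 : ∀ l, τ (cfc (lev η (l + 1)) (orb α F E)) ≤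
        τ (cfc (fun s => (s * ka η l s) ^ 4) (orb α F E)) := fun l => by
      refine hτ.mono ?_
      rw [← cfc_sub (fun s => (s * ka η l s) ^ 4) _ _
        ((continuous_id'.mul (ka_cont hη l)).pow 4).continuousOn (lev_cont η _).continuousOn]
      refine Pos.cfc fun x hx => ?_
      rw [ka_mul hη l (hp.spec x hx)]
      exact sub_nonneg.2 (lev_succ hη l x)
    have a2 := (h1 M τ hτ).2.2 F (fun g => α g E) (ka η 0) (fun _ => hE.map _) (ka_cont hη 0)
      (ka_nonneg hη 0) fun s hs => (ka_mul hη 0 hs).trans_le (lev_le ..)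
    have a3 := hτ.nonneg (Pos.cfc (x := orb α F E) fun x _ => lev_nonneg η L x)
    refine (sum_le_sum fun l _ => sub_le_sub_left (a1 l) _).trans ?_
    rw [sum_range_sub' fun l => τ (cfc (lev η l) (orb α F E)), ← mul_assoc, mul_comm _ η, hL, ← t1]
    rw [← orb, cfc_ka hη 0 hp] at a2
    linarith

theorem ar {θ R s : ℝ} (h0 : 0 < θ) (h1 : θ ≤ 1) (hR : 0 ≤ R) (hs : 0 ≤ s) (C : ℝ) :
    12 * (C * √R + θ * √s) ^ 2 ≤ C ^ 2 * (24 * R) + 24 * θ * s ∧
    (C * √R + θ * √s) * √s ≤ C ^ 2 * (θ⁻¹ * R) + 2 * θ * s := by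
  obtain ⟨r, r0, rfl⟩ : ∃ r, 0 ≤ r ∧ R = r ^ 2 := ⟨_, Real.sqrt_nonneg R, (Real.sq_sqrt hR).symm⟩
  obtain ⟨x, x0, rfl⟩ : ∃ r, 0 ≤ r ∧ s = r ^ 2 := ⟨_, Real.sqrt_nonneg s, (Real.sq_sqrt hs).symm⟩
  rw [Real.sqrt_sq r0, Real.sqrt_sq x0]
  constructor
  · nlinarith [sq_nonneg (C * r - θ * x), mul_le_mul_of_nonneg_right h1 (mul_nonneg h0.le hs)]
  · refine le_of_mul_le_mul_left ?_ h0
    rw [mul_add θ (_ * (_ * _)), mul_left_comm θ (C ^ 2), mul_inv_cancel_left₀ h0.ne']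
    nlinarith [sq_nonneg (C * r - θ * x), sq_nonneg (C * r), sq_nonneg (θ * x)]

theorem key (h1 : ConS) (h2 : BlkS) (hG : Fol G) (K : Finset G) {ε : ℝ} (hε : 0 < ε) :
    ∃ (T : Finset (G × G)) (L : ℕ) (c : ℝ), 0 < L ∧ 0 ≤ c ∧
      ∀ (M : Type) [CStarAlgebra M] (α : Act G M) (E X Z : M), Gen α E X Z →
      ∃ u v q : ℕ → M, (∀ l, Blk (u l) (v l) (q l)) ∧ ∀ τ, IsRT τ → ∀ s : ℝ,
        (∀ g, τ (α g E) = s) → ∑ l ∈ range L, τ (q l) = L * s ∧
        ∑ l ∈ range L, cost α K τ (u l) (v l) (q l) ≤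
          L * (ε * s) + c * ∑ p ∈ T, (ov α τ E X p ^ 2 + ov α τ E Z p ^ 2) := by
  classical
  obtain ⟨θ, θ0, θ1, θ2⟩ : ∃ θ : ℝ, 0 < θ ∧ θ ≤ 1 ∧ (3 + 100 * K.card) * θ ≤ ε :=
    ⟨min 1 (ε / (3 + 100 * K.card)), by positivity, min_le_left _ _,
      (le_div_iff₀' (by positivity)).1 (min_le_right _ _)⟩
  obtain ⟨F, hne, hF⟩ := hG K _ (pow_pos θ0 2)
  have n0 : (0 : ℝ) < F.card := Nat.cast_pos.2 hne.card_pos
  obtain ⟨L, hL⟩ := exists_nat_ge (F.card / θ)
  have L0 : (0 : ℝ) < L := (div_pos n0 θ0).trans_le hL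
  obtain ⟨η, η0, η1, η2⟩ : ∃ η : ℝ, 0 < η ∧ η * L = F.card ∧ η ≤ θ :=
    ⟨F.card / L, by positivity, div_mul_cancel₀ _ L0.ne',
      (div_le_iff₀' L0).2 ((div_le_iff₀ θ0).1 hL)⟩
  have hB := fun l => h2 F (ka η l) (ka_cont η0 l) (ka_nonneg η0 l)
  choose C C0 hC using fun l => (hB l).2 θ θ0
  refine ⟨(insert 1 K ×ˢ F ×ˢ F).image fun x => (x.1 * x.2.1, x.1 * x.2.2), L,
    ∑ l ∈ range L, C l ^ 2 * (θ⁻¹ + 48 * K.card), Nat.cast_pos.1 L0,
    sum_nonneg fun l _ => by positivity, fun M _ α E X Z h => ?_⟩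
  have hp : Pos (orb α F E) := orb_pos F h.prj.pos
  refine ⟨fun l => blkOp (ka η l) (fun g : F => α g E) fun g => α g X,
    fun l => blkOp (ka η l) (fun g : F => α g E) fun g => α g Z,
    fun l => cfc (lev η l) (orb α F E), fun l => ?_, fun τ hτ s hs => ?_⟩
  · obtain ⟨a1, a2, a3⟩ := (hB l).1 M _ _ _ (h.cfg F)
    obtain ⟨a4, a5, a6⟩ := (hB l).1 M _ _ _ (h.symm.cfg F)
    rw [← orb, cfc_ka η0 l hp] at a2 a3 a5 a6
    refine ⟨a1, a4, a2, a3, a5, a6, ?_⟩
    rw [← cfc_const_one ℝ _ hp.sa, ← cfc_sub _ _ _ continuousOn_const (lev_cont η l).continuousOn]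
    exact Pos.cfc fun x _ => sub_nonneg.2 (lev_le ..)
  obtain ⟨b1, b2⟩ := levels h1 hτ η0 η1 h.prj hs
  refine ⟨b1, ?_⟩
  have s0 : 0 ≤ s := hs 1 ▸ hτ.nonneg (h.prj.pos.map _)
  obtain ⟨R, R0, hR, hR'⟩ : ∃ R : ℝ, 0 ≤ R ∧ (∀ t ∈ insert 1 K, ∀ g g' : F,
      ov α τ E X (t * g, t * g') ≤ √R ∧ ov α τ E Z (t * g, t * g') ≤ √R) ∧
      ∑ p ∈ (insert 1 K ×ˢ F ×ˢ F).image fun x => (x.1 * x.2.1, x.1 * x.2.2),
        (ov α τ E X p ^ 2 + ov α τ E Z p ^ 2) = R := by
    refine ⟨_, sum_nonneg fun _ _ => by positivity, fun t ht g g' => ?_, rfl⟩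
    have := single_le_sum (f := fun p => ov α τ E X p ^ 2 + ov α τ E Z p ^ 2)
      (fun _ _ => by positivity) (mem_image_of_mem (fun x : G × G × G => (x.1 * x.2.1, x.1 * x.2.2))
        (mem_product.2 ⟨ht, mem_product.2 ⟨g.2, g'.2⟩⟩ : (t, g.1, g'.1) ∈ insert 1 K ×ˢ F ×ˢ F))
    exact ⟨Real.le_sqrt_of_sq_le ((le_add_of_nonneg_right (sq_nonneg _)).trans this),
      Real.le_sqrt_of_sq_le ((le_add_of_nonneg_left (sq_nonneg _)).trans this)⟩
  rw [hR']
  have nE : ∀ (t : G) (g : F), nu (τ ∘ₗ rl (α t)) (α g E) ≤ √s := fun t g => by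
    rw [nu_comp, act_mul, nu, (h.prj.map _).sa.star_eq, (h.prj.map _).sq, hs]
  have k : ∀ {X Z : M}, Gen α E X Z →
      (∀ t ∈ insert 1 K, ∀ g g' : F, ov α τ E X (t * g, t * g') ≤ √R) → ∀ t ∈ K, ∑ l ∈ range L,
      nu τ (α t (blkOp (ka η l) (fun g : F => α g E) fun g => α g X) -
        blkOp (ka η l) (fun g : F => α g E) fun g => α g X) ^ 2 ≤
      (∑ l ∈ range L, C l ^ 2) * (24 * R) + L * (48 * θ * s) := fun {X Z} h hR t ht => by
    have k1 : ∀ l, ∀ t ∈ insert 1 K, nu τ (α t ((blkOp (ka η l) (fun g : F => α g E)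
        fun g => α g X) - (cfc (lev η l) (orb α F (E * pj X)) -
          cfc (lev η l) (orb α F (E * pj (-X)))))) ≤ C l * √R + θ * √s := fun l t ht => by
      have := (hC l M _ _ _ _ √R √s (hτ.comp (α t)) (h.cfg F) (Real.sqrt_nonneg _)
        (Real.sqrt_nonneg _) (nE t) fun g g' => (ov_comp t g g').trans_le (hR t ht g g')).1
      simp only [← map_neg, ← map_pj] at this
      rwa [nu_comp, ← orb, ← orb, cfc_ka η0 l (orb_pos F h.pos.1),
        cfc_ka η0 l (orb_pos F h.pos.2)] at this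
    have a1 := shift h1 hτ η0 η1 θ0 (hF t ht) h.pos.1 fun g => (h.tr hτ g).1.trans_eq (hs g)
    have a2 := shift h1 hτ η0 η1 θ0 (hF t ht) h.pos.2 fun g => (h.tr hτ g).2.trans_eq (hs g)
    have a3 := sum_le_sum (s := range L) fun l _ => (split hτ (α t) _ _ _
      (by simpa using k1 l 1 (mem_insert_self _ _)) (k1 l t (mem_insert_of_mem ht))).trans
      (add_le_add_left (add_le_add_left (ar θ0 θ1 R0 s0 _).1 _) _)
    simp only [sum_add_distrib, ← mul_sum, ← sum_mul, sum_const, card_range, nsmul_eq_mul] at a3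
    linarith
  have a1 := sum_le_sum fun t ht => add_le_add (add_le_add
    (k h (fun t ht g g' => (hR t ht g g').1) t ht) (k h.symm (fun t ht g g' => (hR t ht g g').2) t ht))
    (shift h1 hτ η0 η1 θ0 (hF t ht) h.prj.pos fun g => (hs g).le)
  have a2 := sum_le_sum (s := range L) fun l _ => ((hC l M τ _ _ _ √R √s hτ (h.cfg F)
    (Real.sqrt_nonneg _) (Real.sqrt_nonneg _) (by simpa [nu_comp] using nE 1)
    fun g g' => by simpa [ov] using (hR 1 (mem_insert_self _ _) g g').1).2.2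
    fun g g' => by simpa [ov] using (hR 1 (mem_insert_self _ _) g g').2).trans
    (ar θ0 θ1 R0 s0 _).2
  rw [← orb] at a2
  simp only [cost, map_sub τ, sum_add_distrib, sum_sub_distrib, ← sum_mul, sum_const, card_range,
    nsmul_eq_mul, sum_comm (s := range L) (t := K)] at a1 a2 b2 ⊢
  nlinarith [mul_le_mul_of_nonneg_left (mul_le_mul_of_nonneg_right θ2 s0) L0.le,
    mul_le_mul_of_nonneg_left (mul_le_mul_of_nonneg_right η2 s0) L0.le]

theorem sum_eq {J : Type} [Fintype J] (a L : ℕ) (c : ℝ) (f : J → ℕ → ℕ → ℝ) :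
    ∑ p : J × Fin a × Fin L, c * 2 ^ (p.2.1 : ℕ) * f p.1 p.2.1 p.2.2 =
      c * ∑ s, ∑ i ∈ range a, 2 ^ i * ∑ l ∈ range L, f s i l := by
  simp only [Fintype.sum_prod_type, sum_range, mul_sum, mul_assoc]

end Bl

open Bl in
theorem blS (h1 : ConS) (h2 : BlkS) (h3 : FamS) (h4 : MixS) : BlS := by
  intro G _ _ hG K ε hε
  obtain ⟨T, L, c, L0, c0, hk⟩ := key h1 h2 hG K (show 0 < ε / 8 by positivity)
  obtain ⟨a, ha⟩ := exists_nat_gt (64 * c * T.card / ε)
  have a0 : (0 : ℝ) < a := lt_of_le_of_lt (by positivity) ha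
  obtain ⟨D, hD, hD'⟩ : ∃ D : ℝ, a ≤ D ∧ ∑ i ∈ range a, (2 : ℝ) ^ i = D :=
    ⟨_, by simpa using (card_nsmul_le_sum (range a) (fun i => (2 : ℝ) ^ i) 1
      fun i _ => one_le_pow₀ one_le_two), rfl⟩
  have D0 := a0.trans_le hD
  have L1 : (1 : ℝ) ≤ L := Nat.one_le_cast.2 L0
  refine ⟨a / (2 * D), by positivity, (div_le_one (by positivity)).2 (by linarith),
    fun M _ α hM => ?_⟩
  obtain ⟨J, _, _, E, X, Z, hc, hs⟩ := (h3 G M α hM).2 a
  have J0 : (0 : ℝ) < Fintype.card J := Nat.cast_pos.2 Fintype.card_pos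
  choose u v q hb h using fun s i => hk M α (E s i) (X s i) (Z s i) ⟨(hc s).prj i, (hc s).pauli i,
    fun g g' => ((hc s).ce i i g g' le_rfl).1, fun g g' => ((hc s).ce i i g g' le_rfl).2⟩
  obtain ⟨u', v', q', hb', h'⟩ := h4 G hG M α hM K (J × Fin a × Fin L)
    (fun p => (Fintype.card J * D * L)⁻¹ * 2 ^ (p.2.1 : ℕ)) (fun p => u p.1 p.2.1 p.2.2)
    (fun p => v p.1 p.2.1 p.2.2) (fun p => q p.1 p.2.1 p.2.2) (fun _ => by positivity) (by
      have := sum_eq a L (Fintype.card J * D * L)⁻¹ fun (_ : J) _ _ => 1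
      simp only [mul_one, sum_const, card_range, nsmul_eq_mul, ← sum_mul, hD', card_univ] at this
      rw [this]
      field_simp) (fun _ => hb _ _ _) (min 1 (ε / 2) * (a / (2 * D))) (by positivity)
  refine ⟨u', v', q', hb', fun τ hτ => ?_⟩
  obtain ⟨b1, b2⟩ := h' τ hτ
  have t0 := hτ.one_nonneg
  have hE : ∀ s i g, τ (α g (E s i)) = (1 / 2) ^ i * τ 1 := fun s i g => by
    simpa using (hc s).tr _ (hτ.comp (α g)) i
  have e : ∀ (i : ℕ) (x y z : ℝ), 2 ^ i * (x * (y * ((1 / 2) ^ i * z))) = x * (y * z) := by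
    intro i x y z
    rw [one_div, inv_pow]
    field_simp
  have q1 : ∀ s i, 2 ^ i * ∑ l ∈ range L, τ (q s i l) = L * τ 1 := fun s i => by
    simpa only [(h s i τ hτ _ (hE s i)).1, one_mul] using e i L 1 (τ 1)
  have q2 : ∀ s i, 2 ^ i * ∑ l ∈ range L, cost α K τ (u s i l) (v s i l) (q s i l) ≤
      L * (ε / 8 * τ 1) + c * ∑ p ∈ T, 2 ^ i * (ov α τ (E s i) (X s i) p ^ 2 +
        ov α τ (E s i) (Z s i) p ^ 2) := fun s i => by
    refine (mul_le_mul_of_nonneg_left (h s i τ hτ _ (hE s i)).2 (by positivity)).trans_eq ?_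
    rw [mul_add, e, ← mul_sum, mul_left_comm _ c]
  rw [sum_eq a L _ fun s i l => τ (q s i l)] at b1
  rw [sum_eq a L _ fun s i l => cost α K τ (u s i l) (v s i l) (q s i l)] at b2
  simp only [q1, sum_const, card_range, nsmul_eq_mul, card_univ] at b1
  have b3 := sum_le_sum (s := univ) fun s _ => sum_le_sum (s := range a) fun i _ => q2 s i
  have b4 := mul_le_mul_of_nonneg_left (sum_le_card_nsmul T _ _ fun p _ => hs τ hτ p.1 p.2) c0
  simp only [sum_add_distrib (f := fun _ => (L : ℝ) * _), sum_add_distrib (f := fun _ => (a : ℝ) * _),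
    sum_const, card_range, nsmul_eq_mul, card_univ, ← mul_sum _ _ c, sum_comm (t := T)] at b3 b4
  have b5 := mul_le_mul_of_nonneg_left (b3.trans (add_le_add le_rfl b4))
    (by positivity : 0 ≤ (Fintype.card J * D * L : ℝ)⁻¹)
  have m1 := mul_le_mul_of_nonneg_right (mul_le_mul_of_nonneg_right (min_le_left 1 (ε / 2))
    (by positivity : 0 ≤ a / (2 * D))) t0
  have m2 := mul_le_mul_of_nonneg_right (mul_le_mul_of_nonneg_right (min_le_right 1 (ε / 2))
    (by positivity : 0 ≤ a / (2 * D))) t0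
  rw [show (Fintype.card J * D * L)⁻¹ * (Fintype.card J * (a * (L * τ 1))) =
    2 * (a / (2 * D) * τ 1) by field_simp, abs_le] at b1
  refine ⟨by linarith, by linarith, b2.trans ((add_le_add b5 m2).trans ?_)⟩
  have m3 : 64 * c * T.card ≤ a * ε * L :=
    ((div_le_iff₀ hε).1 ha.le).trans (le_mul_of_one_le_right (by positivity) L1)
  have m4 := mul_le_mul_of_nonneg_right m3 (by positivity : 0 ≤ τ 1 / (8 * D * L))
  refine le_of_sub_nonneg ((sub_nonneg.2 m4).trans_eq ?_)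
  field_simp
  ring

end Vale.Agent.P095
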