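import Vale.Agent.P095.BlkA

/-! Block estimates. -/

open Filter Topology TopologicalSpace

namespace Vale.Agent.P095

open Vale.Agent.P101

section Alg

variable {R ι : Type*} [Ring R] [Fintype ι] {E W V : ι → R}

theorem blk_alg1 (c : ∀ g g', Commute (E g) (W g')) (g : ι) :
    (∑ g', E g' * W g') * E g - (∑ g', E g') * (E g * W g) =
      ∑ g', -(E g' * E g * (W g - W g')) := by
  rw [Finset.sum_mul, Finset.sum_mul, ← Finset.sum_sub_distrib]
  refine Finset.sum_congr rfl fun g' _ => ?_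
  rw [mul_assoc (E g') (W g'), ← (c g g').eq]
  noncomm_ring

theorem blk_alg2 (e : ∀ g, E g * E g = E g) (c : ∀ g, Commute (E g) (W g)) (a h : R) :
    a * (∑ g, E g * V g) - h * (∑ g, E g * (W g * V g)) =
      ∑ g, (a * E g - h * (E g * W g)) * (E g * V g) := by
  rw [Finset.mul_sum, Finset.mul_sum, ← Finset.sum_sub_distrib]
  refine Finset.sum_congr rfl fun g _ => ?_
  rw [sub_mul, mul_assoc a, ← mul_assoc (E g) (E g), e, mul_assoc h, mul_assoc (E g) (W g),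
    ← mul_assoc (W g), ← (c g).eq, mul_assoc (E g), ← mul_assoc (E g) (E g), e]

end Alg

theorem blk_prj {M : Type} [CStarAlgebra M] {e X : M} (he : Prj e) (hs : IsSelfAdjoint X)
    (hx : X * X = 1) (c : Commute e X) : Pos (e + e * X) := by
  have : e + e * X = (1 / 2 : ℝ) • (star (e + e * X) * (e + e * X)) := by
    rw [star_add, star_mul, he.sa.star_eq, hs.star_eq, add_mul, mul_add, mul_add, he.sq,
      ← mul_assoc e e, he.sq, mul_assoc X e e, he.sq, ← mul_assoc (X * e), mul_assoc X e e, he.sq,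
      ← c.eq, mul_assoc e X X, hx, mul_one]
    module
  rw [this]
  exact (Pos.sq _).smul (by norm_num)

theorem blk_exact {ι : Type} [Fintype ι] {κ : ℝ → ℝ} (hκ : Continuous κ) (h0 : ∀ s, 0 ≤ κ s)
    {M : Type} [CStarAlgebra M] {E X Z : ι → M} (h : Cfg E X Z) : IsSelfAdjoint (blkOp κ E X) ∧
    Pos (cfc (fun s => s * κ s) (∑ g, E g) - blkOp κ E X) ∧
    Pos (cfc (fun s => s * κ s) (∑ g, E g) + blkOp κ E X) := by
  have sh : IsSelfAdjoint (∑ g, E g) := (Pos.sum fun g _ => (h.prj g).pos).sa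
  have c1 : Continuous fun s => √(κ s) := by fun_prop
  have sk : star (cfc (fun s => √(κ s)) (∑ g, E g)) = cfc (fun s => √(κ s)) (∑ g, E g) :=
    IsSelfAdjoint.cfc.star_eq
  have e1 : cfc (fun s => s * κ s) (∑ g, E g) =
      cfc (fun s => √(κ s)) (∑ g, E g) * (∑ g, E g) * cfc (fun s => √(κ s)) (∑ g, E g) := by
    conv_rhs => enter [1, 2]; rw [← cfc_id' ℝ (∑ g, E g)]
    rw [← cfc_mul _ _ _ c1.continuousOn continuous_id'.continuousOn,
      ← cfc_mul (fun x => √(κ x) * x) _ _ (by fun_prop) c1.continuousOn]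
    refine cfc_congr fun t _ => ?_
    show t * κ t = √(κ t) * t * √(κ t)
    rw [mul_right_comm, Real.mul_self_sqrt (h0 t), mul_comm]
  have p1 : Pos (∑ g, E g + ∑ g, E g * X g) := by
    rw [← Finset.sum_add_distrib]
    exact Pos.sum fun g _ => blk_prj (h.prj g) (h.pauli g).sx (h.pauli g).xx (h.cx g g)
  have p2 : Pos (∑ g, E g - ∑ g, E g * X g) := by
    rw [← Finset.sum_sub_distrib]
    refine Pos.sum fun g _ => ?_
    simpa [sub_eq_add_neg] using blk_prj (h.prj g) (h.pauli g).sx.neg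
      (by rw [neg_mul_neg, (h.pauli g).xx]) (h.cx g g).neg_right
  have q1 := p1.conj (cfc (fun s => √(κ s)) (∑ g, E g))
  have q2 := p2.conj (cfc (fun s => √(κ s)) (∑ g, E g))
  rw [sk, mul_add, add_mul, ← e1] at q1
  rw [sk, mul_sub, sub_mul, ← e1] at q2
  refine ⟨?_, q2, q1⟩
  have := q1.sa.sub (IsSelfAdjoint.cfc (f := fun s : ℝ => s * κ s) (a := ∑ g, E g))
  rwa [add_sub_cancel_left] at this

namespace Bk

variable {J : Type*} {M : J → Type} [∀ j, CStarAlgebra (M j)] {c : Bk M} {ι : Type} [Fintype ι]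
  {E W V X Z : ι → ∀ j, M j} {κ : ℝ → ℝ}

/-- A family of projections. -/
structure HE (c : Bk M) (E : ι → ∀ j, M j) : Prop where
  sq : ∀ g, E g * E g = E g
  sa : ∀ g, star (E g) = E g
  bd : ∀ g, Bd (E g)
  md : ∀ g, c.Md (E g)

/-- A family of coefficients that almost agree on overlaps. -/
structure HW (c : Bk M) (E W : ι → ∀ j, M j) : Prop where
  bd : ∀ g, Bd (W g)
  cm : ∀ g g', Commute (E g) (W g')
  sm : ∀ g g', c.Sm (E g' * E g * (W g - W g'))

theorem HE.bdh (h : HE c E) : Bd (∑ g, E g) := Bd.sum fun g _ => h.bd g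

theorem HE.sah (h : HE c E) : IsSelfAdjoint (∑ g, E g) := by
  rw [IsSelfAdjoint, star_sum]
  simp only [h.sa]

theorem HE.mdp (h : HE c E) (hV : ∀ g, Bd (V g)) : c.Md (∑ g, E g * V g) :=
  Md.sum fun g _ => (h.md g).mul_right (hV g)

theorem HE.bdp (h : HE c E) (hV : ∀ g, Bd (V g)) : Bd (∑ g, E g * V g) :=
  Bd.sum fun g _ => (h.bd g).mul (hV g)

theorem HW.D (h : HW c E W) (g : ι) :
    c.Sm ((∑ g', E g' * W g') * E g - (∑ g', E g') * (E g * W g)) :=
  (Sm.sum fun g' _ => (h.sm g g').neg).of_eq (blk_alg1 h.cm g)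

theorem HW.B (h : HW c E W) (he : HE c E) (hV : ∀ g, Bd (V g)) :
    c.Sm ((∑ g, E g * W g) * (∑ g, E g * V g) - (∑ g, E g) * ∑ g, E g * (W g * V g)) :=
  (Sm.sum fun g _ => (h.D g).mul_right ((he.bd g).mul (hV g))).of_eq
    (blk_alg2 he.sq (fun g => h.cm g g) _ _)

theorem HW.B' (h : HW c E W) (he : HE c E) (hV : ∀ g, Bd (V g)) {b : ∀ j, M j} (hb : Bd b) :
    c.Tz (b * ((∑ g, E g * W g) * (∑ g, E g * V g) - (∑ g, E g) * ∑ g, E g * (W g * V g))) := by
  rw [blk_alg2 he.sq (fun g => h.cm g g), Finset.mul_sum]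
  exact Tz.sum fun g _ => (((h.D g).mul_left hb).tz ((he.md g).mul_right (hV g))).of_eq
    (mul_assoc _ _ _).symm

omit [Fintype ι] in
theorem HW.mul (h : HW c E W) (h' : HW c E V) : HW c E fun g => W g * V g := by
  refine ⟨fun g => (h.bd g).mul (h'.bd g), fun g g' => (h.cm g g').mul_right (h'.cm g g'),
    fun g g' => (((h.sm g g').mul_right (h'.bd g')).add ((h'.sm g g').mul_left (h.bd g))).of_eq ?_⟩
  rw [← mul_assoc (W g), ← ((h.cm g' g).mul_left (h.cm g g)).eq]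
  noncomm_ring

omit [Fintype ι] in
theorem HW.neg (h : HW c E W) : HW c E fun g => -W g :=
  ⟨fun g => (h.bd g).neg, fun g g' => (h.cm g g').neg_right, fun g g' =>
    (h.sm g g').neg.of_eq (by noncomm_ring)⟩

theorem HW.c1 (h : HW c E W) (he : HE c E) :
    c.Sm ((∑ g, E g) * (∑ g, E g * W g) - (∑ g, E g * W g) * ∑ g, E g) := by
  simpa using (h.B he (V := fun _ => 1) fun _ => Bd.one).neg

theorem HW.cf (h : HW c E W) (he : HE c E) {f : ℝ → ℝ} (hf : Continuous f) :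
    c.Sm (cf f (∑ g, E g) * (∑ g, E g * W g) - (∑ g, E g * W g) * cf f (∑ g, E g)) :=
  iw he.bdh he.bdh he.sah he.sah (he.mdp h.bd) (h.c1 he) hf

/-- The block operator of a family. -/
noncomputable def bo (κ : ℝ → ℝ) (E W : ι → ∀ j, M j) : ∀ j, M j :=
  cf (fun s => √(κ s)) (∑ g, E g) * (∑ g, E g * W g) * cf (fun s => √(κ s)) (∑ g, E g)

theorem bo_apply (j : J) : bo κ E W j = blkOp κ (fun g => E g j) fun g => W g j := by
  simp [bo, blkOp, cf, Finset.sum_apply]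

theorem HW.bo_sm (h : HW c E W) (he : HE c E) (hκ : Continuous κ) (h0 : ∀ s, 0 ≤ κ s) :
    c.Sm (bo κ E W - Bk.cf κ (∑ g, E g) * ∑ g, E g * W g) := by
  have c1 : Continuous fun s => √(κ s) := by fun_prop
  refine ((h.cf he c1).mul_left (he.bdh.cf c1)).neg.of_eq ?_
  have : Bk.cf κ (∑ g, E g) =
      Bk.cf (fun s => √(κ s)) (∑ g, E g) * Bk.cf (fun s => √(κ s)) (∑ g, E g) := by
    rw [← cf_mul c1 c1]
    simp only [Real.mul_self_sqrt (h0 _)]
  rw [this, bo]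
  noncomm_ring

theorem HW.bo_md (h : HW c E W) (he : HE c E) (hκ : Continuous κ) : c.Md (bo κ E W) :=
  ((he.mdp h.bd).mul_left (he.bdh.cf (by fun_prop))).mul_right (he.bdh.cf (by fun_prop))

theorem HW.bo_bd (h : HW c E W) (he : HE c E) (hκ : Continuous κ) : Bd (bo κ E W) :=
  ((he.bdh.cf (by fun_prop)).mul (he.bdp h.bd)).mul (he.bdh.cf (by fun_prop))

theorem HW.bo_mul (h : HW c E W) (h' : HW c E V) (he : HE c E) (hκ : Continuous κ)
    (h0 : ∀ s, 0 ≤ κ s) : c.Sm (bo κ E W * bo κ E V - Bk.cf κ (∑ g, E g) * Bk.cf κ (∑ g, E g) *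
      ((∑ g, E g) * ∑ g, E g * (W g * V g))) := by
  have bK := he.bdh.cf hκ
  refine (((((h.bo_sm he hκ h0).mul_right (h'.bo_bd he hκ)).add
    ((h'.bo_sm he hκ h0).mul_left (bK.mul (he.bdp h.bd)))).sub
    (((h.cf he hκ).mul_left bK).mul_right (he.bdp h'.bd))).add
    ((h.B he h'.bd).mul_left (bK.mul bK))).of_eq ?_
  noncomm_ring

theorem cf_fk (hκ : Continuous κ) {a : ∀ j, M j} (sa : IsSelfAdjoint a) :
    cf (fun s => s * κ s) a = a * cf κ a := by
  rw [cf_mul continuous_id' hκ, cf_id sa]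

theorem cf_comm (hκ : Continuous κ) {a : ∀ j, M j} (sa : IsSelfAdjoint a) :
    Commute a (cf κ a) := by
  rw [Commute, SemiconjBy, ← cf_fk hκ sa]
  conv_rhs => enter [2]; rw [← cf_id sa]
  rw [← cf_mul hκ continuous_id']
  simp only [mul_comm]

theorem cf_pow {f : ℝ → ℝ} (hf : Continuous f) {a : ∀ j, M j} (sa : IsSelfAdjoint a) (n : ℕ) :
    cf (fun s => f s ^ n) a = cf f a ^ n :=
  funext fun j => cfc_pow f n (a j) hf.continuousOn (show IsSelfAdjoint (a j) from congrFun sa j)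

theorem HW.half (h : HW c E X) (he : HE c E) (hκ : Continuous κ) (sx : ∀ g, star (X g) = X g)
    (xx : ∀ g, X g * X g = 1) :
    c.Sm (Bk.cf κ (∑ g, E g) * ((1 / 2 : ℝ) • (∑ g, E g + ∑ g, E g * X g)) -
      Bk.cf (fun s => s * κ s) ((1 / 2 : ℝ) • (∑ g, E g + ∑ g, E g * X g))) := by
  have s1 : IsSelfAdjoint (∑ g, E g * X g) := by
    rw [IsSelfAdjoint, star_sum]
    simp only [star_mul, he.sa, sx, (h.cm _ _).eq]
  have s2 : IsSelfAdjoint ((1 / 2 : ℝ) • (∑ g, E g + ∑ g, E g * X g)) := by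
    rw [IsSelfAdjoint, star_smul, star_trivial, (he.sah.add s1).star_eq]
  have m1 : c.Md (∑ g, E g) := Md.sum fun g _ => he.md g
  have b1 := h.B he h.bd
  simp only [xx, mul_one] at b1
  rw [cf_fk hκ s2]
  refine iw he.bdh ((he.bdh.add (he.bdp h.bd)).smul _) he.sah s2 ((m1.add (he.mdp h.bd)).smul _)
    ((((h.c1 he).sub b1).smul (1 / 4)).of_eq ?_) hκ
  simp only [mul_smul_comm, smul_mul_assoc, mul_add, add_mul]
  module

theorem HW.one (h : HW c E X) (he : HE c E) (hκ : Continuous κ) (h0 : ∀ s, 0 ≤ κ s)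
    (sx : ∀ g, star (X g) = X g) (xx : ∀ g, X g * X g = 1) :
    c.Sm (bo κ E X - (Bk.cf (fun s => s * κ s) ((1 / 2 : ℝ) • (∑ g, E g + ∑ g, E g * X g)) -
      Bk.cf (fun s => s * κ s) ((1 / 2 : ℝ) • (∑ g, E g + ∑ g, E g * -X g)))) := by
  refine (((h.bo_sm he hκ h0).add (h.half he hκ sx xx)).sub (h.neg.half he hκ
    (fun g => by rw [star_neg, sx]) fun g => by rw [neg_mul_neg, xx])).of_eq ?_
  generalize Bk.cf (fun s => s * κ s) ((1 / 2 : ℝ) • (∑ g, E g + ∑ g, E g * -X g)) = y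
  simp only [mul_neg, Finset.sum_neg_distrib, mul_smul_comm, mul_add]
  module

theorem HW.two (h : HW c E X) (he : HE c E) (hκ : Continuous κ) (h0 : ∀ s, 0 ≤ κ s)
    (xx : ∀ g, X g * X g = 1) :
    c.Tz (bo κ E X * bo κ E X - Bk.cf (fun s => (s * κ s) ^ 2) (∑ g, E g)) := by
  have bK := he.bdh.cf hκ
  have b1 := h.B' he h.bd (bK.mul bK)
  simp only [xx, mul_one] at b1
  have mK := (he.mdp h.bd).mul_left bK
  refine (((((h.bo_sm he hκ h0).tz (h.bo_md he hκ)).add (mK.tz (h.bo_sm he hκ h0))).add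
    (((h.cf he hκ).mul_left bK).neg.tz (he.mdp h.bd))).add b1).of_eq ?_
  rw [cf_pow (f := fun s => s * κ s) (by fun_prop) he.sah, cf_fk hκ he.sah, (cf_comm hκ he.sah).eq,
    (cf_comm hκ he.sah).symm.mul_pow]
  noncomm_ring

theorem HW.three (h : HW c E X) (h' : HW c E Z) (he : HE c E) (hκ : Continuous κ)
    (h0 : ∀ s, 0 ≤ κ s) (sx : ∀ g, star (X g) = X g) (sz : ∀ g, star (Z g) = Z g)
    (xx : ∀ g, X g * X g = 1) (zz : ∀ g, Z g * Z g = 1) (xz : ∀ g, X g * Z g = -(Z g * X g))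
    {Y : ∀ j, M j} (hY : Y = (1 / 2 : ℝ) • (bo κ E X * bo κ E Z - bo κ E Z * bo κ E X)) :
    c.Tz (star Y * Y - Bk.cf (fun s => (s * κ s) ^ 4) (∑ g, E g)) := by
  have bK := he.bdh.cf hκ
  have hxz := h.mul h'
  have cK := cf_comm hκ he.sah
  set H := ∑ g, E g with hH
  set K := Bk.cf κ H with hK
  set Ψ := ∑ g, E g * (X g * Z g) with hΨ
  have e1 : ∑ g, E g * (Z g * X g) = -Ψ := by
    simp only [hΨ, xz, mul_neg, Finset.sum_neg_distrib, neg_neg]
  have e2 : star Ψ = ∑ g, E g * (Z g * X g) := by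
    rw [hΨ, star_sum]
    simp only [star_mul, he.sa, sx, sz, ((h'.cm _ _).mul_right (h.cm _ _)).eq]
  have s1 : c.Sm (Y - K * K * (H * Ψ)) := by
    have a1 := h.bo_mul h' he hκ h0
    have a2 := h'.bo_mul h he hκ h0
    rw [e1] at a2
    refine ((a1.sub a2).smul (1 / 2)).of_eq ?_
    rw [hY]
    simp only [mul_neg]
    module
  have mY : c.Md Y := hY ▸ (((h.bo_md he hκ).mul_right (h'.bo_bd he hκ)).sub
    ((h'.bo_md he hκ).mul_right (h.bo_bd he hκ))).smul _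
  have mT : c.Md (K * K * (H * Ψ)) := ((he.mdp hxz.bd).mul_left he.bdh).mul_left (bK.mul bK)
  have bB : Bd (H * K * K * (K * K * H)) := ((he.bdh.mul bK).mul bK).mul ((bK.mul bK).mul he.bdh)
  have t1 := hxz.B' he (h'.mul h).bd bB
  have e3 : ∀ g, X g * Z g * (Z g * X g) = 1 := fun g => by
    rw [mul_assoc, ← mul_assoc (Z g), zz, one_mul, xx]
  simp only [e3, mul_one] at t1
  rw [← e2, ← hΨ, ← hH] at t1
  have e4 : Bk.cf (fun s => (s * κ s) ^ 4) H = H * K * K * (K * K * H) * (H * H) := by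
    rw [cf_pow (f := fun s => s * κ s) (by fun_prop) he.sah, cf_fk hκ he.sah, cK.mul_pow,
      show H * K * K * (K * K * H) * (H * H) = H * K ^ 4 * H ^ 3 by noncomm_ring,
      mul_assoc, ← (cK.pow_pow 3 4).eq]
    noncomm_ring
  have t2 : c.Tz (star Ψ * (H * K * K * (K * K * H) * Ψ) -
      H * K * K * (K * K * H) * Ψ * star Ψ) := fun ε hε => ⟨0, le_rfl, fun j => by
    rw [Pi.sub_apply, map_sub, Pi.mul_apply, (c.rt j).comm, ← Pi.mul_apply, sub_self, abs_zero]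
    exact mul_nonneg (by simpa using mul_nonneg hε.le (c.s0 j)) (c.s0 j)⟩
  refine ((((s1.star.tz mY).add (mT.star.tz s1)).add t2).add t1).of_eq ?_
  rw [e4, star_sub, star_mul, star_mul, star_mul, he.sah.star_eq, hK, cf_star, ← hK]
  noncomm_ring

end Bk

/-- All data of a block. -/
structure BkD (ι : Type) : Type 1 where
  M : Type
  [inst : CStarAlgebra M]
  τ : M →ₗ[ℝ] ℝ
  E : ι → M
  X : ι → M
  Z : ι → M
  ρ : ℝ
  s : ℝ
  rt : IsRT τ
  cfg : Cfg E X Z
  ρ0 : 0 ≤ ρ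
  s0 : 0 ≤ s
  hE : ∀ g, nu τ (E g) ≤ s
  hX : ∀ g g', nu τ (E g' * E g * (X g - X g')) ≤ ρ

attribute [instance] BkD.inst

/-- The family attached to block data. -/
noncomputable def bkOf {ι J : Type _} (d : J → BkD ι) : Bk fun j => (d j).M :=
  ⟨fun j => (d j).τ, fun j => (d j).ρ, fun j => (d j).s, fun j => (d j).rt, fun j => (d j).ρ0,
    fun j => (d j).s0⟩

theorem bkOf_he {ι J : Type _} (d : J → BkD ι) : Bk.HE (bkOf d) fun g j => (d j).E g :=
  ⟨fun g => funext fun j => ((d j).cfg.prj g).sq,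
    fun g => funext fun j => ((d j).cfg.prj g).sa.star_eq,
    fun g => ⟨1, zero_le_one, fun j => ((d j).cfg.prj g).norm_le⟩,
    fun g => ⟨1, zero_le_one, fun j => ((d j).hE g).trans_eq (one_mul _).symm⟩⟩

theorem bkOf_hw {ι J : Type _} (d : J → BkD ι) {W : ι → ∀ j, (d j).M} (h1 : ∀ g j, ‖W g j‖ ≤ 1)
    (h2 : ∀ g g' j, Commute ((d j).E g) (W g' j))
    (h3 : ∀ g g' j, nu (d j).τ ((d j).E g' * (d j).E g * (W g j - W g' j)) ≤ (d j).ρ) :
    Bk.HW (bkOf d) (fun g j => (d j).E g) W :=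
  ⟨fun g => ⟨1, zero_le_one, h1 g⟩, fun g g' => funext fun j => (h2 g g' j).eq,
    fun g g' ε hε => ⟨1, zero_le_one, fun j => (h3 g g' j).trans (by
      have := mul_nonneg hε.le (d j).s0
      show (d j).ρ ≤ 1 * (d j).ρ + ε * (d j).s
      linarith)⟩⟩

theorem bkOf_hx {ι J : Type _} (d : J → BkD ι) :
    Bk.HW (bkOf d) (fun g j => (d j).E g) fun g j => (d j).X g :=
  bkOf_hw d (fun g j => ((d j).cfg.pauli g).norm_le) (fun g g' j => (d j).cfg.cx g g')
    fun g g' j => (d j).hX g g'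

theorem blk_pj {M ι : Type} [CStarAlgebra M] [Fintype ι] (E X : ι → M) :
    ∑ g, E g * pj (X g) = (1 / 2 : ℝ) • (∑ g, E g + ∑ g, E g * X g) := by
  simp only [pj, mul_smul_comm, mul_add, mul_one, ← Finset.smul_sum, Finset.sum_add_distrib]

theorem blkS : BlkS := by
  intro ι _ κ hκ h0
  refine ⟨fun M _ E X Z h => blk_exact hκ h0 h, fun ε hε => ?_⟩
  let J' := {d : BkD ι // ∀ g g', nu d.τ (d.E g' * d.E g * (d.Z g - d.Z g')) ≤ d.ρ}
  obtain ⟨C₁, p1, h1⟩ := (bkOf_hx (id : BkD ι → BkD ι)).one (bkOf_he _) hκ h0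
    (fun g => funext fun j => (j.cfg.pauli g).sx.star_eq)
    (fun g => funext fun j => (j.cfg.pauli g).xx) ε hε
  obtain ⟨C₂, p2, h2⟩ := (bkOf_hx (id : BkD ι → BkD ι)).two (bkOf_he _) hκ h0
    (fun g => funext fun j => (j.cfg.pauli g).xx) ε hε
  obtain ⟨C₃, p3, h3⟩ := (bkOf_hx (Subtype.val : J' → BkD ι)).three
    (Z := fun g j => j.1.Z g) (bkOf_hw _ (fun g j => (j.1.cfg.pauli g).symm.norm_le)
      (fun g g' j => j.1.cfg.cz g g') fun g g' j => j.2 g g') (bkOf_he _) hκ h0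
    (fun g => funext fun j => (j.1.cfg.pauli g).sx.star_eq)
    (fun g => funext fun j => (j.1.cfg.pauli g).sz.star_eq)
    (fun g => funext fun j => (j.1.cfg.pauli g).xx) (fun g => funext fun j => (j.1.cfg.pauli g).zz)
    (fun g => funext fun j => (j.1.cfg.pauli g).xz) rfl ε hε
  refine ⟨C₁ + C₂ + C₃, by positivity, fun M _ τ E X Z ρ s rt cfg ρ0 s0 hE hX => ?_⟩
  let d : BkD ι := ⟨M, τ, E, X, Z, ρ, s, rt, cfg, ρ0, s0, hE, hX⟩
  have q1 := mul_nonneg p1 ρ0
  have q2 := mul_nonneg p2 ρ0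
  have q3 := mul_nonneg p3 ρ0
  refine ⟨?_, ?_, fun hZ => ?_⟩
  · have := h1 d
    simp only [Pi.sub_apply, Bk.bo_apply, Bk.cf, Pi.smul_apply, Pi.add_apply, Finset.sum_apply,
      Pi.mul_apply, Pi.neg_apply] at this
    rw [blk_pj, blk_pj]
    exact le_trans this (show C₁ * ρ + ε * s ≤ _ by linarith)
  · have := h2 d
    simp only [Pi.sub_apply, Bk.bo_apply, Bk.cf, Finset.sum_apply, Pi.mul_apply] at this
    rw [map_sub, abs_sub_comm] at this
    exact le_trans (le_abs_self _) (le_trans this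
      (mul_le_mul_of_nonneg_right (show C₂ * ρ + ε * s ≤ _ by linarith) s0))
  · have := h3 ⟨d, hZ⟩
    simp only [Pi.sub_apply, Bk.bo_apply, Bk.cf, Pi.smul_apply, Finset.sum_apply,
      Pi.mul_apply, Pi.star_apply] at this
    rw [map_sub, abs_sub_comm] at this
    exact le_trans (le_abs_self _) (le_trans this
      (mul_le_mul_of_nonneg_right (show C₃ * ρ + ε * s ≤ _ by linarith) s0))

end Vale.Agent.P095
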