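import Vale.Agent.P095.Basic

/-! Commutators of unitaries commuting with a dimension drop algebra. -/

open scoped Kronecker unitInterval MonoidAlgebra
open MonoidAlgebra

namespace Vale.Agent.P095

open Vale.Agent.P101

namespace Com

section ring

variable {R : Type*} [Ring R] {P P' e x y : R}

/-- The element acting as `x` on the range of `P` and as the identity on its complement. -/
def cut (P x : R) : R := 1 + (x - 1) * P

theorem cut_one (P : R) : cut P 1 = 1 := by simp [cut]

theorem one_cut (x : R) : cut 1 x = x := by simp [cut]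

theorem cut_cut (P e x : R) : cut (P * e) x = cut e (cut P x) := by simp [cut, mul_assoc]

theorem cut_mul (hP : P * P = P) (h : Commute P y) : cut P x * cut P y = cut P (x * y) := by
  have : P * ((y - 1) * P) = (y - 1) * P := by
    rw [← mul_assoc, (h.sub_right (Commute.one_right P)).eq, mul_assoc, hP]
  simp only [cut, add_mul, mul_add, one_mul, mul_one, mul_assoc, this]
  noncomm_ring

theorem cut_add (hP : P * P' = 0) (h : Commute P y) :
    cut P x * cut P' y = 1 + (x - 1) * P + (y - 1) * P' := by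
  have : P * ((y - 1) * P') = 0 := by
    rw [← mul_assoc, (h.sub_right (Commute.one_right P)).eq, mul_assoc, hP, mul_zero]
  simp only [cut, add_mul, mul_add, one_mul, mul_one, mul_assoc, this, mul_zero, add_zero]

theorem cut_list (he : e * e = e) (l : List R) (h : ∀ y ∈ l, Commute e y) :
    (l.map (cut e)).prod = cut e l.prod := by
  induction l with
  | nil => simp [cut_one]
  | cons a l ih =>
    have h' : ∀ y ∈ l, Commute e y := fun y hy => h y (List.mem_cons_of_mem _ hy)
    rw [List.map_cons, List.prod_cons, List.prod_cons, ih h',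
      cut_mul he (Commute.list_prod_right _ _ h')]

theorem cut_sum {n : ℕ} (e : Fin n → R) (h : ∀ i j, i ≠ j → e i * e j = 0)
    (hy : ∀ i, Commute (e i) y) : (List.ofFn fun i => cut (e i) y).prod = cut (∑ i, e i) y := by
  induction n with
  | zero => simp [cut]
  | succ n ih =>
    rw [List.ofFn_succ, List.prod_cons, Fin.sum_univ_succ,
      ih (fun i => e i.succ) (fun i j hij => h _ _ (by simpa)) fun i => hy _,
      cut_add _ (hy 0), cut, mul_add, add_assoc]
    rw [Finset.mul_sum]
    exact Finset.sum_eq_zero fun i _ => h _ _ (Fin.succ_ne_zero i).symm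

end ring

section grp

variable {K K' G : Type*} [Ring K] [Ring K'] [Group G] {p q : ℕ}

/-- The group element `g` cut by `P`. -/
noncomputable def cg (P : K) (g : G) : K[G] := cut (single 1 P) (single g 1)

theorem map_cg (f : K →+* K') (P : K) (g : G) : mapRingHom G f (cg P g) = cg (f P) g := by
  simp only [cg, cut, map_add, map_mul, map_sub, map_one, mapRingHom_single]

theorem comm_one (P : K) (g : G) : Commute (single 1 P : K[G]) (single g 1) := by
  simp [Commute, SemiconjBy, single_mul_single]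

theorem cg_mul {P : K} (hP : P * P = P) (g h : G) : cg P g * cg P h = cg P (g * h) := by
  rw [cg, cg, cut_mul (by rw [single_mul_single, hP, mul_one]) (comm_one _ _), single_mul_single,
    mul_one, cg]

theorem cg_one (P : K) : cg P (1 : G) = 1 := cut_one _

theorem cg_cut (P e : K) (g : G) : cg (P * e) g = cut (single 1 e) (cg P g) := by
  rw [cg, cg, ← cut_cut, single_mul_single, mul_one]

/-- One factor of the path. -/
noncomputable def fac (u s : G) (E P : K) : K[G] := cg E u * cg P s * cg E u⁻¹ * cg P s⁻¹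

theorem map_fac (f : K →+* K') (u s : G) (E P : K) :
    mapRingHom G f (fac u s E P) = fac u s (f E) (f P) := by
  simp only [fac, map_mul, map_cg]

theorem fac_self (u s : G) {E : K} (hE : E * E = E) : fac u s E E = cg E (u * s * u⁻¹ * s⁻¹) := by
  simp only [fac, cg_mul hE]

theorem fac_orth (u s : G) {E P : K} (hE : E * E = E) (hP : P * P = P) (h1 : E * P = 0)
    (h2 : P * E = 0) : fac u s E P = 1 := by
  have : cg E u * cg P s = cg P s * cg E u := by
    rw [cg, cg, cut_add (by simp [single_mul_single, h1]) (comm_one _ _),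
      cut_add (by simp [single_mul_single, h2]) (comm_one _ _), add_right_comm]
  rw [fac, this, mul_assoc (cg P s), cg_mul hE, mul_inv_cancel, cg_one, mul_one, cg_mul hP,
    mul_inv_cancel, cg_one]

theorem comm_map (f : K' →+* K) {e : K} (h : ∀ a, Commute e (f a)) (y : K'[G]) :
    Commute (single 1 e) (mapRingHom G f y) := by
  induction y using induction_linear with
  | zero => simp
  | add a b ha hb => rw [map_add]; exact ha.add_right hb
  | single g a => simp [Commute, SemiconjBy, single_mul_single, (h a).eq]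

theorem fac_cut (f : K' →+* K) {e : K} (he : e * e = e) (h : ∀ a, Commute e (f a)) (u s : G)
    (E P : K') : fac u s (f E * e) (f P * e) = cut (single 1 e) (mapRingHom G f (fac u s E P)) := by
  have he' : (single 1 e : K[G]) * single 1 e = single 1 e := by rw [single_mul_single, he, mul_one]
  simp only [fac, cg_cut, ← map_cg, cut_mul he' (comm_map f h _), map_mul]

/-- The path. -/
noncomputable def W (u s : G) (E P : Fin p → Fin q → K) : K[G] :=
  (List.ofFn fun i => (List.ofFn fun j => fac u s (E i j) (P i j)).prod).prod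

theorem map_W (f : K →+* K') (u s : G) (E P : Fin p → Fin q → K) :
    mapRingHom G f (W u s E P) = W u s (fun i j => f (E i j)) fun i j => f (P i j) := by
  simp only [W, map_list_prod, List.map_ofFn, Function.comp_def, map_fac]

theorem cut_all {n : ℕ} {e : Fin n → K} (h : ∀ i j, i ≠ j → e i * e j = 0) {y : K[G]}
    (hy : ∀ i, Commute (single 1 (e i)) y) :
    (List.ofFn fun i => cut (single 1 (e i)) y).prod = cut (single 1 (∑ i, e i)) y := by
  rw [cut_sum (fun i => single 1 (e i)) (fun i j hij => by simp [single_mul_single, h i j hij]) hy]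
  exact congrArg (cut · y) (map_sum (singleAddHom (1 : G)) e Finset.univ).symm

theorem W_left (f : K' →+* K) {e : Fin q → K} (he : ∀ i, e i * e i = e i)
    (ho : ∀ i j, i ≠ j → e i * e j = 0) (hs : ∑ i, e i = 1) (h : ∀ i a, Commute (e i) (f a))
    (u s : G) (E P : Fin p → K') : W u s (fun i j => f (E i) * e j) (fun i j => f (P i) * e j) =
      mapRingHom G f (List.ofFn fun i => fac u s (E i) (P i)).prod := by
  simp only [W, fac_cut f (he _) (h _), cut_all ho fun i => comm_map f (h i) _, hs,
    ← MonoidAlgebra.one_def, one_cut, map_list_prod, List.map_ofFn, Function.comp_def]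

theorem W_right (f : K' →+* K) {e : Fin p → K} (he : ∀ i, e i * e i = e i)
    (ho : ∀ i j, i ≠ j → e i * e j = 0) (hs : ∑ i, e i = 1) (h : ∀ i a, Commute (e i) (f a))
    (u s : G) (E P : Fin q → K') : W u s (fun i j => f (E j) * e i) (fun i j => f (P j) * e i) =
      mapRingHom G f (List.ofFn fun j => fac u s (E j) (P j)).prod := by
  have k : ∀ i, (List.ofFn fun j => cut (single 1 (e i)) (mapRingHom G f (fac u s (E j) (P j)))).prod
      = cut (single 1 (e i)) (mapRingHom G f (List.ofFn fun j => fac u s (E j) (P j)).prod) :=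
    fun i => by
      rw [map_list_prod, ← cut_list (by rw [single_mul_single, he, mul_one]), List.map_map,
        List.map_ofFn]
      · rfl
      · intro y hy
        obtain ⟨y, -, rfl⟩ := List.mem_map.1 hy
        exact comm_map f (h i) _
  simp only [W, fac_cut f (he _) (h _), k, cut_all ho fun i => comm_map f (h i) _, hs,
    ← MonoidAlgebra.one_def, one_cut]

theorem W_self {E : Fin p → Fin q → K} (he : ∀ i j, E i j * E i j = E i j)
    (ho : ∀ i j i' j', (i, j) ≠ (i', j') → E i j * E i' j' = 0) (hs : ∑ i, ∑ j, E i j = 1)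
    (u s : G) : W u s E E = single (u * s * u⁻¹ * s⁻¹) 1 := by
  simp only [W, fac_self _ _ (he _ _), cg]
  rw [List.ofFn_inj.2 (funext fun i => cut_all (fun j j' h => ho i j i j' (by simpa))
    fun _ => comm_one _ _), cut_all (fun i i' h => ?_) fun _ => comm_one _ _, hs,
    ← MonoidAlgebra.one_def, one_cut]
  rw [Finset.sum_mul_sum]
  exact Finset.sum_eq_zero fun j _ => Finset.sum_eq_zero fun j' _ => ho _ _ _ _ (by simp [h])

theorem W_orth {E P : Fin p → Fin q → K} (hE : ∀ i j, E i j * E i j = E i j)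
    (hP : ∀ i j, P i j * P i j = P i j) (h1 : ∀ i j, E i j * P i j = 0)
    (h2 : ∀ i j, P i j * E i j = 0) (u s : G) : W u s E P = 1 := by
  simp [W, fac_orth u s (hE _ _) (hP _ _) (h1 _ _) (h2 _ _)]

variable [StarRing K] [StarRing K']

/-- The involution of the group algebra. -/
noncomputable def st : K[G] →+ K[G] where
  toFun x := mapDomain (·⁻¹) (map (starAddEquiv : K ≃+ K).toAddMonoidHom x)
  map_zero' := by simp
  map_add' x y := by rw [MonoidAlgebra.map_add, mapDomain_add]

theorem st_single (g : G) (a : K) : st (single g a) = single g⁻¹ (star a) := by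
  simp [st]

theorem st_mul (x y : K[G]) : st (x * y) = st y * st x := by
  induction x using induction_linear with
  | zero => simp
  | add a b ha hb => simp only [add_mul, mul_add, map_add, ha, hb]
  | single g a =>
    induction y using induction_linear with
    | zero => simp
    | add a b ha hb => simp only [add_mul, mul_add, map_add, ha, hb]
    | single g a => simp [single_mul_single, st_single]

theorem st_one : st (1 : K[G]) = 1 := by simp [MonoidAlgebra.one_def, st_single]

theorem map_st (f : K →+* K') (h : ∀ a, f (star a) = star (f a)) (x : K[G]) :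
    mapRingHom G f (st x) = st (mapRingHom G f x) := by
  induction x using induction_linear with
  | zero => simp
  | add a b ha hb => simp only [map_add, ha, hb]
  | single g a => simp only [st_single, mapRingHom_single, h]

/-- Unitary elements of the group algebra. -/
def Un (K G : Type*) [Ring K] [StarRing K] [Group G] : Submonoid K[G] where
  carrier := {x | st x * x = 1 ∧ x * st x = 1}
  one_mem' := by simp [st_one]
  mul_mem' {x y} hx hy := ⟨by rw [st_mul, mul_assoc, ← mul_assoc (st x), hx.1, one_mul, hy.1],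
    by rw [st_mul, mul_assoc, ← mul_assoc y, hy.2, one_mul, hx.2]⟩

theorem cg_mem {P : K} (hP : P * P = P) (hs : star P = P) (g : G) : cg P g ∈ Un K G := by
  have : st (cg P g) = cg P g⁻¹ := by
    rw [cg, cg, cut, cut, map_add, st_mul, map_sub, st_one, st_single, st_single, hs, star_one,
      inv_one, ((comm_one P g⁻¹).sub_right (Commute.one_right _)).eq]
  exact ⟨by rw [this, cg_mul hP, inv_mul_cancel, cg_one],
    by rw [this, cg_mul hP, mul_inv_cancel, cg_one]⟩

theorem W_mem {E P : Fin p → Fin q → K} (hE : ∀ i j, E i j * E i j = E i j)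
    (hP : ∀ i j, P i j * P i j = P i j) (sE : ∀ i j, star (E i j) = E i j)
    (sP : ∀ i j, star (P i j) = P i j) (u s : G) : W u s E P ∈ Un K G := by
  refine list_prod_mem fun x hx => ?_
  obtain ⟨i, rfl⟩ := List.mem_ofFn.1 hx
  refine list_prod_mem fun x hx => ?_
  obtain ⟨j, rfl⟩ := List.mem_ofFn.1 hx
  exact mul_mem (mul_mem (mul_mem (cg_mem (hE _ _) (sE _ _) _) (cg_mem (hP _ _) (sP _ _) _))
    (cg_mem (hE _ _) (sE _ _) _)) (cg_mem (hP _ _) (sP _ _) _)

theorem pull {D : Type*} [Ring D] [StarRing D] (v : D →+* K') (hv : Function.Injective v)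
    (sv : ∀ a, v (star a) = star (v a)) (f : K →+* K') (sf : ∀ a, f (star a) = star (f a))
    {V : K[G]} (h1 : V ∈ Un K G) (h2 : ∀ g, ∃ a, v a = f (V.coeff g)) :
    ∃ w ∈ Un D G, mapRingHom G v w = mapRingHom G f V := by
  have vi : Function.Injective (mapRingHom G v) := map_injective _ hv
  have : mapRingHom G f V ∈ Set.range (map (M := G) v.toAddMonoidHom) := by
    rw [range_map]
    exact fun g => (h2 g).imp fun a ha => ha.trans (coeff_mapRingHom f V g).symm
  obtain ⟨w, hw⟩ : ∃ w, mapRingHom G v w = mapRingHom G f V := this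
  have hs : mapRingHom G v (st w) = mapRingHom G f (st V) := by rw [map_st v sv, hw, map_st f sf]
  exact ⟨w, ⟨vi (by rw [map_mul, hs, hw, ← map_mul, h1.1, map_one, map_one]),
    vi (by rw [map_mul, hs, hw, ← map_mul, h1.2, map_one, map_one])⟩, hw⟩

end grp

section mat

variable {m n : Type} [Fintype m] [DecidableEq m] [Fintype n] [DecidableEq n]

/-- The rank one matrix of a real vector. -/
def pr (v : n → ℝ) : Matrix n n ℂ := Matrix.of fun a b => ((v a * v b : ℝ) : ℂ)

omit [Fintype n] [DecidableEq n] in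
theorem star_pr (v : n → ℝ) : star (pr v) = pr v := by
  ext a b; simp [pr, mul_comm]

omit [DecidableEq n] in
theorem pr_mul (v w : n → ℝ) (a b : n) : (pr v * pr w) a b = ((v a * (v ⬝ᵥ w) * w b : ℝ) : ℂ) := by
  simp only [pr, Matrix.mul_apply, Matrix.of_apply, dotProduct, Finset.mul_sum, Finset.sum_mul]
  push_cast
  exact Finset.sum_congr rfl fun k _ => by ring

omit [DecidableEq n] in
theorem pr_sq {v : n → ℝ} (h : v ⬝ᵥ v = 1) : pr v * pr v = pr v := by
  ext a b; rw [pr_mul, h, mul_one]; rfl

omit [DecidableEq n] in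
theorem pr_orth {v w : n → ℝ} (h : v ⬝ᵥ w = 0) : pr v * pr w = 0 := by
  ext a b; simp [pr_mul, h]

theorem pr_kl (v : m → ℝ) (w : n → ℝ) :
    pr (fun k : m × n => v k.1 * w k.2) = kl m n (pr v) * kr m n (pr w) := by
  change _ = (pr v ⊗ₖ 1) * (1 ⊗ₖ pr w)
  rw [← Matrix.mul_kronecker_mul, mul_one, one_mul]
  ext a b
  simp only [pr, Matrix.of_apply, Matrix.kroneckerMap_apply]
  push_cast
  ring

theorem kl_kr (a : Matrix m m ℂ) (b : Matrix n n ℂ) : Commute (kl m n a) (kr m n b) := by
  change (a ⊗ₖ 1) * (1 ⊗ₖ b) = (1 ⊗ₖ b) * (a ⊗ₖ 1)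
  simp [← Matrix.mul_kronecker_mul]

/-- Diagonal matrix units. -/
def dg (i : n) : Matrix n n ℂ := pr (Pi.single i 1)

theorem dg_sq (i : n) : dg i * dg i = dg i := pr_sq (by simp)

theorem dg_orth (i j : n) (h : i ≠ j) : dg i * dg j = 0 := pr_orth (by simp [h])

theorem sum_dg : ∑ i : n, dg i = 1 := by
  ext a b
  simp [dg, pr, Matrix.sum_apply, Pi.single_apply, Matrix.one_apply, apply_ite Complex.ofReal,
    eq_comm]

theorem dg_kl (i : m) (j : n) : dg (i, j) = kl m n (dg i) * kr m n (dg j) := by
  rw [dg, dg, dg, ← pr_kl]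
  congr 1
  ext ⟨a, b⟩
  by_cases h : b = j <;> simp [Pi.single_apply, h]

variable {p q : ℕ}

/-- The unit vectors. -/
noncomputable def xi (i : Fin (p + 2)) (j : Fin (q + 2)) (r t : ℝ) : Fin (p + 2) × Fin (q + 2) → ℝ :=
  √(1 - r) • Pi.single (i, j) 1 + √(r * (1 - t)) • Pi.single (i + 1, j) 1 +
    √(r * t) • Pi.single (i, j + 1) 1

theorem succ_ne (i : Fin (p + 2)) : i + 1 ≠ i := by simp

theorem xi_sq (i : Fin (p + 2)) (j : Fin (q + 2)) (r t : I) : xi i j r t ⬝ᵥ xi i j r t = 1 := by
  have h1 := Real.mul_self_sqrt (sub_nonneg.2 r.2.2)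
  have h2 := Real.mul_self_sqrt (mul_nonneg r.2.1 (sub_nonneg.2 t.2.2))
  have h3 := Real.mul_self_sqrt (mul_nonneg r.2.1 t.2.1)
  simp only [xi, add_dotProduct, dotProduct_add, smul_dotProduct, dotProduct_smul,
    single_dotProduct, Pi.single_apply, Prod.mk.injEq, succ_ne, (succ_ne _).symm, smul_eq_mul]
  simp only [and_self, and_false, false_and, if_true, if_false, mul_one, mul_zero, add_zero,
    zero_add]
  linarith

/-- The projections. -/
noncomputable def PP (i : Fin (p + 2)) (j : Fin (q + 2)) : C(I × I, Mat (p + 2) (q + 2)) :=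
  ⟨fun x => pr (xi i j x.1 x.2), by
    refine continuous_matrix fun a b => ?_
    simp only [pr, xi, Matrix.of_apply, Pi.add_apply, Pi.smul_apply, smul_eq_mul]
    fun_prop⟩

theorem PP_apply (i : Fin (p + 2)) (j : Fin (q + 2)) (r t : I) :
    PP i j (r, t) = pr (xi i j r t) := rfl

theorem PP_left (i : Fin (p + 2)) (j : Fin (q + 2)) (r : I) : PP i j (r, 0) =
    kl _ _ (pr (√(1 - r : ℝ) • Pi.single i 1 + √(r : ℝ) • Pi.single (i + 1) 1)) * kr _ _ (dg j) := by
  rw [PP_apply, dg, ← pr_kl]
  congr 1
  ext ⟨a, b⟩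
  by_cases h : b = j <;> simp [xi, Pi.single_apply, h]

theorem PP_right (i : Fin (p + 2)) (j : Fin (q + 2)) (r : I) : PP i j (r, 1) =
    kr _ _ (pr (√(1 - r : ℝ) • Pi.single j 1 + √(r : ℝ) • Pi.single (j + 1) 1)) * kl _ _ (dg i) := by
  rw [PP_apply, dg, ← (kl_kr _ _).eq, ← pr_kl]
  congr 1
  ext ⟨a, b⟩
  by_cases h : a = i <;> simp [xi, Pi.single_apply, h]

theorem PP_zero (i : Fin (p + 2)) (j : Fin (q + 2)) (t : I) : PP i j (0, t) = dg (i, j) := by
  simp [PP_apply, dg, xi]

theorem xi_one (i : Fin (p + 2)) (j : Fin (q + 2)) (t : ℝ) :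
    Pi.single (i, j) 1 ⬝ᵥ xi i j 1 t = 0 := by
  simp [xi]

end mat

/-- Evaluation as a ring homomorphism. -/
def evR {X A : Type*} [TopologicalSpace X] [TopologicalSpace A] [Ring A] [IsTopologicalRing A]
    (x : X) : C(X, A) →+* A where
  toFun f := f x
  map_one' := rfl
  map_mul' _ _ := rfl
  map_zero' := rfl
  map_add' _ _ := rfl

/-- Slices of functions on the square. -/
def sl {A : Type*} [TopologicalSpace A] [Ring A] [IsTopologicalRing A] (r : I) :
    C(I × I, A) →+* C(I, A) where
  toFun f := f.curry r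
  map_one' := rfl
  map_mul' _ _ := rfl
  map_zero' := rfl
  map_add' _ _ := rfl

theorem sl_star {A : Type*} [TopologicalSpace A] [Ring A] [IsTopologicalRing A] [StarRing A]
    [ContinuousStar A] (r : I) (f : C(I × I, A)) : sl r (star f) = star (sl r f) := rfl

section main

variable {G : Type*} [Group G] {p q : ℕ} (u s : G)

/-- The path on the square. -/
noncomputable def W0 (p q : ℕ) (u s : G) : C(I × I, Mat (p + 2) (q + 2))[G] :=
  W u s (fun i j => .const _ (dg (i, j))) PP

theorem W0_mem : W0 p q u s ∈ Un _ G :=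
  W_mem (fun _ _ => ContinuousMap.ext fun _ => dg_sq _)
    (fun i j => ContinuousMap.ext fun x => pr_sq (xi_sq i j x.1 x.2))
    (fun _ _ => ContinuousMap.ext fun _ => star_pr _)
    (fun _ _ => ContinuousMap.ext fun _ => star_pr _) u s

theorem W0_dd (r : I) (g : G) : sl r ((W0 p q u s).coeff g) ∈ DimDrop (p + 2) (q + 2) := by
  have k : ∀ x, (W0 p q u s).coeff g x = (W u s (fun i j => dg (i, j)) fun i j => PP i j x).coeff g :=
    fun x => (coeff_mapRingHom (evR x) (W0 p q u s) g).symm.trans (by rw [W0, map_W]; rfl)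
  constructor
  · have := W_left (K := Mat (p + 2) (q + 2)) (kl (Fin (p + 2)) (Fin (q + 2))).toRingHom
      (e := fun j => kr (Fin (p + 2)) (Fin (q + 2)) (dg j))
      (fun j => by rw [← map_mul, dg_sq]) (fun i j h => by rw [← map_mul, dg_orth i j h, map_zero])
      (by rw [← map_sum, sum_dg, map_one]) (fun i a => (kl_kr _ _).symm) u s dg
      fun i => pr (√(1 - r : ℝ) • Pi.single i 1 + √(r : ℝ) • Pi.single (i + 1) 1)
    refine ⟨_, (k (r, 0)).trans ((congrArg (fun x => x.coeff g) (Eq.trans ?_ this)).trans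
      (coeff_mapRingHom _ _ g))⟩
    simp only [PP_left, dg_kl]
    rfl
  · have := W_right (K := Mat (p + 2) (q + 2)) (kr (Fin (p + 2)) (Fin (q + 2))).toRingHom
      (e := fun j => kl (Fin (p + 2)) (Fin (q + 2)) (dg j))
      (fun j => by rw [← map_mul, dg_sq]) (fun i j h => by rw [← map_mul, dg_orth i j h, map_zero])
      (by rw [← map_sum, sum_dg, map_one]) (fun i a => kl_kr _ _) u s dg
      fun i => pr (√(1 - r : ℝ) • Pi.single i 1 + √(r : ℝ) • Pi.single (i + 1) 1)
    refine ⟨_, (k (r, 1)).trans ((congrArg (fun x => x.coeff g) (Eq.trans ?_ this)).trans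
      (coeff_mapRingHom _ _ g))⟩
    simp only [PP_right, dg_kl, (kl_kr _ _).eq]
    rfl

theorem W0_zero : mapRingHom G (sl 0) (W0 p q u s) = single (u * s * u⁻¹ * s⁻¹) 1 := by
  rw [W0, map_W]
  have : (fun i j => sl 0 (PP (p := p) (q := q) i j)) = fun i j => sl 0 (.const _ (dg (i, j))) :=
    funext fun i => funext fun j => ContinuousMap.ext fun t => PP_zero i j t
  rw [this]
  refine W_self (fun _ _ => ContinuousMap.ext fun _ => dg_sq _)
    (fun _ _ _ _ h => ContinuousMap.ext fun _ => dg_orth _ _ h) (ContinuousMap.ext fun t => ?_) u s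
  simp only [ContinuousMap.coe_sum, Finset.sum_apply]
  exact (Fintype.sum_prod_type dg).symm.trans sum_dg

theorem W0_one : mapRingHom G (sl 1) (W0 p q u s) = 1 := by
  rw [W0, map_W]
  exact W_orth (fun _ _ => ContinuousMap.ext fun _ => dg_sq _)
    (fun i j => ContinuousMap.ext fun x => pr_sq (xi_sq i j 1 x))
    (fun i j => ContinuousMap.ext fun x => pr_orth (xi_one i j x))
    (fun i j => ContinuousMap.ext fun x => pr_orth ((dotProduct_comm _ _).trans (xi_one i j x))) u s

theorem exists_path' {V : C(I × I, Mat p q)[G]} (h1 : V ∈ Un _ G)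
    (h2 : ∀ r g, sl r (V.coeff g) ∈ DimDrop p q) {a : G}
    (h3 : mapRingHom G (sl 0) V = single a 1) (h4 : mapRingHom G (sl 1) V = 1) :
    ∃ (S : Finset G) (w : I → (DD p q)[G]), (∀ r, w r ∈ Un _ G) ∧ w 0 = single a 1 ∧ w 1 = 1 ∧
      (∀ r, w r = ∑ g ∈ S, single g ((w r).coeff g)) ∧
      ∀ g, Continuous fun r => (w r).coeff g := by
  let v : DD p q →+* C(I, Mat p q) := DD.val.toRingHom
  have vi : Function.Injective (mapRingHom G v) := map_injective _ DD.val_inj
  choose w hu hw using fun r => pull v DD.val_inj (fun _ => rfl) (sl r) (sl_star r) h1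
    fun g => ⟨⟨_, h2 r g⟩, rfl⟩
  have hc : ∀ r g, v ((w r).coeff g) = (V.coeff g).curry r := fun r g => by
    rw [← coeff_mapRingHom, hw, coeff_mapRingHom]; rfl
  refine ⟨V.coeff.support, w, hu, vi ?_, vi ?_, fun r => ?_, fun g => ?_⟩
  · rw [hw, h3, mapRingHom_single, map_one]
  · rw [hw, h4, map_one]
  · refine (sum_coeff_single (w r)).symm.trans (Finsupp.sum_of_support_subset _ (fun g hg => ?_) _
      fun _ _ => single_zero _)
    rw [Finsupp.mem_support_iff] at hg ⊢
    refine fun h0 => hg (DD.val_inj ?_)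
    rw [map_zero]
    exact (hc r g).trans (by rw [h0]; rfl)
  · refine continuous_induced_rng.2 ?_
    exact ((V.coeff g).curry.continuous).congr fun r => (hc r g).symm

theorem exists_path : ∃ (S : Finset G) (w : I → (DD (p + 2) (q + 2))[G]),
    (∀ r, w r ∈ Un _ G) ∧ w 0 = single (u * s * u⁻¹ * s⁻¹) 1 ∧ w 1 = 1 ∧
    (∀ r, w r = ∑ g ∈ S, single g ((w r).coeff g)) ∧ ∀ g, Continuous fun r => (w r).coeff g :=
  exists_path' (W0_mem u s) (W0_dd u s) (W0_zero u s) (W0_one u s)

end main

end Com

open Com in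
theorem comS : ComS := by
  intro Q _ p q hp hq θ u hu s hs h1 h2
  obtain ⟨p, rfl⟩ : ∃ k, p = k + 2 := ⟨p - 2, by omega⟩
  obtain ⟨q, rfl⟩ : ∃ k, q = k + 2 := ⟨q - 2, by omega⟩
  let φ : unitary (Cm θ) →* Q := (Cm θ).subtype.toMonoidHom.comp (unitary _).subtype
  let Φ := liftNCRingHom (θ : _ →+* Q) φ fun x y => (mem_Cm.1 y.1.2 x).symm
  have e1 : ∀ g a, Φ (single g a) = θ a * φ g := fun g a => liftNCRingHom_single ..
  have e2 : ∀ x, Φ (st x) = star (Φ x) := fun x => by
    induction x using induction_linear with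
    | zero => simp
    | add a b ha hb => simp only [map_add, star_add, ha, hb]
    | single g a =>
      rw [st_single, e1, e1, star_mul, ← map_star θ]
      exact (mem_Cm.1 (g⁻¹).1.2 _).symm.eq
  let u' : unitary (Cm θ) := ⟨⟨u, mem_Cm.2 h1⟩, Subtype.ext hu.1, Subtype.ext hu.2⟩
  let s' : unitary (Cm θ) := ⟨⟨s, mem_Cm.2 h2⟩, Subtype.ext hs.1, Subtype.ext hs.2⟩
  obtain ⟨S, w, w1, w2, w3, w4, w5⟩ := exists_path (p := p) (q := q) u' s'
  have un : ∀ r, Φ (w r) ∈ unitary Q := fun r =>
    ⟨by rw [← e2, ← map_mul, (w1 r).1, map_one], by rw [← e2, ← map_mul, (w1 r).2, map_one]⟩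
  have co : Continuous fun r => Φ (w r) := by
    have : (fun r => Φ (w r)) = fun r => ∑ g ∈ S, θ ((w r).coeff g) * φ g := funext fun r => by
      conv_lhs => rw [w4 r]
      simp only [map_sum, e1]
    rw [this]
    exact continuous_finsetSum _ fun g _ => ((hom_cont θ).comp (w5 g)).mul continuous_const
  have j : Joined (⟨Φ (w 0), un 0⟩ : unitary Q) 1 :=
    ⟨⟨⟨fun r => ⟨Φ (w r), un r⟩, co.subtype_mk _⟩, rfl, Subtype.ext (by
      change Φ (w 1) = 1
      rw [w3, map_one])⟩⟩
  obtain ⟨l, hl⟩ := Unitary.mem_pathComponentOne_iff.1 (mem_pathComponent_iff.2 j.symm)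
  refine ⟨l, ?_⟩
  rw [exps, hl]
  change Φ (w 0) = _
  rw [w2, e1, map_one, one_mul]
  rfl

end Vale.Agent.P095
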