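import Vale.Agent.P095.Basic

/-! Trace inequalities and the restriction to the commutant of an orbit. -/

open Filter Topology TopologicalSpace
open scoped unitInterval

namespace Vale.Agent.P095

open Vale.Agent.P101

section

variable {M : Type*} [CStarAlgebra M] {τ : M →ₗ[ℝ] ℝ} {a a' H : M}

theorem con_cont (h : IsRT τ) : Continuous τ :=
  AddMonoidHomClass.continuous_of_bound τ (τ 1) fun x => by
    rw [mul_comm]; exact h.abs_le x

/-- The functional calculus of a positive element, rescaled to the unit interval. -/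
theorem con_lam (ha : Pos a) : ∃ (Λ : C(I, ℝ) →⋆ₐ[ℝ] M) (R : ℝ), 0 < R ∧ Continuous Λ ∧
    (∀ f : C(I, ℝ), (∀ x, 0 ≤ f x) → Pos (Λ f)) ∧
    ∀ (φ : ℝ → ℝ) (f : C(I, ℝ)), Continuous φ → (∀ x : I, f x = φ (R * x)) → Λ f = cfc φ a := by
  have hR : 0 < ‖a‖ + 1 := by positivity
  have hs : ∀ s : spectrum ℝ a, (s : ℝ) / (‖a‖ + 1) ∈ I := fun s =>
    ⟨div_nonneg (ha.spec s s.2) hR.le, (div_le_one hR).2 (by
      have h1 := spectrum.norm_le_norm_mul_of_mem s.2
      have h2 := le_abs_self (s : ℝ)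
      rw [Real.norm_eq_abs] at h1
      nlinarith [norm_one_le' (M := M), norm_nonneg a])⟩
  let r : C(spectrum ℝ a, I) := ⟨fun s => ⟨_, hs s⟩, by fun_prop⟩
  refine ⟨(cfcHom ha.sa).comp (r.compStarAlgHom' ℝ ℝ), ‖a‖ + 1, hR,
    (cfcHom_continuous ha.sa).comp r.continuous_precomp, fun f hf => ?_, fun φ f hφ hf => ?_⟩
  · let _ := CStarAlgebra.spectralOrder M
    have := CStarAlgebra.spectralOrderedRing M
    exact pos_iff.2 ((cfcHom_nonneg_iff ha.sa).2 fun s => hf (r s))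
  · rw [cfc_apply φ a ha.sa hφ.continuousOn]
    refine congrArg (cfcHom ha.sa) (ContinuousMap.ext fun s => (hf (r s)).trans ?_)
    exact congrArg φ (mul_div_cancel₀ _ hR.ne')

/-- Joint positivity. -/
theorem con_joint (h : IsRT τ) (ha : Pos a) (ha' : Pos a') :
    ∃ W : Submodule ℝ ((ℝ → ℝ → ℝ) × ℝ),
      (∀ φ ψ : ℝ → ℝ, Continuous φ → Continuous ψ →
        (fun s s' => φ s * ψ s', τ (cfc φ a * cfc ψ a')) ∈ W) ∧
      ∀ p ∈ W, (∀ s s', 0 ≤ s → 0 ≤ s' → 0 ≤ p.1 s s') → 0 ≤ p.2 := by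
  obtain ⟨Λ, R, hR, hΛ, h1, h2⟩ := con_lam ha
  refine ⟨⟨⟨⟨{p | (∀ s, Continuous (p.1 s)) ∧ Tendsto (fun n : ℕ => ∑ k : Fin (n + 1),
      τ (Λ (bernstein n k) * cfc (p.1 (R * bernstein.z k)) a')) atTop (𝓝 p.2)}, ?_⟩, ?_⟩, ?_⟩,
      fun φ ψ hφ hψ => ⟨fun s => continuous_const.mul hψ, ?_⟩, fun p hp h0 => ?_⟩
  · rintro p q ⟨p1, p2⟩ ⟨q1, q2⟩
    refine ⟨fun s => (p1 s).add (q1 s), (p2.add q2).congr fun n => ?_⟩
    rw [← Finset.sum_add_distrib]
    refine Finset.sum_congr rfl fun k _ => ?_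
    rw [← map_add, ← mul_add, ← cfc_add a' _ _ (p1 _).continuousOn (q1 _).continuousOn]
    rfl
  · refine ⟨fun s => continuous_const, tendsto_const_nhds.congr fun n => ?_⟩
    simp
  · rintro c p ⟨p1, p2⟩
    refine ⟨fun s => (p1 s).const_smul c, (p2.const_smul c).congr fun n => ?_⟩
    rw [Finset.smul_sum]
    refine Finset.sum_congr rfl fun k _ => ?_
    rw [← map_smul, ← mul_smul_comm, ← cfc_smul c _ a' (p1 _).continuousOn]
    rfl
  · let f : C(I, ℝ) := ⟨fun x => φ (R * x), by fun_prop⟩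
    have h3 := (((con_cont h).comp (hΛ.fun_mul (continuous_const (y := cfc ψ a')))).tendsto f).comp
      (bernsteinApproximation_uniform f)
    simp only [Function.comp_def, h2 φ f hφ fun _ => rfl] at h3
    refine h3.congr fun n => ?_
    rw [bernsteinApproximation, map_sum, Finset.sum_mul, map_sum]
    refine Finset.sum_congr rfl fun k _ => ?_
    have e : bernstein n k • ContinuousMap.const I (f (bernstein.z k)) =
        f (bernstein.z k) • bernstein n k := by
      ext x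
      simp [mul_comm]
    rw [e, map_smul, cfc_const_mul _ ψ a' hψ.continuousOn, smul_mul_assoc, mul_smul_comm]
    rfl
  · refine ge_of_tendsto' hp.2 fun n => Finset.sum_nonneg fun k _ => ?_
    exact h.mul_nonneg (h1 _ fun x => bernstein_nonneg) (Pos.cfc fun t ht =>
      h0 _ _ (mul_nonneg hR.le (bernstein.z k).2.1) (ha'.spec t ht))

theorem con_one (h : IsRT τ) (hH : Pos H) (ha : Pos (a - H)) :
    nu τ (cfc Real.sqrt a - cfc Real.sqrt H) ^ 2 ≤ τ (a - H) := by
  have ha0 : Pos a := by simpa using ha.add hH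
  have sq : ∀ x : M, Pos x → cfc Real.sqrt x * cfc Real.sqrt x = x := fun x hx => by
    have := hx.sa
    rw [← cfc_mul ..]
    nth_rw 2 [← cfc_id' ℝ x]
    exact cfc_congr fun t ht => Real.mul_self_sqrt (hx.spec t ht)
  have h1 : Pos (cfc Real.sqrt a - cfc Real.sqrt H) := by
    let _ := CStarAlgebra.spectralOrder M
    have := CStarAlgebra.spectralOrderedRing M
    have h2 := CFC.sqrt_le_sqrt _ _ (sub_nonneg.1 (pos_iff.1 ha))
    rw [CFC.sqrt_eq_real_sqrt _ (pos_iff.1 ha0), CFC.sqrt_eq_real_sqrt _ (pos_iff.1 hH),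
      cfcₙ_eq_cfc, cfcₙ_eq_cfc] at h2
    exact pos_iff.2 (sub_nonneg.2 h2)
  have h2 := h.mul_nonneg h1 (Pos.cfc (x := H) fun t _ => Real.sqrt_nonneg t)
  have h3 := h.comm (cfc Real.sqrt a) (cfc Real.sqrt H)
  rw [h.nu_sq_sa h1.sa]
  simp only [mul_sub, sub_mul, map_sub, sq a ha0, sq H hH] at h2 ⊢
  linarith

theorem con_lev_cont (η : ℝ) (l : ℕ) : Continuous (lev η l) := by
  unfold lev; fun_prop

theorem con_lev_sum {η s : ℝ} (hη : 0 < η) (hs : 0 ≤ s) (L : ℕ) :
    η * ∑ l ∈ Finset.range L, lev η l s = min s (L * η) := by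
  induction L with
  | zero => simp [hs]
  | succ L ih =>
    rw [Finset.sum_range_succ, mul_add, ih, lev, mul_max_of_nonneg _ _ hη.le,
      mul_min_of_nonneg _ _ hη.le, mul_div_cancel₀ _ hη.ne']
    push_cast
    simp only [min_def, max_def]
    split_ifs <;> linarith

theorem con_lev_le {η s s' : ℝ} (hη : 0 < η) (hs : 0 ≤ s) (h : s ≤ s') (L : ℕ) :
    η * ∑ l ∈ Finset.range L, (lev η l s - lev η l s') ^ 2 ≤ s' - s := by
  have h1 : ∑ l ∈ Finset.range L, (lev η l s - lev η l s') ^ 2 ≤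
      ∑ l ∈ Finset.range L, (lev η l s' - lev η l s) := Finset.sum_le_sum fun l _ => by
    have e1 : lev η l s ≤ lev η l s' := max_le_max le_rfl (min_le_min le_rfl (by gcongr))
    have e2 : 0 ≤ lev η l s := le_max_left _ _
    have e3 : lev η l s' ≤ 1 := max_le zero_le_one (min_le_left _ _)
    nlinarith
  refine (mul_le_mul_of_nonneg_left h1 hη.le).trans ?_
  rw [Finset.sum_sub_distrib, mul_sub, con_lev_sum hη hs, con_lev_sum hη (hs.trans h)]
  simp only [min_def]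
  split_ifs <;> linarith

theorem con_pt {η t s s' : ℝ} (hη : 0 < η) (ht : 0 < t) (hs : 0 ≤ s) (hs' : 0 ≤ s') (L : ℕ) :
    η * ∑ l ∈ Finset.range L, (lev η l s - lev η l s') ^ 2 ≤
      t / 2 * (√s - √s') ^ 2 + t⁻¹ * (s + s') := by
  have key : ∀ x y : ℝ, x ^ 2 - y ^ 2 ≤ t / 2 * (x - y) ^ 2 + t⁻¹ * (x ^ 2 + y ^ 2) := fun x y => by
    have h1 : 0 ≤ t⁻¹ * ((t * (x - y) - (x + y)) ^ 2 + (x - y) ^ 2) := by positivity
    have h2 : t⁻¹ * ((t * (x - y) - (x + y)) ^ 2 + (x - y) ^ 2) =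
        2 * (t / 2 * (x - y) ^ 2 + t⁻¹ * (x ^ 2 + y ^ 2) - (x ^ 2 - y ^ 2)) := by
      field_simp
      ring
    linarith
  rcases le_total s s' with h | h
  · have := key √s' √s
    rw [Real.sq_sqrt hs, Real.sq_sqrt hs', sub_sq_comm, add_comm s'] at this
    exact (con_lev_le hη hs h L).trans this
  · have := key √s √s'
    rw [Real.sq_sqrt hs, Real.sq_sqrt hs'] at this
    simp only [sub_sq_comm (lev η _ s)]
    exact (con_lev_le hη hs' h L).trans this

theorem con_two (h : IsRT τ) (hH : Pos H) (ha : Pos (a - H)) (ha' : Pos (a' - H)) {η t : ℝ}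
    (hη : 0 < η) (ht : 0 < t) (L : ℕ) :
    η * ∑ l ∈ Finset.range L, nu τ (cfc (lev η l) a - cfc (lev η l) a') ^ 2 ≤
      t * (τ (a - H) + τ (a' - H)) + (τ a + τ a') / t := by
  have ha0 : Pos a := by simpa using ha.add hH
  have ha0' : Pos a' := by simpa using ha'.add hH
  have s1 := ha0.sa
  have s2 := ha0'.sa
  obtain ⟨W, h1, h2⟩ := con_joint h ha0 ha0'
  have q : ∀ f : ℝ → ℝ, Continuous f →
      (fun s s' => (f s - f s') ^ 2, nu τ (cfc f a - cfc f a') ^ 2) ∈ W := fun f hf => by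
    have := W.add_mem (W.sub_mem (h1 _ _ (hf.fun_mul hf) (continuous_const (y := 1)))
      (W.smul_mem 2 (h1 _ _ hf hf))) (h1 _ _ (continuous_const (y := 1)) (hf.fun_mul hf))
    refine (congrArg (· ∈ W) (Prod.ext ?_ ?_)).mp this
    · ext s s'
      simp only [Prod.fst_add, Prod.fst_sub, Prod.smul_fst, Pi.add_apply, Pi.sub_apply,
        Pi.smul_apply, smul_eq_mul]
      ring
    · have := h.comm (cfc f a) (cfc f a')
      rw [h.nu_sq_sa (IsSelfAdjoint.cfc.sub IsSelfAdjoint.cfc)]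
      simp only [Prod.snd_add, Prod.snd_sub, Prod.smul_snd, smul_eq_mul, cfc_const_one ℝ a,
        cfc_const_one ℝ a', cfc_mul f f _ hf.continuousOn hf.continuousOn, mul_one, one_mul,
        mul_sub, sub_mul, map_sub]
      linarith
  have h3 := h2 _ (W.sub_mem (W.add_mem (W.smul_mem (t / 2) (q _ Real.continuous_sqrt))
    (W.smul_mem t⁻¹ (W.add_mem (h1 _ _ continuous_id' (continuous_const (y := 1)))
      (h1 _ _ (continuous_const (y := 1)) continuous_id'))))
    (W.smul_mem η (W.sum_mem (t := Finset.range L) fun l _ => q _ (con_lev_cont η l))))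
    fun s s' hs hs' => by
      simpa only [Prod.fst_add, Prod.fst_sub, Prod.smul_fst, Prod.fst_sum, Pi.add_apply,
        Pi.sub_apply, Pi.smul_apply, smul_eq_mul, Finset.sum_apply, mul_one, one_mul, sub_nonneg]
        using con_pt hη ht hs hs' L
  simp only [Prod.snd_add, Prod.snd_sub, Prod.smul_snd, Prod.snd_sum, smul_eq_mul,
    cfc_const_one ℝ a, cfc_const_one ℝ a', cfc_id' ℝ a, cfc_id' ℝ a', mul_one, one_mul,
    sub_nonneg] at h3
  have h4 := h.nu_sub_le (cfc Real.sqrt a - cfc Real.sqrt H) (cfc Real.sqrt a' - cfc Real.sqrt H)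
  rw [sub_sub_sub_cancel_right] at h4
  have h5 := pow_le_pow_left₀ (nu_nonneg _ _) h4 2
  have h6 := con_one h hH ha
  have h7 := con_one h hH ha'
  have h8 : nu τ (cfc Real.sqrt a - cfc Real.sqrt a') ^ 2 ≤ 2 * (τ (a - H) + τ (a' - H)) := by
    nlinarith [sq_nonneg (nu τ (cfc Real.sqrt a - cfc Real.sqrt H) -
      nu τ (cfc Real.sqrt a' - cfc Real.sqrt H))]
  rw [div_eq_inv_mul]
  nlinarith [mul_le_mul_of_nonneg_left h8 ht.le]

theorem con_three (h : IsRT τ) {ι : Type} [Fintype ι] {P : ι → M} {κ : ℝ → ℝ}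
    (hP : ∀ i, Prj (P i)) (hκ : Continuous κ) (h0 : ∀ s, 0 ≤ κ s) (h1 : ∀ s, 0 ≤ s → s * κ s ≤ 1) :
    τ (cfc (fun s => s * κ s) (∑ i, P i)) ≤ τ (∑ i, P i) := by
  classical
  have hp : Pos (∑ i, P i) := Pos.sum fun i _ => (hP i).pos
  have sa := hp.sa
  obtain ⟨k, hk, e1, e2⟩ := (Pos.cfc (x := ∑ i, P i) (f := κ) fun t _ => h0 t).sqrt
  have e3 : cfc (fun s => s * κ s) (∑ i, P i) = (∑ i, P i) * (k * k) := by
    rw [cfc_mul _ _ _ (continuousOn_id' _) hκ.continuousOn, cfc_id' ℝ _, e1]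
  have e4 : Commute k (∑ i, P i) := e2 _ ((Commute.refl _).cfc_real κ)
  have e5 : ‖star k * (∑ i, P i) * k‖ ≤ 1 := by
    rw [hk.sa.star_eq, e4.eq, mul_assoc, ← e3]
    refine norm_cfc_le zero_le_one fun t ht => ?_
    have := hp.spec t ht
    rw [Real.norm_of_nonneg (mul_nonneg this (h0 t))]
    exact h1 t this
  rw [e3, Finset.sum_mul, map_sum, map_sum]
  refine Finset.sum_le_sum fun i _ => ?_
  have e6 : ‖star k * P i * k‖ ≤ 1 := by
    refine (((hP i).pos.conj k).norm_le ?_).trans e5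
    rw [← sub_mul, ← mul_sub, ← Finset.add_sum_erase _ _ (Finset.mem_univ i), add_sub_cancel_left]
    exact (Pos.sum fun j _ => (hP j).pos).conj k
  have e7 : ‖P i * k * star (P i * k)‖ ≤ 1 := by
    rw [CStarRing.norm_self_mul_star, ← CStarRing.norm_star_mul_self, star_mul, (hP i).sa.star_eq,
      mul_assoc, ← mul_assoc (P i), (hP i).sq, ← mul_assoc]
    exact e6
  have e8 := (le_abs_self _).trans (h.abs_mul_le (hP i).pos (P i * k * star (P i * k)))
  refine le_trans (le_of_eq ?_) (e8.trans (mul_le_of_le_one_left (h.nonneg (hP i).pos) e7))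
  rw [star_mul, (hP i).sa.star_eq, hk.sa.star_eq, mul_assoc, mul_assoc k, (hP i).sq,
    ← mul_assoc (P i * k), h.comm _ (P i), ← mul_assoc, ← mul_assoc, ← mul_assoc, (hP i).sq]

end

theorem conS : ConS := fun _ _ _ h =>
  ⟨fun _ _ hH ha => con_one h hH ha,
    fun _ _ _ hH ha ha' _ _ hη ht L => con_two h hH ha ha' hη ht L,
    fun _ _ _ _ hP hκ h0 h1 => con_three h hP hκ h0 h1⟩

theorem resS : ResS := by
  intro G M _ _ _ α hF S hS
  let O : Set M := ⋃ g, α g '' S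
  have hO : IsSeparable O :=
    IsSeparable.iUnion fun g => hS.image (hom_cont (α g : M →⋆ₐ[ℂ] M))
  let N := StarSubalgebra.centralizer ℂ O
  have : IsClosed (N : Set M) := Set.isClosed_centralizer _
  have mem : ∀ x, x ∈ N ↔ ∀ g, ∀ s ∈ S, Commute (α g s) x ∧ Commute (α g (star s)) x := fun x => by
    rw [StarSubalgebra.mem_centralizer_iff]
    constructor
    · intro h g s hs
      rw [map_star]
      exact h _ (Set.mem_iUnion.2 ⟨g, s, hs, rfl⟩)
    · intro h y hy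
      obtain ⟨g, s, hs, rfl⟩ := Set.mem_iUnion.1 hy
      rw [← map_star]
      exact h g s hs
  have inv : ∀ g (x : N), α g x ∈ N := fun g x => (mem _).2 fun g' s hs => by
    have := (mem _).1 x.2 (g⁻¹ * g') s hs
    rw [← mul_inv_cancel_left g g', ← act_mul α g _ s, ← act_mul α g _ (star s)]
    exact ⟨this.1.map _, this.2.map _⟩
  have sa : ∀ X, IsSelfAdjoint X → (∀ s ∈ O, Commute X s) → X ∈ N := fun X hX h =>
    (mem _).2 fun g s hs => by
      have := h _ (Set.mem_iUnion.2 ⟨g, s, hs, rfl⟩)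
      refine ⟨this.symm, ?_⟩
      rw [map_star, ← hX.star_eq]
      exact this.symm.star_star
  refine ⟨N, inferInstance, mkAct
    (fun g => ((α g : M →⋆ₐ[ℂ] M).comp N.subtype).codRestrict N (inv g))
    (fun y => Subtype.ext (by simp)) fun g g' y => Subtype.ext (act_mul α g g' y), N.subtype,
    fun T hT => ?_, fun g x => rfl, fun x g s hs => ((mem _).1 x.2 g s hs).1.symm⟩
  obtain ⟨X, Z, hp, h⟩ := hF _ (hO.union (hT.image continuous_subtype_val))
  refine ⟨⟨X, sa X hp.sx fun s hs => (h s (Or.inl hs)).1⟩,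
    ⟨Z, sa Z hp.sz fun s hs => (h s (Or.inl hs)).2⟩,
    ⟨Subtype.ext hp.sx, Subtype.ext hp.sz, Subtype.ext hp.xx, Subtype.ext hp.zz,
      Subtype.ext hp.xz⟩, fun s hs => ?_⟩
  have := h s (Or.inr ⟨s, hs, rfl⟩)
  exact ⟨Subtype.ext this.1, Subtype.ext this.2⟩

end Vale.Agent.P095
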