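import Vale.Agent.P095.Sat

/-! Saturation of the central sequence algebra and independent copies. -/

open Filter Topology TopologicalSpace BoundedContinuousFunction
open scoped BoundedContinuousFunction

namespace Vale.Agent.P095

open Vale.Agent.P101

theorem eq_zero_of_sat {U : Type*} [CStarAlgebra U] {ω : Ultrafilter ℕ} {t : (ℕ →ᵇ U) × U}
    (h : Tendsto (fun m => ‖t.1 m‖) ω (𝓝 ‖t.2‖)) (h0 : ∀ m, t.1 m = 0) : t.2 = 0 :=
  norm_eq_zero.1 (tendsto_nhds_unique h (by simp [h0]))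

section

variable {G B : Type} [Group G] [CStarAlgebra B] {I : TwoSidedIdeal B} {α : Act G B} (c : Ctx I α)

theorem Ctx.descend (T : StarSubalgebra ℂ ((ℕ →ᵇ c.U) × c.U))
    (h1 : ∀ b, (const ℕ (c.j b), c.j b) ∈ T)
    (h2 : ∀ t ∈ T, ∀ g, (post (c.β g : c.U →⋆ₐ[ℂ] c.U) t.1, c.β g t.2) ∈ T)
    (h3 : ∀ t ∈ T, Tendsto (fun m => ‖t.1 m‖) c.ω (𝓝 ‖t.2‖)) :
    ∃ T' : StarSubalgebra ℂ ((ℕ →ᵇ c.F) × c.F),
      (∀ (x : ℕ →ᵇ Cm c.j) (y : c.U), (post (Cm c.j).subtype x, y) ∈ T →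
        ∃ hy, (post c.q x, c.q ⟨y, hy⟩) ∈ T') ∧
      (∀ t ∈ T', ∃ (x : ℕ →ᵇ Cm c.j) (y : Cm c.j), (post (Cm c.j).subtype x, (y : c.U)) ∈ T ∧
        t = (post c.q x, c.q y)) ∧
      (∀ t ∈ T', ∀ g, (post (c.γ g : c.F →⋆ₐ[ℂ] c.F) t.1, c.γ g t.2) ∈ T') ∧
      ∀ t ∈ T', Tendsto (fun m => ‖t.1 m‖) c.ω (𝓝 ‖t.2‖) := by
  let T₀ : StarSubalgebra ℂ ((ℕ →ᵇ Cm c.j) × Cm c.j) := T.comap
    (((post (Cm c.j).subtype).comp (StarAlgHom.fst ℂ _ _)).prod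
      ((Cm c.j).subtype.comp (StarAlgHom.snd ℂ _ _)))
  refine ⟨T₀.map (((post c.q).comp (StarAlgHom.fst ℂ _ _)).prod (c.q.comp (StarAlgHom.snd ℂ _ _))),
    fun x y h => ?_, ?_, ?_, ?_⟩
  · have hy : y ∈ Cm c.j := mem_Cm.2 fun b => sub_eq_zero.1 (eq_zero_of_sat (h3 _ (sub_mem
      (mul_mem h (h1 b)) (mul_mem (h1 b) h))) fun m => sub_eq_zero.2 (mem_Cm.1 (x m).2 b))
    exact ⟨hy, (x, ⟨y, hy⟩), h, rfl⟩
  · rintro _ ⟨t, ht, rfl⟩
    exact ⟨t.1, t.2, ht, rfl⟩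
  · rintro _ ⟨t, ht, rfl⟩ g
    let b : Cm c.j →⋆ₐ[ℂ] Cm c.j := ((c.β g : c.U →⋆ₐ[ℂ] c.U).comp (Cm c.j).subtype).codRestrict _
      fun x => c.β_mem g x.2
    exact ⟨(post b t.1, b t.2), h2 _ ht g,
      Prod.ext (BoundedContinuousFunction.ext fun n => c.q_β g _) (c.q_β g _)⟩
  · rintro _ ⟨t, ht, rfl⟩
    obtain ⟨a, ha, a0⟩ := c.sys.ne
    have := (h3 _ (mul_mem ht (h1 a))).div_const ‖a‖
    have e : ∀ x : Cm c.j, ‖(x : c.U) * c.j a‖ / ‖a‖ = ‖c.q x‖ := fun x => by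
      rw [c.isF.norm x a ha, mul_div_cancel_right₀ _ (norm_ne_zero_iff.2 a0)]
    exact (e t.2) ▸ this.congr fun m => e (t.1 m)

end

theorem satFS (h : SatS) : SatFS := by
  intro G B _ _ _ I α c ι _ X
  choose x hx using fun i => lift_seq c.isF.surj (X i)
  obtain ⟨Y, T, h1, -, h2, h3, h4⟩ := h G B I α c ι Empty (fun i => post (Cm c.j).subtype (x i))
    Empty.elim
  obtain ⟨T', t1, -, t2, t3⟩ := c.descend T h2 h3 h4
  choose hy e using fun i => t1 _ _ (h1 i)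
  exact ⟨fun i => c.q ⟨Y i, hy i⟩, T', fun i => hx i ▸ e i, t2, t3⟩

theorem copy_aux (h : SatS) {G B : Type} [Group G] [Countable G] [CStarAlgebra B]
    {I : TwoSidedIdeal B} {α : Act G B} (c : Ctx I α) (D : Type) [CStarAlgebra D]
    [SeparableSpace D] (θ : D →⋆ₐ[ℂ] c.F) (S : Set c.F) (hS : IsSeparable S) :
    ∃ θ' : D →⋆ₐ[ℂ] c.F, (∀ d, ∀ s ∈ S, Commute (θ' d) s ∧ ‖θ' d * s‖ = ‖θ d‖ * ‖s‖) ∧
      ∀ d d' g, ‖θ' d' - c.γ g (θ' d)‖ ≤ ‖θ d' - c.γ g (θ d)‖ := by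
  obtain ⟨C, hc1, hc2⟩ := hS
  obtain ⟨s₀, hs₀⟩ := (hc1.insert 0).exists_eq_range (Set.insert_nonempty _ _)
  choose s₁ hs₁ using fun k => c.isF.surj (s₀ k)
  choose s hs using fun k => c.ultra.surj (s₁ k)
  choose x hx using fun i => c.isF.surj (θ (denseSeq D i))
  obtain ⟨Y, T, h1, h0, h2, h3, h4⟩ := h G B I α c ℕ ℕ (fun i => const ℕ (x i)) s
  obtain ⟨T', t1, t0, t2, t3⟩ := c.descend T h2 h3 h4
  let E : StarSubalgebra ℂ (D × c.F) := T'.comap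
    (((cst.comp θ).comp (StarAlgHom.fst ℂ _ _)).prod (StarAlgHom.snd ℂ _ _))
  let p : E →⋆ₐ[ℂ] D := (StarAlgHom.fst ℂ _ _).comp E.subtype
  let q : E →⋆ₐ[ℂ] c.F := (StarAlgHom.snd ℂ _ _).comp E.subtype
  have dp : DenseRange p := (denseRange_denseSeq D).mono (by
    rintro _ ⟨i, rfl⟩
    obtain ⟨hy, e⟩ := t1 (const ℕ (x i)) _ (h1 i)
    refine ⟨⟨(denseSeq D i, c.q ⟨Y i, hy⟩), ?_⟩, rfl⟩
    convert e using 1
    change _ ∈ T' ↔ _
    congr! 2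
    exact BoundedContinuousFunction.ext fun n => (hx i).symm)
  have n1 : ∀ t : E, ‖q t‖ = ‖θ (p t)‖ := fun t =>
    tendsto_nhds_unique (t3 _ t.2) tendsto_const_nhds
  obtain ⟨θ', hθ'⟩ := exists_of_graph p q dp fun t => (n1 t).trans_le (hom_le _ _)
  refine ⟨θ', fun d y hy => ?_, fun d d' g => ?_⟩
  · refine closure_minimal (t := {y | θ' d * y = y * θ' d ∧ ‖θ' d * y‖ = ‖θ d‖ * ‖y‖})
      (fun y hy => ?_) ((isClosed_eq (by fun_prop) (by fun_prop)).inter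
        (isClosed_eq (by fun_prop) (by fun_prop))) (hc2 hy)
    obtain ⟨k, rfl⟩ : y ∈ Set.range s₀ := hs₀ ▸ Set.mem_insert_of_mem _ hy
    refine dp.induction_on
      (p := fun d => θ' d * s₀ k = s₀ k * θ' d ∧ ‖θ' d * s₀ k‖ = ‖θ d‖ * ‖s₀ k‖) d
      ((isClosed_eq (by fun_prop) (by fun_prop)).inter
        (isClosed_eq (by fun_prop) (by fun_prop))) fun t => ?_
    obtain ⟨a, b, hab, e⟩ := t0 _ t.2
    have e1 : ∀ m, c.q (a m) = θ (p t) := fun m => (congrArg (fun z => z.1 m) e).symm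
    have e2 : q t = c.q b := congrArg Prod.snd e
    rw [hθ', e2, ← hs₁, ← map_mul, ← map_mul]
    refine ⟨congrArg c.q (Subtype.ext ?_), ?_⟩
    · rw [MulMemClass.coe_mul, MulMemClass.coe_mul, ← hs]
      exact sub_eq_zero.1 (eq_zero_of_sat (h4 _ (sub_mem (mul_mem hab (h0 k))
        (mul_mem (h0 k) hab))) fun m => sub_eq_zero.2 (mem_Cm.1 (a m).2 _))
    · obtain ⟨a₀, ha, a0⟩ := c.sys.ne
      refine mul_right_cancel₀ (norm_ne_zero_iff.2 a0) ?_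
      rw [mul_assoc, ← c.isF.norm _ _ ha, ← c.isF.norm _ _ ha, MulMemClass.coe_mul, ← hs, mul_assoc]
      refine tendsto_nhds_unique (h4 _ (mul_mem hab (mul_mem (h0 k) (h2 a₀))))
        (((c.ultra.lim (s k * const ℕ a₀)).const_mul ‖θ (p t)‖).congr' (.of_forall fun m => ?_) |>.trans
          (by rw [map_mul]; rfl))
      rw [← e1 m]
      exact ((c.isF.norm (a m) _ (I.mul_mem_left _ _ ha)).symm.trans (by rw [map_mul]; rfl))
  · refine dp.induction_on₂ (p := fun d d' => ‖θ' d' - c.γ g (θ' d)‖ ≤ ‖θ d' - c.γ g (θ d)‖)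
      (isClosed_le ?_ ?_) (fun t t' => ?_) d d'
    · have : Continuous (c.γ g) := hom_cont (c.γ g : c.F →⋆ₐ[ℂ] c.F)
      fun_prop
    · have : Continuous (c.γ g) := hom_cont (c.γ g : c.F →⋆ₐ[ℂ] c.F)
      fun_prop
    · rw [hθ', hθ']
      exact (tendsto_nhds_unique (t3 _ (sub_mem t'.2 (t2 _ t.2 g))) tendsto_const_nhds).le

theorem copyS (h : SatS) : CopyS := by
  intro G B _ _ _ I α c
  refine ⟨copy_aux h c, fun D _ _ θ S hS => ?_, fun D _ _ θ S hS => ?_⟩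
  · exact (copy_aux h c D θ S hS).imp fun θ' h d s hs => (h.1 d s hs).1
  · obtain ⟨θ', h1, h2⟩ := copy_aux h c D ((Fix c.γ).subtype.comp θ) _
      (hS.image continuous_subtype_val)
    refine ⟨θ'.codRestrict _ fun d g => ?_, fun d s hs => Subtype.ext (h1 d _ ⟨s, hs, rfl⟩).1⟩
    have := h2 d d g
    rwa [show c.γ g (((Fix c.γ).subtype.comp θ) d) = _ from (θ d).2 g,
      show ((Fix c.γ).subtype.comp θ) d = (θ d : c.F) from rfl, sub_self, norm_zero,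
      norm_le_zero_iff, sub_eq_zero, eq_comm] at this

end Vale.Agent.P095
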