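import Vale.Agent.P095.Basic

/-! Chains of Pauli pairs with small overlaps. -/

open Filter Topology TopologicalSpace

namespace Vale.Agent.P095

open Vale.Agent.P101

section

variable {M : Type} [CStarAlgebra M]

theorem fam_prj {X : M} (hs : IsSelfAdjoint X) (hx : X * X = 1) : Prj (pj X) := by
  refine ⟨?_, ?_⟩
  · rw [IsSelfAdjoint, pj, star_smul, star_add, star_one, hs.star_eq, star_trivial]
  · rw [pj, smul_mul_smul_comm, add_mul, mul_add, mul_add, hx]
    simp only [one_mul, mul_one]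
    module

theorem fam_prj_mul {e f : M} (he : Prj e) (hf : Prj f) (h : Commute e f) : Prj (e * f) := by
  refine ⟨?_, ?_⟩
  · rw [IsSelfAdjoint, star_mul, he.sa.star_eq, hf.sa.star_eq, h.eq]
  · rw [mul_assoc, ← mul_assoc f, ← h.eq, mul_assoc, hf.sq, ← mul_assoc, he.sq]

theorem fam_comm_pj {X b : M} (h : Commute X b) : Commute (pj X) b :=
  ((Commute.one_left b).add_left h).smul_left _

theorem fam_step {τ : M →ₗ[ℝ] ℝ} (h : IsRT τ) {e e' x x' z z' : M} (he : Prj e) (he' : Prj e')
    (hp : Pauli x z) (hp' : Pauli x' z') (c1 : Commute e x) (c2 : Commute e x')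
    (c3 : Commute e' x) (c4 : Commute e' x') (c5 : Commute e z) (c6 : Commute e z')
    (c7 : Commute e' z) (c8 : Commute e' z') :
    nu τ (e' * e * (x - x')) ^ 2 = 4 * τ (e * e') - 8 * τ (e * pj x * (e' * pj x')) := by
  have b1 : τ (e * e' * x) = 0 := h.pauli hp (c5.mul_left c7)
  have b2 : τ (e * e' * x') = 0 := h.pauli hp' (c6.mul_left c8)
  have b3 : τ (e * e' * (x' * x)) = τ (e * e' * (x * x')) := by
    rw [← mul_assoc, h.comm, ← mul_assoc, ← (c1.mul_left c3).eq, mul_assoc]
  have cd : Commute e (x - x') := c1.sub_right c2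
  have e1 : τ (star (e' * e * (x - x')) * (e' * e * (x - x'))) =
      τ (e * e' * ((x - x') * (x - x'))) := by
    rw [star_mul, star_mul, star_sub, hp.sx.star_eq, hp'.sx.star_eq, he.sa.star_eq,
      he'.sa.star_eq, mul_assoc (x - x'), h.comm,
      show e * e' * (e' * e * (x - x')) * (x - x') =
        e * (e' * e') * (e * ((x - x') * (x - x'))) by noncomm_ring, he'.sq, (cd.mul_right cd).eq,
      ← mul_assoc, h.comm, ← mul_assoc e (e * e'), ← mul_assoc e e, he.sq]
  have e2 : e * e' * ((x - x') * (x - x')) =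
      e * e' + e * e' - e * e' * (x * x') - e * e' * (x' * x) := by
    rw [sub_mul, mul_sub x, mul_sub x', hp.xx, hp'.xx]
    noncomm_ring
  have e3 : e * pj x * (e' * pj x') =
      (1 / 4 : ℝ) • (e * e' + e * e' * x + e * e' * x' + e * e' * (x * x')) := by
    rw [mul_assoc, ← mul_assoc (pj x), (fam_comm_pj c3.symm).eq, mul_assoc, ← mul_assoc, pj, pj,
      smul_mul_smul_comm, mul_smul_comm]
    congr 1
    · norm_num
    · noncomm_ring
  rw [h.nu_sq, e1, e2, e3]
  simp only [map_sub, map_add, map_smul, smul_eq_mul, b1, b2, b3]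
  ring

/-- The chosen symmetry. -/
def famW (X Z : ℕ → M) (s : ℕ → Bool) (i : ℕ) : M := if s i then X i else Z i

/-- The other symmetry. -/
def famV (X Z : ℕ → M) (s : ℕ → Bool) (i : ℕ) : M := if s i then Z i else X i

/-- The decreasing projections. -/
noncomputable def famE (X Z : ℕ → M) (s : ℕ → Bool) : ℕ → M
  | 0 => 1
  | i + 1 => famE X Z s i * pj (famW X Z s i)

theorem famE_congr (X Z : ℕ → M) {s s' : ℕ → Bool} (i : ℕ) (h : ∀ j < i, s j = s' j) :
    famE X Z s i = famE X Z s' i := by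
  induction i with
  | zero => rfl
  | succ i ih =>
    rw [famE, famE, ih fun j hj => h j (by omega), famW, famW, h i (by omega)]

variable {G : Type} [Group G] (α : Act G M)

theorem fam_map_pj (g : G) (X : M) : α g (pj X) = pj (α g X) := by
  rw [pj, pj, map_rsmul, map_add, map_one]

/-- Independent Pauli pairs. -/
structure FamP (X Z : ℕ → M) : Prop where
  pauli : ∀ i, Pauli (X i) (Z i)
  cx : ∀ i j g g', i < j → Commute (α g (X i)) (α g' (X j)) ∧ Commute (α g (X i)) (α g' (Z j))
  cz : ∀ i j g g', i < j → Commute (α g (Z i)) (α g' (X j)) ∧ Commute (α g (Z i)) (α g' (Z j))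

theorem fam_shift {x y : M} (h : ∀ g, Commute y (α g x)) (g g' : G) :
    Commute (α g x) (α g' y) := by
  have := (h (g'⁻¹ * g)).map (α g')
  rw [act_mul, mul_inv_cancel_left] at this
  exact this.symm

theorem fam_exists [Countable G] (hF : FP M) : ∃ X Z, FamP α X Z := by
  obtain ⟨f, h1, h2⟩ := exists_seq_of_forall_finset_exists (fun p : M × M => Pauli p.1 p.2)
    (fun p p' => ∀ g, (Commute p'.1 (α g p.1) ∧ Commute p'.2 (α g p.1)) ∧
      Commute p'.1 (α g p.2) ∧ Commute p'.2 (α g p.2)) fun s _ => by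
    obtain ⟨X, Z, h1, h2⟩ := hF (Set.range (fun q : G × s => α q.1 q.2.1.1) ∪
      Set.range (fun q : G × s => α q.1 q.2.1.2))
      ((Set.countable_range _).union (Set.countable_range _)).isSeparable
    exact ⟨(X, Z), h1, fun p hp g => ⟨h2 _ (Or.inl ⟨(g, ⟨p, hp⟩), rfl⟩),
      h2 _ (Or.inr ⟨(g, ⟨p, hp⟩), rfl⟩)⟩⟩
  exact ⟨fun i => (f i).1, fun i => (f i).2, h1,
    fun i j g g' hij => ⟨fam_shift α (fun g => (h2 i j hij g).1.1) g g',
      fam_shift α (fun g => (h2 i j hij g).1.2) g g'⟩,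
    fun i j g g' hij => ⟨fam_shift α (fun g => (h2 i j hij g).2.1) g g',
      fam_shift α (fun g => (h2 i j hij g).2.2) g g'⟩⟩

variable {α} {X Z : ℕ → M}

theorem FamP.wv (h : FamP α X Z) (s : ℕ → Bool) (i : ℕ) : Pauli (famW X Z s i) (famV X Z s i) := by
  unfold famW famV
  split_ifs
  exacts [h.pauli i, (h.pauli i).symm]

theorem FamP.ce (h : FamP α X Z) (s : ℕ → Bool) (i j : ℕ) (g g' : G) (hij : i ≤ j) :
    Commute (α g (famE X Z s i)) (α g' (X j)) ∧ Commute (α g (famE X Z s i)) (α g' (Z j)) := by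
  induction i with
  | zero =>
    rw [famE, map_one]
    exact ⟨Commute.one_left _, Commute.one_left _⟩
  | succ i ih =>
    have h1 : Commute (α g (famW X Z s i)) (α g' (X j)) ∧
        Commute (α g (famW X Z s i)) (α g' (Z j)) := by
      unfold famW
      split_ifs
      exacts [h.cx i j g g' hij, h.cz i j g g' hij]
    rw [famE, map_mul, fam_map_pj]
    exact ⟨(ih (by omega)).1.mul_left (fam_comm_pj h1.1), (ih (by omega)).2.mul_left
      (fam_comm_pj h1.2)⟩

theorem FamP.cw (h : FamP α X Z) (s : ℕ → Bool) (i : ℕ) (g g' : G) :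
    Commute (α g (famE X Z s i)) (α g' (famW X Z s i)) ∧
      Commute (α g (famE X Z s i)) (α g' (famV X Z s i)) := by
  unfold famW famV
  split_ifs
  exacts [h.ce s i i g g' le_rfl, (h.ce s i i g g' le_rfl).symm]

theorem FamP.cw1 (h : FamP α X Z) (s : ℕ → Bool) (i : ℕ) :
    Commute (famE X Z s i) (famW X Z s i) ∧ Commute (famE X Z s i) (famV X Z s i) := by
  simpa using h.cw s i 1 1

theorem FamP.prj (h : FamP α X Z) (s : ℕ → Bool) (i : ℕ) : Prj (famE X Z s i) := by
  induction i with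
  | zero => exact ⟨IsSelfAdjoint.one M, one_mul _⟩
  | succ i ih =>
    exact fam_prj_mul ih (fam_prj (h.wv s i).sx (h.wv s i).xx) (fam_comm_pj (h.cw1 s i).1.symm).symm

theorem FamP.chain (h : FamP α X Z) (s : ℕ → Bool) : Chain α (famE X Z s) X Z := by
  refine ⟨h.prj s, h.pauli, h.ce s, h.cx, fun τ hτ i => ?_⟩
  induction i with
  | zero => simp [famE]
  | succ i ih =>
    rw [famE, pj, mul_smul_comm, mul_add, mul_one, map_smul, map_add,
      hτ.pauli (h.wv s i) (h.cw1 s i).2, ih, smul_eq_mul]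
    ring

theorem FamP.tele (h : FamP α X Z) (s : ℕ → Bool) {τ : M →ₗ[ℝ] ℝ} (hτ : IsRT τ) (g g' : G)
    (a : ℕ) : ∑ i ∈ Finset.range a, 2 ^ i * nu τ (α g' (famE X Z s i) * α g (famE X Z s i) *
      (α g (famW X Z s i) - α g' (famW X Z s i))) ^ 2 ≤ 4 * τ 1 := by
  have key : ∀ a : ℕ, ∑ i ∈ Finset.range a, 2 ^ i * nu τ (α g' (famE X Z s i) *
      α g (famE X Z s i) * (α g (famW X Z s i) - α g' (famW X Z s i))) ^ 2 =
      4 * τ 1 - 4 * (2 ^ a * τ (α g (famE X Z s a) * α g' (famE X Z s a))) := by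
    intro a
    induction a with
    | zero => simp [famE]
    | succ a ih =>
      rw [Finset.sum_range_succ, ih, fam_step hτ ((h.prj s a).map _) ((h.prj s a).map _)
        ((h.wv s a).map _) ((h.wv s a).map _) (h.cw s a g g).1 (h.cw s a g g').1 (h.cw s a g' g).1
        (h.cw s a g' g').1 (h.cw s a g g).2 (h.cw s a g g').2 (h.cw s a g' g).2 (h.cw s a g' g').2,
        famE, map_mul (α g), map_mul (α g'), fam_map_pj, fam_map_pj]
      ring
  have := hτ.mul_nonneg ((h.prj s a).map (α g)).pos ((h.prj s a).map (α g')).pos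
  rw [key]
  have : (0 : ℝ) ≤ 2 ^ a * τ (α g (famE X Z s a) * α g' (famE X Z s a)) := by positivity
  linarith

end

/-- Extension of a finite sign sequence. -/
def famX {a : ℕ} (s : Fin a → Bool) (i : ℕ) : Bool := if h : i < a then s ⟨i, h⟩ else true

/-- Flip of one sign. -/
def famF {a : ℕ} (i : Fin a) : Equiv.Perm (Fin a → Bool) :=
  Function.Involutive.toPerm (fun s => Function.update s i (!s i)) fun s => by simp

theorem famX_flip {a : ℕ} (i : Fin a) (s : Fin a → Bool) :
    famX (famF i s) i = !famX s i ∧ ∀ j < (i : ℕ), famX (famF i s) j = famX s j := by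
  have e : famF i s = Function.update s i (!s i) := rfl
  refine ⟨by simp [famX, e], fun j hj => ?_⟩
  have h : j < a := hj.trans i.2
  have : (⟨j, h⟩ : Fin a) ≠ i := fun e => hj.ne (congrArg Fin.val e)
  simp [famX, e, h, this]

theorem famS : FamS := by
  intro G M _ _ _ α hF
  obtain ⟨X, Z, h⟩ := fam_exists α hF
  refine ⟨⟨_, X, Z, h.chain fun _ => true, fun τ hτ g g' a => h.tele (fun _ => true) hτ g g' a⟩,
    fun a => ⟨Fin a → Bool, inferInstance, inferInstance, fun s => famE X Z (famX s), fun _ => X,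
      fun _ => Z, fun s => h.chain _, fun τ hτ g g' => ?_⟩⟩
  let n : (ℕ → Bool) → ℕ → ℝ := fun s i => 2 ^ i * nu τ (α g' (famE X Z s i) *
    α g (famE X Z s i) * (α g (famW X Z s i) - α g' (famW X Z s i))) ^ 2
  have h1 : ∑ s : Fin a → Bool, ∑ i ∈ Finset.range a, n (famX s) i ≤
      Fintype.card (Fin a → Bool) * (4 * τ 1) := by
    refine (Finset.sum_le_sum fun s _ => h.tele (famX s) hτ g g' a).trans_eq ?_
    rw [Finset.sum_const, Finset.card_univ, nsmul_eq_mul]
  calc _ = 2 * ∑ s : Fin a → Bool, ∑ i ∈ Finset.range a, n (famX s) i := by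
        rw [Finset.sum_comm, Finset.sum_comm (t := Finset.range a), Finset.mul_sum]
        refine Finset.sum_congr rfl fun i hi => ?_
        have hi' := Finset.mem_range.1 hi
        rw [two_mul]
        nth_rewrite 2 [← Equiv.sum_comp (famF ⟨i, hi'⟩)]
        rw [← Finset.sum_add_distrib]
        refine Finset.sum_congr rfl fun s _ => ?_
        obtain ⟨e1, e2⟩ := famX_flip ⟨i, hi'⟩ s
        simp only [n, famW, famE_congr X Z i e2]
        rw [show famX (famF ⟨i, hi'⟩ s) i = !famX s i from e1]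
        cases famX s i <;> simp <;> ring
    _ ≤ _ := by linarith

end Vale.Agent.P095
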