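import Vale.Agent.P095.Basic

/-! Gluing blocks: the tracial theorem. -/

open TopologicalSpace

namespace Vale.Agent.P095

open Vale.Agent.P101

namespace Glue

variable {G M : Type} [Group G] [CStarAlgebra M] {x y a : M} {r s t : ℝ}

/-- Uniform smallness in the trace norm. -/
def Sm (x : M) (r : ℝ) : Prop := ∀ τ, IsRT τ → ∀ b, |τ (b * x)| ≤ ‖b‖ * (r * τ 1)

/-- Uniform smallness in the 2-norm. -/
def Md (x : M) (r : ℝ) : Prop := ∀ τ, IsRT τ → nu τ x ^ 2 ≤ r * τ 1

theorem Sm.add (hx : Sm x r) (hy : Sm y s) : Sm (x + y) (r + s) := fun τ h b => by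
  rw [mul_add, map_add, add_mul, mul_add]
  exact (abs_add_le _ _).trans (add_le_add (hx τ h b) (hy τ h b))

theorem Sm.sub (hx : Sm x r) (hy : Sm y s) : Sm (x - y) (r + s) := fun τ h b => by
  rw [mul_sub, map_sub, add_mul, mul_add]
  exact (abs_sub _ _).trans (add_le_add (hx τ h b) (hy τ h b))

theorem Sm.half (hx : Sm x (2 * r)) : Sm ((1 / 2 : ℝ) • x) r := fun τ h b => by
  have := hx τ h b
  rw [mul_smul_comm, map_smul, smul_eq_mul, abs_mul, abs_of_pos (by norm_num : (0 : ℝ) < 1 / 2)]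
  linarith

theorem Sm.of_eq (hx : Sm x r) (e : r = s) : Sm x s := e ▸ hx

theorem Sm.left (hx : Sm x r) (hr : 0 ≤ r) (ha : ‖a‖ ≤ 1) : Sm (a * x) r := fun τ h b => by
  rw [← mul_assoc]
  exact (hx τ h _).trans (mul_le_mul_of_nonneg_right ((norm_mul_le _ _).trans
    (mul_le_of_le_one_right (norm_nonneg _) ha)) (mul_nonneg hr h.one_nonneg))

theorem Sm.right (hx : Sm x r) (hr : 0 ≤ r) (ha : ‖a‖ ≤ 1) : Sm (x * a) r := fun τ h b => by
  rw [← mul_assoc, h.comm, ← mul_assoc]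
  exact (hx τ h _).trans (mul_le_mul_of_nonneg_right ((norm_mul_le _ _).trans
    (mul_le_of_le_one_left (norm_nonneg _) ha)) (mul_nonneg hr h.one_nonneg))

theorem Sm.star (hx : Sm x r) : Sm (star x) r := fun τ h b => by
  rw [← h.star, star_mul, star_star, h.comm, ← norm_star b]
  exact hx τ h _

theorem Sm.act (hx : Sm x r) (α : Act G M) (g : G) : Sm (α g x) r := fun τ h b => by
  have := hx _ (h.comp (α g)) (α g⁻¹ b)
  simpa only [LinearMap.comp_apply, rl_apply, map_mul, act_inv, act_norm, map_one] using this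

theorem Sm.abs_le (hx : Sm x r) (hr : 0 ≤ r) {τ : M →ₗ[ℝ] ℝ} (h : IsRT τ) : |τ x| ≤ r * τ 1 := by
  have := hx τ h 1
  rw [one_mul] at this
  exact this.trans (mul_le_of_le_one_left (mul_nonneg hr h.one_nonneg) norm_one_le')

theorem Md.act (hx : Md x r) (α : Act G M) (g : G) : Md (α g x) r := fun τ h => by
  have := hx _ (h.comp (α g))
  simpa only [nu_comp, LinearMap.comp_apply, rl_apply, map_one] using this

theorem Md.mul (hx : Md x r) (hy : Md y s) (hr : 0 ≤ r) (ht : 0 ≤ t) (e : r * s ≤ t ^ 2) :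
    Sm (x * y) t := fun τ h b => by
  rw [← mul_assoc]
  refine (h.cs' _ _).trans ((mul_le_mul_of_nonneg_right (h.nu_mul_le _ _) (nu_nonneg _ _)).trans ?_)
  rw [mul_assoc]
  refine mul_le_mul_of_nonneg_left (abs_le_of_sq_le_sq' ?_ (mul_nonneg ht h.one_nonneg)).2
    (norm_nonneg _)
  rw [mul_pow, mul_pow]
  calc _ ≤ r * τ 1 * (s * τ 1) :=
        mul_le_mul (hx τ h) (hy τ h) (sq_nonneg _) (mul_nonneg hr h.one_nonneg)
    _ = r * s * τ 1 ^ 2 := by ring
    _ ≤ _ := mul_le_mul_of_nonneg_right e (sq_nonneg _)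

/-- An element dominated by `q`, where `q` is tracially small and almost a projection. -/
structure Dm (u q : M) (e δ : ℝ) : Prop where
  sa : IsSelfAdjoint u
  u1 : Pos (q - u)
  u2 : Pos (q + u)
  le : Pos (1 - q)
  tr : ∀ τ, IsRT τ → τ q ≤ 3 * δ * τ 1
  pr : ∀ τ, IsRT τ → τ (q * (1 - q)) ≤ e ^ 2 / 3 * δ * τ 1
  e0 : 0 ≤ e
  d0 : 0 ≤ δ

namespace Dm

variable {u q U : M} {e δ : ℝ} (H : Dm u q e δ)
include H

theorem pos : Pos q := by
  have := (H.u1.add H.u2).smul (r := 1 / 2) (by norm_num)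
  rwa [sub_add_add_cancel, ← two_smul ℝ, smul_smul, one_div_mul_cancel two_ne_zero, one_smul] at this

theorem self : Dm q q e δ :=
  ⟨H.pos.sa, by simpa using Pos.zero, H.pos.add H.pos, H.le, H.tr, H.pr, H.e0, H.d0⟩

theorem norm_le : ‖u‖ ≤ 1 :=
  norm_le_of_pos zero_le_one (by simpa using H.le.add H.u1)
    (by simpa [← add_assoc] using H.le.add H.u2)

theorem norm_w : ‖1 - q‖ ≤ 1 := (H.le.norm_le (y := 1) (by simpa using H.pos)).trans norm_one_le'

theorem pos_qw : Pos (q * (1 - q)) :=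
  H.pos.mul H.le ((Commute.one_right q).sub_right (Commute.refl q))

theorem md : Md u (3 * δ) := fun τ h => by
  have h1 := h.nonneg H.pos_qw
  rw [mul_sub, map_sub, mul_one] at h1
  rw [h.nu_sq_sa H.sa]
  linarith [h.sq_le H.u1 H.u2, H.tr τ h]

theorem sm_pos (ha : Pos a) (hq : Pos (q - a)) : Sm ((1 - q) * a) (e * δ) := by
  obtain ⟨z, rfl⟩ := ha
  rw [← mul_assoc]
  refine Md.mul (r := e ^ 2 / 3 * δ) (s := 3 * δ) (fun τ h => ?_) (fun τ h => ?_)
    (by have := H.d0; positivity) (mul_nonneg H.e0 H.d0) (le_of_eq (by ring))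
  · have h1 := h.nonneg (hq.conj (1 - q))
    have h2 := h.mul_nonneg H.pos H.pos_qw
    have h3 := H.pr τ h
    rw [← h.nu_star, h.nu_sq, star_star, star_mul, star_star, H.le.sa.star_eq]
    rw [H.le.sa.star_eq] at h1
    simp only [mul_sub, sub_mul, map_sub, mul_one, one_mul, mul_assoc] at h1 h2 h3 ⊢
    linarith
  · rw [h.nu_sq]
    exact (h.mono hq).trans (H.tr τ h)

theorem sm_wu : Sm ((1 - q) * u) (2 * (e * δ)) := by
  have e1 : q - (1 / 2 : ℝ) • (q + u) = (1 / 2 : ℝ) • (q - u) := by module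
  have e2 : q - (1 / 2 : ℝ) • (q - u) = (1 / 2 : ℝ) • (q + u) := by module
  have e3 : u = (1 / 2 : ℝ) • (q + u) - (1 / 2 : ℝ) • (q - u) := by module
  have p1 := H.u1.smul (r := 1 / 2) (by norm_num)
  have p2 := H.u2.smul (r := 1 / 2) (by norm_num)
  have := (H.sm_pos p2 (e1 ▸ p1)).sub (H.sm_pos p1 (e2 ▸ p2))
  rwa [← mul_sub, ← e3, ← two_mul] at this

theorem sm_uw : Sm (u * (1 - q)) (2 * (e * δ)) := by
  have := H.sm_wu.star
  rwa [star_mul, H.sa.star_eq, H.le.sa.star_eq] at this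

theorem sm_act (α : Act G M) (g : G) (hu : Md (α g u - u) (e ^ 2 / 3 * δ))
    (hq : Md (α g q - q) (e ^ 2 / 3 * δ)) : Sm (α g u - u) (6 * (e * δ)) := by
  have d0 := H.d0
  have h0 := mul_nonneg H.e0 H.d0
  have := (((H.sm_wu.act α g).sub H.sm_wu).add ((H.self.md.act α g).mul hu (by positivity) h0
    (le_of_eq (by ring)))).add (hq.mul H.md (by positivity) h0 (le_of_eq (by ring)))
  rw [show α g ((1 - q) * u) - (1 - q) * u + α g q * (α g u - u) + (α g q - q) * u = α g u - u by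
    simp only [map_mul, map_sub, map_one]; noncomm_ring] at this
  exact this.of_eq (by ring)

theorem sc (hU : SC U) (hc : Commute (1 - q) U) : SC (u + (1 - q) * U) := by
  refine ⟨H.sa.add ((H.le.sa.commute_iff hU.sa).1 hc), norm_le_of_pos zero_le_one ?_ ?_⟩
  · have := H.u1.add (H.le.mul (Pos.of_norm hU.sa hU.le)
      (((Commute.one_right _).smul_right _).sub_right hc))
    rwa [one_smul, show q - u + (1 - q) * (1 - U) = (1 : ℝ) • 1 - (u + (1 - q) * U) by
      rw [one_smul]; noncomm_ring] at this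
  · have := H.u2.add (H.le.mul (Pos.of_norm' hU.sa hU.le)
      (((Commute.one_right _).smul_right _).add_right hc))
    rwa [one_smul, show q + u + (1 - q) * (1 + U) = (1 : ℝ) • 1 + (u + (1 - q) * U) by
      rw [one_smul]; noncomm_ring] at this

theorem sm_new (α : Act G M) (g : G) (hu : Md (α g u - u) (e ^ 2 / 3 * δ))
    (hq : Md (α g q - q) (e ^ 2 / 3 * δ)) (hU : SC U) {I : ℝ} (hI : 0 ≤ I)
    (h : Sm (α g U - U) I) :
    Sm (α g (u + (1 - q) * U) - (u + (1 - q) * U)) (I + 12 * (e * δ)) := by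
  have h0 := mul_nonneg H.e0 H.d0
  have := ((H.sm_act α g hu hq).add (h.left hI ((act_norm α g _).trans_le H.norm_w))).sub
    ((H.self.sm_act α g hq hq).right (by positivity) hU.le)
  rw [show α g u - u + α g (1 - q) * (α g U - U) - (α g q - q) * U =
      α g (u + (1 - q) * U) - (u + (1 - q) * U) by
    simp only [map_mul, map_sub, map_add, map_one]; noncomm_ring] at this
  exact this.of_eq (by ring)

end Dm

theorem Yc_glue {u v w U V : M} (h1 : Commute w U) (h2 : Commute w V) (h3 : Commute u V)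
    (h4 : Commute v U) : Yc (u + w * U) (v + w * V) = Yc u v + w * (w * Yc U V) +
      (1 / 2 : ℝ) • ((u * w - w * u) * V + (w * v - v * w) * U) := by
  have e1 : w * U * (w * V) = w * (w * (U * V)) := by
    rw [mul_assoc, ← mul_assoc U, ← h1.eq, mul_assoc]
  have e2 : w * V * (w * U) = w * (w * (V * U)) := by
    rw [mul_assoc, ← mul_assoc V, ← h2.eq, mul_assoc]
  have e3 : w * U * v = w * v * U := by rw [mul_assoc, ← h4.eq, mul_assoc]
  have e4 : w * V * u = w * u * V := by rw [mul_assoc, ← h3.eq, mul_assoc]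
  simp only [Yc, mul_smul_comm, ← smul_add, add_mul, mul_add, e1, e2, e3, e4]
  congr 1
  noncomm_ring

theorem commute_Yc {w U V : M} (h1 : Commute w U) (h2 : Commute w V) : Commute w (Yc U V) :=
  ((h1.mul_right h2).sub_right (h2.mul_right h1)).smul_right _

theorem star_Yc {U V : M} (hU : IsSelfAdjoint U) (hV : IsSelfAdjoint V) :
    star (Yc U V) = -Yc U V := by
  rw [Yc, star_smul, star_trivial, star_sub, star_mul, star_mul, hU.star_eq, hV.star_eq, ← smul_neg,
    neg_sub]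

theorem commute_Df {w U V : M} (hU : IsSelfAdjoint U) (hV : IsSelfAdjoint V) (h1 : Commute w U)
    (h2 : Commute w V) : Commute w (Df U V) := by
  rw [Df, star_Yc hU hV]
  exact (Commute.one_right w).sub_right ((commute_Yc h1 h2).neg_right.mul_right (commute_Yc h1 h2))

theorem df_step {u v q U V : M} {e δ : ℝ} (H : Dm u q e δ) (H' : Dm v q e δ) (he : e ≤ 3)
    (hU : SC U) (hV : SC V) (h1 : Commute (1 - q) U) (h2 : Commute (1 - q) V) (h3 : Commute u V)
    (h4 : Commute v U) {τ : M →ₗ[ℝ] ℝ} (h : IsRT τ)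
    (hy : τ (q - star (Yc u v) * Yc u v) ≤ e ^ 2 / 3 * δ * τ 1) :
    τ (Df (u + (1 - q) * U) (v + (1 - q) * V)) ≤
      τ ((1 - q) * Df U V) + 20 * (e * δ) * τ 1 := by
  have h0 := mul_nonneg H.e0 H.d0
  have nY' := norm_Yc_le (H.sc hU h1).le (H'.sc hV h2).le
  have nY := norm_Yc_le hU.le hV.le
  have ny := norm_Yc_le H.norm_le H'.norm_le
  have cY := commute_Yc h1 h2
  have pD := pos_Df hU.le hV.le
  have eY := Yc_glue h1 h2 h3 h4
  have hZ : Sm ((1 / 2 : ℝ) • ((u * (1 - q) - (1 - q) * u) * V + ((1 - q) * v - v * (1 - q)) * U))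
      (4 * (e * δ)) :=
    Sm.half ((((H.sm_uw.sub H.sm_wu).right (by positivity) hV.le).add
      ((H'.sm_wu.sub H'.sm_uw).right (by positivity) hU.le)).of_eq (by ring))
  have hwy : Sm ((1 - q) * Yc u v) (2 * (e * δ)) := by
    rw [Yc, mul_smul_comm, mul_sub, ← mul_assoc, ← mul_assoc]
    exact Sm.half (((H.sm_wu.right (by positivity) H'.norm_le).sub
      (H'.sm_wu.right (by positivity) H.norm_le)).of_eq (by ring))
  have nw := H.norm_w
  have sw := H.le.sa
  have pw := H.le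
  have pq := H.pos_qw
  have hpr := H.pr τ h
  have eq : q = 1 - (1 - q) := (sub_sub_cancel _ _).symm
  unfold Df at pD ⊢
  generalize Yc (u + (1 - q) * U) (v + (1 - q) * V) = Y' at nY' eY ⊢
  generalize (1 / 2 : ℝ) • ((u * (1 - q) - (1 - q) * u) * V + ((1 - q) * v - v * (1 - q)) * U) = Z
    at eY hZ
  generalize Yc U V = Y at nY cY pD eY ⊢
  generalize Yc u v = y at ny eY hwy hy
  generalize 1 - q = w at *
  subst eq
  have nwY : ‖w * Y‖ ≤ 1 := (norm_mul_le _ _).trans (mul_le_one₀ nw (norm_nonneg _) nY)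
  have a1 := (hZ.left (by positivity) ((norm_star Y').trans_le nY')).abs_le (by positivity) h
  have a2 := (hZ.star.right (by positivity) ny).abs_le (by positivity) h
  have a3 := ((hZ.star.right (by positivity) nw).right (by positivity) nwY).abs_le (by positivity) h
  have a4 := (hwy.left (by positivity) ((norm_star _).trans_le nwY)).abs_le (by positivity) h
  have a5 := (hwy.star.right (by positivity) nwY).abs_le (by positivity) h
  have p3 : Pos (1 + w + w * w) := (Pos.one.add pw).add (pw.mul pw (Commute.refl w))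
  have n3 : ‖1 + w + w * w‖ ≤ 3 := by
    have := (norm_mul_le w w).trans (mul_le_one₀ nw (norm_nonneg _) nw)
    linarith [norm_add₃_le (a := (1 : M)) (b := w) (c := w * w), norm_one_le' (M := M)]
  have a6 := (le_abs_self _).trans ((h.abs_mul_le pq (1 + w + w * w)).trans
    (mul_le_mul_of_nonneg_right n3 (h.nonneg pq)))
  have a7 := h.mul_nonneg (p3.mul pq (by unfold Commute SemiconjBy; noncomm_ring)) pD
  have a8 : τ (star (w * (w * Y)) * (w * (w * Y))) = τ (w * (w * (w * (w * (star Y * Y))))) := by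
    have c2 : Commute w (star Y) := by simpa only [sw.star_eq] using cY.star_star
    simp only [star_mul, sw.star_eq, ← mul_assoc, ← c2.eq]
    simp only [mul_assoc, ← c2.eq]
  have e1 : star Y' * Y' = star Y' * Z + star Z * y + star Z * w * (w * Y) + star y * y +
      star (w * Y) * (w * y) + star (w * y) * (w * Y) + star (w * (w * Y)) * (w * (w * Y)) := by
    nth_rw 2 [eY]
    rw [mul_add, add_comm, add_assoc, add_assoc, add_assoc, add_assoc, add_assoc, add_right_inj, eY]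
    simp only [star_add, star_mul, sw.star_eq]
    noncomm_ring
  have e2 : e ^ 2 / 3 * δ * τ 1 ≤ e * δ * τ 1 := by
    have := mul_nonneg h0 h.one_nonneg
    nlinarith
  rw [e1]
  rw [abs_le] at a1 a2 a3 a4 a5
  simp only [map_sub, map_add, a8]
  simp only [mul_sub, sub_mul, add_mul, map_sub, map_add, mul_one, one_mul, mul_assoc]
    at a6 a7 hpr hy ⊢
  simp only [mul_assoc] at a1 a2 a3 a4 a5 e2
  linarith [a1.1, a2.1, a3.1, a4.1, a5.1]

theorem cost_le {α : Act G M} {K : Finset G} {u v q : M} (B : Blk u v q) {τ : M →ₗ[ℝ] ℝ}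
    (h : IsRT τ) (hc : cost α K τ u v q ≤ r) : τ (q * (1 - q)) ≤ r ∧
    τ (q - star (Yc u v) * Yc u v) ≤ r ∧ ∀ g ∈ K, nu τ (α g u - u) ^ 2 ≤ r ∧
      nu τ (α g v - v) ^ 2 ≤ r ∧ nu τ (α g q - q) ^ 2 ≤ r := by
  have nv : ‖v‖ ≤ 1 :=
    norm_le_of_pos zero_le_one (by simpa using B.le.add B.v1)
      (by simpa [← add_assoc] using B.le.add B.v2)
  have pq : Pos q := by
    have := (B.u1.add B.u2).smul (r := 1 / 2) (by norm_num)
    rwa [sub_add_add_cancel, ← two_smul ℝ, smul_smul, one_div_mul_cancel two_ne_zero,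
      one_smul] at this
  have h1 : nu τ (Yc u v) ≤ nu τ u := by
    have n0 := nu_nonneg τ u
    rw [Yc, nu_smul, abs_of_pos (by norm_num : (0 : ℝ) < 1 / 2)]
    linarith [h.nu_sub_le (u * v) (v * u), h.nu_mul_le' u v, h.nu_mul_le v u,
      mul_le_of_le_one_right n0 nv, mul_le_of_le_one_left n0 nv]
  have h2 := pow_le_pow_left₀ (nu_nonneg _ _) h1 2
  rw [h.nu_sq, h.nu_sq_sa B.su] at h2
  have h3 := h.sq_le B.u1 B.u2
  have h4 := h.mul_nonneg pq B.le
  have h5 : ∀ g ∈ K, 0 ≤ nu τ (α g u - u) ^ 2 + nu τ (α g v - v) ^ 2 + nu τ (α g q - q) ^ 2 :=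
    fun g _ => by positivity
  have h6 := Finset.sum_nonneg h5
  rw [cost] at hc
  simp only [mul_sub, map_sub τ, mul_one] at h4 hc ⊢
  refine ⟨by linarith, by linarith, fun g hg => ?_⟩
  have h7 := Finset.single_le_sum h5 hg
  refine ⟨?_, ?_, ?_⟩ <;> linarith [sq_nonneg (nu τ (α g u - u)), sq_nonneg (nu τ (α g v - v)),
    sq_nonneg (nu τ (α g q - q))]

/-- The invariant of the iteration. -/
def Inv (α : Act G M) (K : Finset G) (d I : ℝ) : Prop :=
  ∃ U V : M, SC U ∧ SC V ∧ (∀ τ, IsRT τ → τ (Df U V) ≤ d * τ 1) ∧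
    ∀ g ∈ K, Sm (α g U - U) I ∧ Sm (α g V - V) I

theorem Inv.step [Countable G] (h2 : ResS) {α : Act G M} (hM : FP M) {K : Finset G} {e δ d I : ℝ}
    (he0 : 0 ≤ e) (he : e ≤ 3) (hδ : 0 ≤ δ) (hδ1 : δ ≤ 1) (hI : 0 ≤ I)
    (hb : ∀ (M : Type) [CStarAlgebra M] (α : Act G M), FP M → ∃ u v q : M, Blk u v q ∧
      ∀ τ, IsRT τ → δ * τ 1 ≤ τ q ∧ τ q ≤ 3 * δ * τ 1 ∧ cost α K τ u v q ≤ e ^ 2 / 3 * δ * τ 1)
    (h : Inv α K d I) : Inv α K ((1 - δ) * d + 20 * (e * δ)) (I + 12 * (e * δ)) := by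
  obtain ⟨U, V, hU, hV, hd, hK⟩ := h
  obtain ⟨M', _, α', i, hM', hi, hc⟩ := h2 G M α hM {U, V} (Set.toFinite _).isSeparable
  obtain ⟨u, v, q, B', hq⟩ := hb M' α' hM'
  have cU : ∀ x, Commute (i x) U := fun x => by simpa using hc x 1 U (by simp)
  have cV : ∀ x, Commute (i x) V := fun x => by simpa using hc x 1 V (by simp)
  have B : Blk (i u) (i v) (i q) := ⟨B'.su.map i, B'.sv.map i, by simpa using B'.u1.map i,
    by simpa using B'.u2.map i, by simpa using B'.v1.map i, by simpa using B'.v2.map i,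
    by simpa using B'.le.map i⟩
  have hc : ∀ τ, IsRT τ → _ := fun τ h => cost_le (α := α) (K := K) (r := e ^ 2 / 3 * δ * τ 1) B h (by
    simpa only [cost, nu_comp, LinearMap.comp_apply, rl_apply, map_sub i, map_mul, map_star, map_Yc,
      hi, map_one] using (hq _ (h.comp i)).2.2)
  have H : Dm (i u) (i q) e δ := ⟨B.su, B.u1, B.u2, B.le,
    fun τ h => by simpa using (hq _ (h.comp i)).2.1, fun τ h => (hc τ h).1, he0, hδ⟩
  have H' : Dm (i v) (i q) e δ := ⟨B.sv, B.v1, B.v2, B.le, H.tr, H.pr, he0, hδ⟩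
  have wU := (Commute.one_left U).sub_left (cU q)
  have wV := (Commute.one_left V).sub_left (cV q)
  refine ⟨_, _, H.sc hU wU, H'.sc hV wV, fun τ h => ?_, fun g hg =>
    ⟨H.sm_new α g (fun τ h => ((hc τ h).2.2 g hg).1) (fun τ h => ((hc τ h).2.2 g hg).2.2) hU hI
      (hK g hg).1, H'.sm_new α g (fun τ h => ((hc τ h).2.2 g hg).2.1)
      (fun τ h => ((hc τ h).2.2 g hg).2.2) hV hI (hK g hg).2⟩⟩
  have h3 := df_step H H' he hU hV wU wV (cV u) (cU v) h (hc τ h).2.1
  have h4 := (hq _ (h.mulc (pos_Df hU.le hV.le) i fun x =>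
    commute_Df hU.sa hV.sa (cU x) (cV x))).1
  simp only [LinearMap.comp_apply, rl_apply, LinearMap.mulLeft_apply, map_one, mul_one] at h4
  rw [sub_mul 1 _ (Df U V), one_mul, map_sub, h.comm (i q)] at h3
  linarith [mul_le_mul_of_nonneg_left (hd τ h) (sub_nonneg.2 hδ1)]

theorem Inv.iter [Countable G] (h2 : ResS) {α : Act G M} (hM : FP M) {K : Finset G} {e δ : ℝ}
    (he0 : 0 ≤ e) (he : e ≤ 3) (hδ : 0 ≤ δ) (hδ1 : δ ≤ 1)
    (hb : ∀ (M : Type) [CStarAlgebra M] (α : Act G M), FP M → ∃ u v q : M, Blk u v q ∧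
      ∀ τ, IsRT τ → δ * τ 1 ≤ τ q ∧ τ q ≤ 3 * δ * τ 1 ∧ cost α K τ u v q ≤ e ^ 2 / 3 * δ * τ 1)
    (n : ℕ) : Inv α K ((1 - δ) ^ n * (1 - 20 * e) + 20 * e) (n * (12 * (e * δ))) := by
  induction n with
  | zero =>
    have s0 : SC (0 : M) := ⟨IsSelfAdjoint.zero M, by simp⟩
    exact ⟨0, 0, s0, s0, fun τ _ => by simp [Df, Yc], fun g _ =>
      ⟨fun τ _ b => by simp, fun τ _ b => by simp⟩⟩
  | succ n ih =>
    have := ih.step h2 hM he0 he hδ hδ1 (by positivity) hb
    rwa [show (1 - δ) * ((1 - δ) ^ n * (1 - 20 * e) + 20 * e) + 20 * (e * δ) =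
      (1 - δ) ^ (n + 1) * (1 - 20 * e) + 20 * e by ring, ← add_one_mul, ← Nat.cast_succ] at this

end Glue

open Glue in
theorem ttS (h1 : BlS) (h2 : ResS) : TtS := by
  intro G _ _ hG M _ α hM K ε hε
  obtain ⟨R, hR⟩ : ∃ R, R = 2 / ε := ⟨_, rfl⟩
  have R0 : 0 < R := by rw [hR]; positivity
  obtain ⟨e, e0, e1, e2, e3⟩ : ∃ e : ℝ, 0 < e ∧ e ≤ 3 ∧ 20 * e ≤ ε / 2 ∧ 24 * e * (R + 1) ≤ ε := by
    refine ⟨min 3 (min (ε / 40) (ε / (24 * (R + 1)))), by positivity, min_le_left _ _, ?_, ?_⟩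
    · linarith [(min_le_right 3 _).trans (min_le_left (ε / 40) (ε / (24 * (R + 1))))]
    · have := (min_le_right 3 _).trans (min_le_right (ε / 40) (ε / (24 * (R + 1))))
      rw [le_div_iff₀ (by positivity)] at this
      linarith
  obtain ⟨δ, d0, d1, hb⟩ := h1 G hG K (e ^ 2 / 3) (by positivity)
  obtain ⟨n, n1, n2⟩ : ∃ n : ℕ, R ≤ n * δ ∧ n * δ ≤ R + 1 := by
    refine ⟨⌈R / δ⌉₊, (div_le_iff₀ d0).1 (Nat.le_ceil _), ?_⟩
    have := mul_le_mul_of_nonneg_right (Nat.ceil_lt_add_one (div_pos R0 d0).le).le d0.le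
    rw [add_mul, div_mul_cancel₀ _ d0.ne'] at this
    linarith
  obtain ⟨U, V, hU, hV, hd, hK⟩ := Inv.iter h2 (α := α) hM e0.le e1 d0.le d1 hb n
  have p0 : 0 ≤ (1 - δ) ^ n := pow_nonneg (sub_nonneg.2 d1) n
  have p1 : (1 - δ) ^ n ≤ ε / 2 := by
    have a1 : (1 - δ) ^ n * (1 + δ) ^ n ≤ 1 := by
      rw [← mul_pow]
      exact pow_le_one₀ (mul_nonneg (sub_nonneg.2 d1) (by linarith)) (by nlinarith)
    have a2 := mul_le_mul_of_nonneg_left (one_add_mul_le_pow (show -2 ≤ δ by linarith) n) p0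
    have a3 : (1 - δ) ^ n * R ≤ 1 := by nlinarith
    rw [hR, ← mul_div_assoc, div_le_one hε] at a3
    linarith
  have key : ∀ (W : M) (g : G), SC W → Sm (α g W - W) (n * (12 * (e * δ))) → ∀ τ, IsRT τ →
      nu τ (α g W - W) ^ 2 ≤ ε * τ 1 := fun W g hW hs τ h => by
    have a1 : ‖star (α g W - W)‖ ≤ 2 := by
      rw [norm_star]
      linarith [norm_sub_le (α g W) W, act_norm α g W, hW.le]
    have t0 := h.one_nonneg
    rw [h.nu_sq]
    refine (le_abs_self _).trans ((hs τ h _).trans ((mul_le_mul_of_nonneg_right a1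
      (by positivity)).trans ?_))
    rw [← mul_assoc]
    exact mul_le_mul_of_nonneg_right (by nlinarith) t0
  exact ⟨U, V, hU, hV, fun τ h => ⟨(hd τ h).trans (mul_le_mul_of_nonneg_right
    (by nlinarith [mul_nonneg p0 e0.le]) h.one_nonneg),
    fun g hg => ⟨key U g hU (hK g hg).1 τ h, key V g hV (hK g hg).2 τ h⟩⟩⟩

end Vale.Agent.P095
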