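import Vale.Agent.P095.Basic

/-! Limit traces by separation. -/

open Filter Topology BoundedContinuousFunction
open scoped BoundedContinuousFunction

namespace Vale.Agent.P095

open Vale.Agent.P101

section

variable {B : Type} [CStarAlgebra B] {e y : B}

/-- Sums of self-commutators from the corner of `e`. -/
def HbtK (e s : B) : Prop :=
  ∃ (k : ℕ) (x : Fin k → B), (∀ i, e * x i = x i ∧ x i * e = x i) ∧
    s = ∑ i, (star (x i) * x i - x i * star (x i))

theorem HbtK.zero : HbtK e 0 := ⟨0, Fin.elim0, fun i => i.elim0, by simp⟩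

theorem HbtK.add {s t : B} (hs : HbtK e s) (ht : HbtK e t) : HbtK e (s + t) := by
  obtain ⟨k, x, hx, rfl⟩ := hs
  obtain ⟨k', x', hx', rfl⟩ := ht
  exact ⟨k + k', Fin.append x x', fun i => by
    induction i using Fin.addCases with
    | left i => simpa using hx i
    | right i => simpa using hx' i, by
    simp only [Fin.sum_univ_add, Fin.append_left, Fin.append_right]⟩

theorem HbtK.smul {s : B} (hs : HbtK e s) {t : ℝ} (ht : 0 ≤ t) : HbtK e (t • s) := by
  obtain ⟨k, x, hx, rfl⟩ := hs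
  exact ⟨k, fun i => √t • x i, fun i => by simp [hx i], by
    simp only [Finset.smul_sum, smul_sub, star_smul, star_trivial, smul_mul_smul_comm,
      Real.mul_self_sqrt ht]⟩

/-- Positive contractive functionals which are tracial on the corner of `e`. -/
structure HbtR {M : Type} [CStarAlgebra M] (e : M) (ρ : M →ₗ[ℝ] ℝ) : Prop where
  star : ∀ z, ρ (star z) = ρ z
  pos : ∀ z, 0 ≤ ρ (Star.star z * z)
  le : ∀ z, ρ z ≤ ‖z‖
  comm : ∀ x, e * x = x → x * e = x → ρ (Star.star x * x) = ρ (x * Star.star x)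

theorem hbt_sep (he : IsSelfAdjoint e) (hy : IsSelfAdjoint y) {γ : ℝ} (h : ¬ Cmp e y γ) :
    ∃ ρ, HbtR e ρ ∧ γ ≤ ρ y := by
  let O : Set B := {z | ∃ δ : ℝ, 0 < δ ∧ ∃ s, HbtK e s ∧ Pos (s - (z + star z) - δ • 1)}
  have hc : Convex ℝ O := by
    rintro z ⟨δ, hδ, s, hs, hz⟩ w ⟨δ', hδ', s', hs', hw⟩ a b ha hb hab
    refine ⟨a * δ + b * δ', by nlinarith [min_le_left δ δ', min_le_right δ δ', lt_min hδ hδ'],
      _, (hs.smul ha).add (hs'.smul hb), ?_⟩
    rw [show a • s + b • s' - (a • z + b • w + star (a • z + b • w)) - (a * δ + b * δ') • 1 =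
      a • (s - (z + star z) - δ • 1) + b • (s' - (w + star w) - δ' • 1) by
        simp only [star_add, star_smul, star_trivial]; module]
    exact (hz.smul ha).add (hw.smul hb)
  have hn : ∀ z : B, Pos ((2 * ‖z‖) • (1 : B) - (z + star z)) := fun z =>
    Pos.of_norm (IsSelfAdjoint.add_star_self z) ((norm_add_le _ _).trans (by
      rw [norm_star, two_mul]))
  have ho : IsOpen O := Metric.isOpen_iff.2 fun z ⟨δ, hδ, s, hs, hz⟩ =>
    ⟨δ / 2, by positivity, fun w hw => ⟨δ - 2 * ‖w - z‖, by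
      rw [mem_ball_iff_norm] at hw; linarith, s, hs, by
      rw [show s - (w + star w) - (δ - 2 * ‖w - z‖) • 1 = s - (z + star z) - δ • 1 +
        ((2 * ‖w - z‖) • (1 : B) - (w - z + star (w - z))) by simp only [star_sub]; module]
      exact hz.add (hn _)⟩⟩
  obtain ⟨f, hf⟩ := geometric_hahn_banach_open_point (x := y - γ • 1) hc ho (by
    rintro ⟨δ, hδ, s, hs, hz⟩
    obtain ⟨k, x, hx, e1⟩ := hs.smul (t := 1 / 2) (by norm_num)
    refine h ⟨k, x, hx, ?_⟩
    rw [← e1, show algebraMap ℝ B γ + (1 / 2 : ℝ) • s - y = (1 / 2 : ℝ) •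
      (s - (y - γ • 1 + star (y - γ • 1)) - δ • 1 + δ • 1) by
        simp only [star_sub, star_smul, star_trivial, star_one, hy.star_eq,
          Algebra.algebraMap_eq_smul_one]; module]
    exact (hz.add (Pos.one.smul hδ.le)).smul (by norm_num))
  have k1 : ∀ z s, HbtK e s → Pos (s - (z + star z)) → ∀ δ : ℝ, 0 < δ →
      f z - δ * f 1 < f (y - γ • 1) := fun z s hs hz δ hδ => by
    simpa using hf (z - δ • 1) ⟨2 * δ, by positivity, s, hs, by
      rwa [show s - (z - δ • 1 + star (z - δ • 1)) - (2 * δ) • 1 = s - (z + star z) by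
        simp only [star_sub, star_smul, star_trivial, star_one]; module]⟩
  have k2 : ∀ z s, HbtK e s → Pos (s - (z + star z)) → f z ≤ 0 := fun z s hs hz => by
    by_contra! h0
    have ht : 0 ≤ |f (y - γ • 1) + f 1| / f z := by positivity
    have := k1 ((|f (y - γ • 1) + f 1| / f z) • z) _ (hs.smul ht) (by
      simpa only [smul_sub, smul_add, star_smul, star_trivial] using hz.smul ht) 1 one_pos
    rw [map_smul, smul_eq_mul, div_mul_cancel₀ _ h0.ne'] at this
    linarith [le_abs_self (f (y - γ • 1) + f 1)]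
  have k3 : ∀ z, f z ≤ ‖z‖ * f 1 := fun z => by
    simpa using k2 (z - ‖z‖ • 1) 0 .zero (by
      rw [show 0 - (z - ‖z‖ • 1 + star (z - ‖z‖ • 1)) = (2 * ‖z‖) • (1 : B) - (z + star z) by
        simp only [star_sub, star_smul, star_trivial, star_one]; module]
      exact hn z)
  have k4 : ∀ z, Pos z → 0 ≤ f z := fun z hz => by
    simpa using k2 (-z) 0 .zero (by simpa [hz.sa.star_eq] using hz.add hz)
  have k5 := fun δ => k1 0 0 .zero (by simpa using Pos.zero) δ
  have k6 : 0 < f 1 := (k4 1 .one).lt_of_ne fun h0 => by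
    have := k5 1 one_pos
    have := k3 (y - γ • 1)
    simp only [← h0, map_zero] at *
    linarith
  have k7 : ∀ z, f (star z) ≤ f z := fun z => by
    simpa using k2 (star z - z) 0 .zero (by simpa using Pos.zero)
  have k8 : ∀ x, e * x = x → x * e = x → f (star x * x) ≤ f (x * star x) := fun x h1 h2 => by
    have s1 : HbtK e (star x * x - x * star x) := ⟨1, fun _ => x, fun _ => ⟨h1, h2⟩, by simp⟩
    simpa using k2 (star x * x - x * star x) _ (s1.add s1) (by simpa using Pos.zero)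
  have i0 : 0 ≤ (f 1)⁻¹ := by positivity
  refine ⟨(f 1)⁻¹ • f.toLinearMap, ⟨fun z => ?_, fun z => mul_nonneg i0 (k4 _ (.sq z)), fun z => ?_,
    fun x h1 h2 => ?_⟩, ?_⟩
  · exact congrArg (_ * ·) (le_antisymm (k7 z) (by simpa using k7 (star z)))
  · exact (inv_mul_le_iff₀ k6).2 ((k3 z).trans_eq (mul_comm _ _))
  · refine congrArg (_ * ·) (le_antisymm (k8 x h1 h2) ?_)
    simpa using k8 (star x) (by rw [← he.star_eq, ← star_mul, h2]) (by
      rw [← he.star_eq, ← star_mul, h1])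
  · refine (le_inv_mul_iff₀ k6).2 (not_lt.1 fun h0 => ?_)
    have := k5 ((f 1 * γ - f y) / f 1) (div_pos (sub_pos.2 h0) k6)
    rw [div_mul_cancel₀ _ k6.ne'] at this
    simp only [map_zero, map_sub, map_smul, smul_eq_mul] at this
    linarith

end

theorem hbt_desc {R M : Type*} [AddCommGroup R] [Module ℝ R] [AddCommGroup M] [Module ℝ M]
    (π : R →ₗ[ℝ] M) (hπ : Function.Surjective π) (f : R →ₗ[ℝ] ℝ) (h : ∀ x, π x = 0 → f x = 0) :
    ∃ g : M →ₗ[ℝ] ℝ, ∀ x, g (π x) = f x := by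
  obtain ⟨s, hs⟩ := π.exists_rightInverse_of_surjective (LinearMap.range_eq_top.2 hπ)
  refine ⟨f ∘ₗ s, fun x => sub_eq_zero.1 ((map_sub f _ _).symm.trans (h _ ?_))⟩
  rw [map_sub, ← LinearMap.comp_apply, hs, LinearMap.id_apply, sub_self]

theorem hbt_polar {M : Type*} [CStarAlgebra M] {τ : M →ₗ[ℝ] ℝ} (h1 : ∀ x, τ (star x) = τ x)
    (h2 : ∀ x, τ (star x * x) = τ (x * star x)) (x y : M) : τ (x * y) = τ (y * x) := by
  have := h2 (x + star y)
  simp only [star_add, star_star, add_mul, mul_add, map_add, ← star_mul x y, ← star_mul y x, h1,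
    h2 x, h2 y] at this
  linarith

theorem hbt_lim {B U : Type} [CStarAlgebra B] [CStarAlgebra U] {ω : Ultrafilter ℕ}
    {ul : (ℕ →ᵇ B) →⋆ₐ[ℂ] U} (hu : IsUltra ω ul) {e : B} (ρ : ℕ → B →ₗ[ℝ] ℝ)
    (hρ : ∀ n, HbtR e (ρ n)) :
    ∃ Λ : U →ₗ[ℝ] ℝ, ∀ w, Tendsto (fun n => ρ n (w n)) ω (𝓝 (Λ (ul w))) := by
  have ab : ∀ n z, |ρ n z| ≤ ‖z‖ := fun n z =>
    abs_le.2 ⟨by simpa [neg_le] using (hρ n).le (-z), (hρ n).le z⟩
  have : ∀ w : ℕ →ᵇ B, ∃ t, Tendsto (fun n => ρ n (w n)) ω (𝓝 t) := fun w =>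
    ((isCompact_Icc (a := -‖w‖) (b := ‖w‖)).ultrafilter_le_nhds (ω.map fun n => ρ n (w n))
      (le_principal_iff.2 (mem_map.2 (univ_mem' fun n =>
        abs_le.1 ((ab n _).trans (w.norm_coe_le_norm n)))))).imp fun _ h => h.2
  choose t ht using this
  let T : (ℕ →ᵇ B) →ₗ[ℝ] ℝ :=
    { toFun := t
      map_add' := fun v w => tendsto_nhds_unique (ht _) (by simpa using (ht v).add (ht w))
      map_smul' := fun r w => tendsto_nhds_unique (ht _) (by simpa using (ht w).const_mul r) }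
  obtain ⟨Λ, hΛ⟩ := hbt_desc (rl ul) hu.surj T fun w hw => abs_nonpos_iff.1
    (le_of_tendsto_of_tendsto' (ht w).abs (by simpa [show ul w = 0 from hw] using hu.lim w)
      fun n => ab n _)
  exact ⟨Λ, fun w => by simpa [show Λ (ul w) = t w from hΛ w] using ht w⟩

theorem hbtS : HbtS := by
  intro G B _ _ I α c x hx γ γ' h0 hγ sx hτ b hb e sb se eb
  by_contra hc
  have : ∀ n, ∃ ρ, HbtR e ρ ∧ (¬ Cmp e (b * b * x n * (b * b)) γ' → γ' ≤ ρ (b * b * x n * (b * b))) :=
    fun n => by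
      by_cases h : Cmp e (b * b * x n * (b * b)) γ'
      · exact ⟨0, ⟨by simp, by simp, by simp, by simp⟩, fun h' => (h' h).elim⟩
      · exact (hbt_sep se ((sx n).conjugate_self (by
          simpa [sb.sa.star_eq] using IsSelfAdjoint.star_mul_self b)) h).imp
          fun _ h => ⟨h.1, fun _ => h.2⟩
  choose ρ hρ hρ' using this
  obtain ⟨Λ, hΛ⟩ := hbt_lim c.ultra ρ hρ
  have L1 : ∀ u, Λ (star u) = Λ u := fun u => by
    obtain ⟨w, rfl⟩ := c.ultra.surj u
    exact tendsto_nhds_unique (by simpa [map_star, (hρ _).star] using hΛ (star w)) (hΛ w)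
  have L2 : ∀ u, 0 ≤ Λ (star u * u) := fun u => by
    obtain ⟨w, rfl⟩ := c.ultra.surj u
    exact ge_of_tendsto' (by simpa [map_star] using hΛ (star w * w)) fun n => (hρ n).pos (w n)
  have L3 : ∀ u, Λ u ≤ ‖u‖ := fun u => by
    obtain ⟨w, rfl⟩ := c.ultra.surj u
    exact le_of_tendsto_of_tendsto' (hΛ w) (c.ultra.lim w) fun n => (hρ n).le _
  have be : b * e = b := by rw [← sb.sa.star_eq, ← se.star_eq, ← star_mul, eb]
  have L4 : ∀ u, Λ (star (c.j b * u * c.j b) * (c.j b * u * c.j b)) =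
      Λ (c.j b * u * c.j b * star (c.j b * u * c.j b)) := fun u => by
    obtain ⟨w, rfl⟩ := c.ultra.surj u
    rw [c.j_apply, ← map_mul, ← map_mul, ← map_star, ← map_mul, ← map_mul]
    refine tendsto_nhds_unique ((hΛ _).congr fun n => ?_) (hΛ _)
    exact (hρ n).comm (b * w n * b) (by rw [← mul_assoc, ← mul_assoc, eb]) (by rw [mul_assoc, be])
  have sj : star (c.j b) = c.j b := (sb.sa.map c.j).star_eq
  obtain ⟨σ, hσ⟩ := hbt_desc (rl c.q) c.isF.surj (Λ ∘ₗ LinearMap.mulLeft ℝ (c.j b * c.j b) ∘ₗ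
    LinearMap.mulRight ℝ (c.j b * c.j b) ∘ₗ rl (Cm c.j).subtype) fun u hu => by
      have := c.isF.ann' (show c.q u = c.q 0 by rw [map_zero]; exact hu) hb
      change Λ (_ * ((u : c.U) * (c.j b * c.j b))) = 0
      rw [← mul_assoc (u : c.U), this, ZeroMemClass.coe_zero, zero_mul, zero_mul, mul_zero, map_zero]
  have hσ' : ∀ u : Cm c.j, σ (c.q u) = Λ (c.j b * c.j b * (u * (c.j b * c.j b))) := hσ
  have s1 : ∀ φ, σ (star φ) = σ φ := fun φ => by
    obtain ⟨u, rfl⟩ := c.isF.surj φ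
    rw [← map_star, hσ', hσ', ← L1]
    simp only [sj, mul_assoc, star_mul, StarMemClass.coe_star, star_star]
  have s2 : ∀ u v : Cm c.j, σ (c.q u * c.q v) = Λ (c.j b * u * c.j b * (c.j b * v * c.j b)) :=
    fun u v => by
      have e1 := (mem_Cm.1 u.2 b).eq
      have e2 := (mem_Cm.1 v.2 b).eq
      rw [← map_mul, hσ', mul_assoc _ (u : c.U), e1, ← e2]
      simp [mul_assoc]
  have s3 : ∀ u : Cm c.j, c.j b * (star u : Cm c.j) * c.j b = star (c.j b * u * c.j b) := fun u => by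
    simp only [sj, mul_assoc, star_mul, StarMemClass.coe_star]
  have := hτ σ ⟨s1, hbt_polar s1 fun φ => ?_, fun φ => ?_⟩
  · have e1 : σ 1 ≤ 1 := by
      have := mul_le_one₀ sb.le (norm_nonneg _) sb.le
      have h2 := (norm_mul_le b b).trans this
      rw [← map_one c.q, hσ', OneMemClass.coe_one, one_mul, ← map_mul, ← map_mul]
      exact (L3 _).trans ((c.norm_j _).trans_le ((norm_mul_le _ _).trans
        (mul_le_one₀ h2 (norm_nonneg _) h2)))
    have e2 := ge_of_tendsto (hΛ (const ℕ (b * b) * x * const ℕ (b * b)))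
      ((Ultrafilter.eventually_not.2 hc).mono hρ')
    rw [map_mul c.ul, map_mul c.ul, ← c.j_apply, map_mul c.j, mul_assoc, ← hσ' ⟨_, hx⟩] at e2
    nlinarith
  · obtain ⟨u, rfl⟩ := c.isF.surj φ
    rw [← map_star, s2, s2, s3, L4]
  · obtain ⟨u, rfl⟩ := c.isF.surj φ
    rw [← map_star, s2, s3]
    exact L2 _

end Vale.Agent.P095
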