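import Vale.Agent.P095.Basic

/-! The half-flip by products of exponentials. -/

open Filter Topology TopologicalSpace

namespace Vale.Agent.P095

open Vale.Agent.P101

theorem hf_cent {Z C D : Type} [CStarAlgebra C] [CStarAlgebra D] {p q : ℕ} {S : Finset Z} {ε : ℝ}
    {f : Z → DD p q} (h : ∀ (C : Type) [CStarAlgebra C] (a b : DD p q →⋆ₐ[ℂ] C),
      (∀ x y, Commute (a x) (b y)) → ∃ V ∈ unitary C, ∀ z ∈ S, ‖V * a (f z) * star V - b (f z)‖ ≤ ε)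
    (a b : DD p q →⋆ₐ[ℂ] C) (hc : ∀ x y, Commute (a x) (b y)) (θ : D →⋆ₐ[ℂ] C)
    (ha : ∀ x y, Commute (a x) (θ y)) (hb : ∀ x y, Commute (b x) (θ y)) :
    ∃ V ∈ unitary C, (∀ y, Commute V (θ y)) ∧ ∀ z ∈ S, ‖V * a (f z) * star V - b (f z)‖ ≤ ε := by
  obtain ⟨V, hV, h1⟩ := h (Cm θ) (a.codRestrict _ fun x => mem_Cm.2 (ha x))
    (b.codRestrict _ fun x => mem_Cm.2 (hb x)) fun x y => Subtype.ext (hc x y)
  exact ⟨V, map_unitary (Cm θ).subtype hV, mem_Cm.1 V.2, h1⟩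

theorem hfS (h : ComS) : HfS := by
  intro Z E Q _ _ _ κ Ψ hZ hE hE' hc S ε hε
  obtain ⟨p, q, hp, hq, hpq, J, f, h1, h2⟩ := hZ S (ε / 3) (by positivity)
  obtain ⟨θ₂⟩ := exists_drop hE hE' hp hq hpq
  obtain ⟨θ₃, c3⟩ := hE _ θ₂ _ (isSeparable_hom θ₂)
  obtain ⟨θ₄, c4⟩ := hE _ θ₂ _ ((isSeparable_hom θ₂).union (isSeparable_hom θ₃))
  have c23 : ∀ x y, Commute (θ₂ x) (θ₃ y) := fun x y => (c3 y _ ⟨x, rfl⟩).symm
  have c24 : ∀ x y, Commute (θ₂ x) (θ₄ y) := fun x y => (c4 y _ (.inl ⟨x, rfl⟩)).symm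
  have c34 : ∀ x y, Commute (θ₃ x) (θ₄ y) := fun x y => (c4 y _ (.inr ⟨x, rfl⟩)).symm
  obtain ⟨W, hW, w1, w2⟩ := hf_cent h2 θ₂ θ₃ c23 θ₄ c24 c34
  let D := (StarAlgebra.adjoin ℂ (Set.range θ₃ ∪ Set.range θ₄)).topologicalClosure
  have : IsClosed (D : Set E) := StarSubalgebra.isClosed_topologicalClosure _
  have hD : ∀ x, ∀ y ∈ D, Commute (θ₂ x) y := fun x y hy =>
    (mem_Cm.1 ((StarSubalgebra.topologicalClosure_minimal (t := Cm θ₂) (StarAlgebra.adjoin_le (by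
      rintro _ (⟨z, rfl⟩ | ⟨z, rfl⟩)
      exacts [mem_Cm.2 fun w => (c23 w z).symm, mem_Cm.2 fun w => (c24 w z).symm]))
      inferInstance) hy) x).symm
  obtain ⟨V, hV, v1, v2⟩ := hf_cent h2 (κ.comp J) (Ψ.comp θ₂) (fun x y => (hc _ _).symm)
    (Ψ.comp D.subtype) (fun x y => (hc _ _).symm) fun x y => (hD x y y.2).map Ψ
  have v3 : ∀ x, Commute V (Ψ (θ₃ x)) := fun x => v1 ⟨θ₃ x, StarSubalgebra.le_topologicalClosure _
    (StarAlgebra.subset_adjoin ℂ _ (.inl ⟨x, rfl⟩))⟩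
  have v4 : ∀ x, Commute V (Ψ (θ₄ x)) := fun x => v1 ⟨θ₄ x, StarSubalgebra.le_topologicalClosure _
    (StarAlgebra.subset_adjoin ℂ _ (.inr ⟨x, rfl⟩))⟩
  have hW' := map_unitary Ψ hW
  obtain ⟨l, hl⟩ := h Q p q hp hq (Ψ.comp θ₄) _ (Unitary.star_mem hV) _ (Unitary.star_mem hW')
    (fun x => by simpa [← map_star] using (v4 (star x)).star_star)
    fun x => by simpa [← map_star] using ((w1 (star x)).map Ψ).star_star
  refine ⟨l, fun z hz => ⟨star W * θ₃ (f z) * W, ?_⟩⟩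
  have a1 := (norm_ad hV _ _).trans_le ((map_sub κ _ _ ▸ hom_le κ _).trans (h1 z hz))
  rw [norm_sub_rev] at a1
  have a2 := (norm_sub_le_norm_sub_add_norm_sub _ _ _).trans (add_le_add a1 (v2 z hz))
  have a3 := (hom_le Ψ _).trans (w2 z hz)
  simp only [map_sub, map_mul, map_star] at a3
  have a4 := (norm_sub_le_norm_sub_add_norm_sub _ _ _).trans
    (add_le_add ((norm_ad hW' _ _).trans_le a2) a3)
  have v5 : Commute (star V) (Ψ (θ₃ (f z))) := by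
    simpa [← map_star] using (v3 (star (f z))).star_star
  rw [← norm_ad (Unitary.star_mem hV), ad_comm (Unitary.star_mem hV) v5,
    ← norm_ad (Unitary.star_mem hW')] at a4
  rw [hl]
  refine le_of_eq_of_le ?_ (a4.trans_eq (by ring))
  simp only [mul_assoc, map_star, map_mul, star_mul, star_star, StarAlgHom.comp_apply]

end Vale.Agent.P095
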