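import Vale.Agent.P095.Basic

/-! Almost invariant martingale increments. -/

open Filter Topology TopologicalSpace

namespace Vale.Agent.P095

open Vale.Agent.P101

/-- The weight function. -/
noncomputable def IncK (η s : ℝ) : ℝ := (√(|s| + η))⁻¹

theorem IncK_cont {η : ℝ} (hη : 0 < η) : Continuous (IncK η) :=
  (continuous_abs.add continuous_const).sqrt.inv₀ fun s =>
    (Real.sqrt_pos.2 (add_pos_of_nonneg_of_pos (abs_nonneg s) hη)).ne'

theorem IncK_nonneg (η s : ℝ) : 0 ≤ IncK η s := inv_nonneg.2 (Real.sqrt_nonneg _)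

theorem IncK_le {η : ℝ} (hη : 0 < η) (s : ℝ) : √(IncK η s) ≤ √(√η)⁻¹ :=
  Real.sqrt_le_sqrt (inv_anti₀ (Real.sqrt_pos.2 hη)
    (Real.sqrt_le_sqrt (le_add_of_nonneg_left (abs_nonneg s))))

theorem IncK_sq {η s : ℝ} (hη : 0 < η) (hs : 0 ≤ s) :
    (s * IncK η s) ^ 2 = s - η * (s * (|s| + η)⁻¹) := by
  rw [IncK, mul_pow, inv_pow, Real.sq_sqrt (by positivity), abs_of_nonneg hs]
  field_simp
  ring

theorem IncK_sqrt {η s : ℝ} (hη : 0 < η) (hs : 0 ≤ s) :
    (s * IncK η s - √s) ^ 2 ≤ η * (s * (|s| + η)⁻¹) := by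
  have h1 := IncK_sq hη hs
  have h2 : 0 ≤ s * IncK η s := mul_nonneg hs (IncK_nonneg _ _)
  have h3 : s * IncK η s ≤ √s := Real.le_sqrt_of_sq_le (by
    rw [h1]
    exact sub_le_self _ (by positivity))
  have h4 := Real.sq_sqrt hs
  nlinarith

section ops

variable {M : Type} [CStarAlgebra M] {τ : M →ₗ[ℝ] ℝ} {ι : Type} [Fintype ι]

theorem Inc_f (h1 : ConS) (h : IsRT τ) {P : ι → M} (hP : ∀ i, Prj (P i)) {η : ℝ} (hη : 0 < η) :
    (1 - η) * τ (∑ i, P i) ≤ τ (cfc (fun s => (s * IncK η s) ^ 2) (∑ i, P i)) ∧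
    τ (cfc (fun s => s * IncK η s) (∑ i, P i) * cfc (fun s => s * IncK η s) (∑ i, P i)) ≤
      τ (∑ i, P i) ∧
    nu τ (cfc (fun s => s * IncK η s) (∑ i, P i) - cfc Real.sqrt (∑ i, P i)) ^ 2 ≤
      η * τ (∑ i, P i) := by
  have c1 : Continuous fun s : ℝ => (|s| + η)⁻¹ :=
    (continuous_abs.add continuous_const).inv₀ fun s =>
      (add_pos_of_nonneg_of_pos (abs_nonneg s) hη).ne'
  have a1 := (h1 M τ h).2.2 ι P _ hP c1 (fun s => by positivity) fun s hs => by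
    rw [abs_of_nonneg hs, mul_inv_le_iff₀ (by positivity)]
    linarith
  have ha : Pos (∑ i, P i) := Pos.sum fun i _ => (hP i).pos
  generalize ∑ i, P i = a at *
  have sa := ha.sa
  have c2 : Continuous fun s : ℝ => s * (|s| + η)⁻¹ := continuous_id.mul c1
  have c3 : Continuous fun s : ℝ => s * IncK η s := continuous_id.mul (IncK_cont hη)
  have c4 := Real.continuous_sqrt
  have c5 : Continuous fun s : ℝ => η * (s * (|s| + η)⁻¹) := continuous_const.mul c2
  have c6 : Continuous fun s : ℝ => s * IncK η s - √s := c3.sub c4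
  have c7 : Continuous fun s : ℝ => (s * IncK η s - √s) ^ 2 := c6.pow 2
  have a2 : 0 ≤ τ (cfc (fun s : ℝ => s * (|s| + η)⁻¹) a) :=
    h.nonneg (Pos.cfc fun s hs => mul_nonneg (ha.spec s hs) (by positivity))
  have e1 : cfc (fun s => (s * IncK η s) ^ 2) a = a - η • cfc (fun s : ℝ => s * (|s| + η)⁻¹) a := by
    rw [cfc_congr fun s hs => IncK_sq hη (ha.spec s hs), cfc_sub _ _ a (continuousOn_id' _)
      c5.continuousOn, cfc_const_mul _ _ a c2.continuousOn, cfc_id' ℝ a]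
  have a3 := mul_le_mul_of_nonneg_left a1 hη.le
  refine ⟨?_, ?_, ?_⟩
  · rw [e1, map_sub, map_smul, smul_eq_mul]
    linarith
  · rw [← sq, ← cfc_pow _ 2 a c3.continuousOn, e1, map_sub, map_smul, smul_eq_mul]
    exact sub_le_self _ (mul_nonneg hη.le a2)
  · rw [← cfc_sub _ _ a c3.continuousOn c4.continuousOn, h.nu_sq_sa IsSelfAdjoint.cfc, ← sq,
      ← cfc_pow _ 2 a c6.continuousOn]
    refine le_trans ?_ a3
    rw [← smul_eq_mul, ← map_smul, ← cfc_const_mul _ _ a c2.continuousOn]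
    refine h.mono ?_
    rw [← cfc_sub _ _ a c5.continuousOn c7.continuousOn]
    exact Pos.cfc fun s hs => sub_nonneg.2 (IncK_sqrt hη (ha.spec s hs))

theorem Inc_comm (κ : ℝ → ℝ) {E X : ι → M} {w : M} (h1 : ∀ g, Commute (E g) w)
    (h2 : ∀ g, Commute (X g) w) : Commute (blkOp κ E X) w := by
  have c1 := (Commute.sum_left Finset.univ _ _ fun g _ => h1 g).cfc_real fun s => √(κ s)
  exact (c1.mul_left (Commute.sum_left _ _ _ fun g _ => (h1 g).mul_left (h2 g))).mul_left c1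

theorem Inc_zero (h : IsRT τ) (κ : ℝ → ℝ) {E X Z : ι → M} (hc : Cfg E X Z) {w : M}
    (hw : ∀ g, Commute w (Z g)) : τ (w * blkOp κ E X) = 0 := by
  rw [blkOp, ← mul_assoc, h.comm, ← mul_assoc, ← mul_assoc, Finset.mul_sum, map_sum]
  refine Finset.sum_eq_zero fun g _ => ?_
  have c1 := (Commute.sum_left Finset.univ _ _ fun g' _ => hc.cz g' g).cfc_real fun s => √(κ s)
  rw [← mul_assoc]
  exact h.pauli (hc.pauli g) (((c1.mul_left (hw g)).mul_left c1).mul_left (hc.cz g g))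

theorem Inc_map (π : M ≃⋆ₐ[ℂ] M) {κ : ℝ → ℝ} (hκ : Continuous κ) {E : ι → M} (X : ι → M)
    (hE : ∀ g, Prj (E g)) : π (blkOp κ E X) = blkOp κ (fun g => π (E g)) fun g => π (X g) := by
  have sa : IsSelfAdjoint (∑ g, E g) := (Pos.sum fun g _ => (hE g).pos).sa
  simp only [blkOp, map_mul, map_cfc' π hκ.sqrt.continuousOn sa, map_sum]

theorem Inc_norm {κ : ℝ → ℝ} {c : ℝ} (h0 : 0 ≤ c) (hκ : ∀ s, √(κ s) ≤ c) {E X Z : ι → M}
    (hc : Cfg E X Z) : ‖blkOp κ E X‖ ≤ c * Fintype.card ι * c := by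
  have a1 : ‖cfc (fun s => √(κ s)) (∑ g, E g)‖ ≤ c :=
    norm_cfc_le h0 fun s _ => by rw [Real.norm_of_nonneg (Real.sqrt_nonneg _)]; exact hκ s
  have a2 : ‖∑ g, E g * X g‖ ≤ Fintype.card ι := by
    refine (norm_sum_le _ _).trans ((Finset.sum_le_card_nsmul _ _ 1 fun g _ => ?_).trans (by simp))
    exact (norm_mul_le _ _).trans
      (mul_le_one₀ (hc.prj g).norm_le (norm_nonneg _) (hc.pauli g).norm_le)
  exact (norm_mul_le _ _).trans (mul_le_mul ((norm_mul_le _ _).trans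
    (mul_le_mul a1 a2 (norm_nonneg _) h0)) a1 (norm_nonneg _) (by positivity))

theorem Inc_prj {E X : M} (hE : Prj E) (sx : IsSelfAdjoint X) (xx : X * X = 1) (c : Commute E X) :
    Prj (E * pj X) := by
  have c1 : Commute E (pj X) := ((Commute.one_right _).add_right c).smul_right _
  have s1 : IsSelfAdjoint (pj X) := (IsSelfAdjoint.all _).smul ((IsSelfAdjoint.one M).add sx)
  have e : pj X * pj X = pj X := by
    simp only [pj, smul_mul_assoc, mul_smul_comm, add_mul, mul_add, one_mul, mul_one, xx]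
    module
  exact ⟨(hE.sa.commute_iff s1).1 c1, by rw [c1.symm.mul_mul_mul_comm, hE.sq, e]⟩

theorem Inc_prj_le (h : IsRT τ) {E X : M} (hE : Prj E) (sx : IsSelfAdjoint X) (xx : X * X = 1)
    (c : Commute E X) : τ (E * pj X) ≤ τ E := by
  refine h.mono ?_
  have := (Inc_prj hE sx.neg (by rwa [neg_mul_neg]) c.neg_right).pos
  rwa [show E * pj (-X) = E - E * pj X by
    simp only [pj, mul_smul_comm, mul_add, mul_one, mul_neg]; module] at this

theorem Inc_orth (h : IsRT τ) {d : ℕ → M} (c : ℕ → ℝ) (hd : ∀ i j, i < j → τ (d i * d j) = 0)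
    (a : ℕ) : τ ((∑ i ∈ Finset.range a, c i • d i) * ∑ i ∈ Finset.range a, c i • d i) =
      ∑ i ∈ Finset.range a, c i ^ 2 * τ (d i * d i) := by
  induction a with
  | zero => simp
  | succ a ih =>
    have e1 : τ ((∑ i ∈ Finset.range a, c i • d i) * d a) = 0 := by
      rw [Finset.sum_mul, map_sum]
      exact Finset.sum_eq_zero fun i hi => by
        rw [smul_mul_assoc, map_smul, hd i a (Finset.mem_range.1 hi), smul_zero]
    have e2 := (h.comm _ _).symm.trans e1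
    simp only [Finset.sum_range_succ, add_mul, mul_add, map_add, ih, smul_mul_assoc, mul_smul_comm,
      map_smul, e1, e2, smul_eq_mul]
    ring

theorem Inc_four (h : IsRT τ) (x y z w : M) : nu τ (x - y + (z - w)) ^ 2 ≤
    4 * (nu τ x ^ 2 + nu τ y ^ 2 + nu τ z ^ 2 + nu τ w ^ 2) := by
  have a1 := (h.nu_add_le _ _).trans (add_le_add (h.nu_sub_le x y) (h.nu_sub_le z w))
  have a2 := pow_le_pow_left₀ (nu_nonneg _ _) a1 2
  nlinarith [sq_nonneg (nu τ x - nu τ y), sq_nonneg (nu τ x - nu τ z), sq_nonneg (nu τ x - nu τ w),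
    sq_nonneg (nu τ y - nu τ z), sq_nonneg (nu τ y - nu τ w), sq_nonneg (nu τ z - nu τ w)]

theorem Inc_sum_le {G : Type} {P : G → M} {σ : ℝ} (hσ : ∀ g, τ (P g) ≤ σ) (S : Finset G) :
    τ (∑ g ∈ S, P g) ≤ S.card * σ := by
  rw [map_sum]
  exact (Finset.sum_le_card_nsmul _ _ σ fun g _ => hσ g).trans_eq (nsmul_eq_mul _ _)

open Classical in
theorem Inc_shift (h1 : ConS) (h : IsRT τ) {G : Type} [Group G] {P : G → M} (hP : ∀ g, Prj (P g))
    {σ θ : ℝ} (hθ : 0 < θ) (h0 : 0 ≤ σ) (hσ : ∀ g, τ (P g) ≤ σ) {F : Finset G} {t : G}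
    (hF : ((F.filter fun g => t * g ∉ F).card : ℝ) ≤ θ * F.card) :
    nu τ (cfc (fun s => s * IncK θ s) (∑ g : F, P (t * g)) -
      cfc (fun s => s * IncK θ s) (∑ g : F, P g)) ^ 2 ≤ 16 * θ * (F.card * σ) := by
  have a1 := (Inc_f h1 h (fun g : F => hP (t * g)) hθ).2.2
  have a2 := (Inc_f h1 h (fun g : F => hP g) hθ).2.2
  rw [Finset.sum_coe_sort F fun g => P (t * g)] at *
  rw [Finset.sum_coe_sort F P] at *
  have b1 := mul_le_mul_of_nonneg_left (Inc_sum_le (fun g => hσ (t * g)) F) hθ.le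
  have b2 := mul_le_mul_of_nonneg_left (Inc_sum_le hσ F) hθ.le
  set S := F.filter fun g => t * g ∈ F with hS
  have pH : Pos (∑ g ∈ S, P (t * g)) := Pos.sum fun g _ => (hP _).pos
  have e1 : ∑ g ∈ F, P (t * g) - ∑ g ∈ S, P (t * g) =
      ∑ g ∈ F.filter fun g => t * g ∉ F, P (t * g) := by
    rw [← Finset.sum_filter_add_sum_filter_not F fun g => t * g ∈ F, add_sub_cancel_left]
  have s1 : S.image (t * ·) ⊆ F := Finset.image_subset_iff.2 fun g hg => (Finset.mem_filter.1 hg).2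
  have e2 : ∑ g ∈ F, P g - ∑ g ∈ S, P (t * g) = ∑ g ∈ F \ S.image (t * ·), P g := by
    rw [Finset.sum_sdiff_eq_sub s1, Finset.sum_image (mul_right_injective t).injOn]
  have e3 : (F \ S.image (t * ·)).card = (F.filter fun g => t * g ∉ F).card := by
    have := Finset.card_filter_add_card_filter_not (s := F) fun g => t * g ∈ F
    rw [Finset.card_sdiff_of_subset s1, Finset.card_image_of_injective _ (mul_right_injective t),
      ← this, Nat.add_sub_cancel_left]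
  have c1 := (h1 M τ h).1 _ _ pH (e1 ▸ Pos.sum fun g _ => (hP _).pos)
  have c2 := (h1 M τ h).1 _ _ pH (e2 ▸ Pos.sum fun g _ => (hP _).pos)
  rw [e1] at c1
  rw [e2] at c2
  have d1 := Inc_sum_le (fun g => hσ (t * g)) (F.filter fun g => t * g ∉ F)
  have d2 := Inc_sum_le hσ (F \ S.image (t * ·))
  rw [e3] at d2
  have d3 := mul_le_mul_of_nonneg_right hF h0
  have key := Inc_four h (cfc (fun s => s * IncK θ s) (∑ g ∈ F, P (t * g)) -
      cfc Real.sqrt (∑ g ∈ F, P (t * g)))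
    (cfc (fun s => s * IncK θ s) (∑ g ∈ F, P g) - cfc Real.sqrt (∑ g ∈ F, P g))
    (cfc Real.sqrt (∑ g ∈ F, P (t * g)) - cfc Real.sqrt (∑ g ∈ S, P (t * g)))
    (cfc Real.sqrt (∑ g ∈ F, P g) - cfc Real.sqrt (∑ g ∈ S, P (t * g)))
  rw [show ∀ x y z w v : M, x - z - (y - w) + (z - v - (w - v)) = x - y from fun x y z w v => by
    abel] at key
  linarith

/-- The total overlap. -/
noncomputable def IncR (τ : M →ₗ[ℝ] ℝ) (E X : ι → M) : ℝ :=
  ∑ g, ∑ g', nu τ (E g' * E g * (X g - X g')) ^ 2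

theorem IncR_nonneg (E X : ι → M) : 0 ≤ IncR τ E X :=
  Finset.sum_nonneg fun _ _ => Finset.sum_nonneg fun _ _ => sq_nonneg _

theorem IncR_le (E X : ι → M) (g g' : ι) : nu τ (E g' * E g * (X g - X g')) ≤ √(IncR τ E X) :=
  Real.le_sqrt_of_sq_le ((Finset.single_le_sum (f := fun g' => nu τ (E g' * E g * (X g - X g')) ^ 2)
    (fun _ _ => sq_nonneg _) (Finset.mem_univ g')).trans
    (Finset.single_le_sum (f := fun g => ∑ g', nu τ (E g' * E g * (X g - X g')) ^ 2)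
      (fun _ _ => Finset.sum_nonneg fun _ _ => sq_nonneg _) (Finset.mem_univ g)))

end ops

/-- The estimates for one block. -/
theorem Inc_blk (h1 : ConS) (h2 : BlkS) (ι : Type) [Fintype ι] [Nonempty ι] {θ : ℝ} (hθ : 0 < θ) :
    ∃ C : ℝ, 0 ≤ C ∧ ∀ (M : Type) [CStarAlgebra M] (τ : M →ₗ[ℝ] ℝ) (E X Z : ι → M) (σ : ℝ),
      IsRT τ → Cfg E X Z → (∀ g, τ (E g) = σ) →
      nu τ (blkOp (IncK θ) E X - (cfc (fun s => s * IncK θ s) (∑ g, E g * pj (X g)) -
        cfc (fun s => s * IncK θ s) (∑ g, E g * pj (-X g)))) ^ 2 ≤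
        2 * C * IncR τ E X + 2 * θ ^ 2 * (Fintype.card ι * σ) ∧
      (1 - 3 * θ) * (Fintype.card ι * σ) - C / θ * IncR τ E X ≤
        τ (blkOp (IncK θ) E X * blkOp (IncK θ) E X) ∧
      τ (blkOp (IncK θ) E X * blkOp (IncK θ) E X) ≤ Fintype.card ι * σ := by
  obtain ⟨a1, a2⟩ := h2 ι (IncK θ) (IncK_cont hθ) (IncK_nonneg θ)
  obtain ⟨C, C0, hC⟩ := a2 θ hθ
  refine ⟨C ^ 2, sq_nonneg C, fun M _ τ E X Z σ hτ hc hσ => ?_⟩
  have s0 : 0 ≤ σ := hσ (Classical.arbitrary ι) ▸ hτ.nonneg (hc.prj _).pos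
  obtain ⟨b1, b2, -⟩ := hC M τ E X Z _ (√σ) hτ hc (Real.sqrt_nonneg _) (Real.sqrt_nonneg _)
    (fun g => by rw [nu, (hc.prj g).sa.star_eq, (hc.prj g).sq, hσ]) (IncR_le E X)
  obtain ⟨c1, c2, -⟩ := Inc_f h1 hτ hc.prj hθ
  have e1 : τ (∑ g, E g) = Fintype.card ι * σ := by simp [map_sum, hσ]
  rw [e1] at c1 c2
  have n1 : σ ≤ Fintype.card ι * σ :=
    le_mul_of_one_le_left s0 (Nat.one_le_cast.2 Fintype.card_pos)
  have r1 := Real.sq_sqrt (IncR_nonneg (τ := τ) E X)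
  have r2 := Real.sq_sqrt s0
  generalize √(IncR τ E X) = ρ at *
  generalize √σ = s at *
  refine ⟨(pow_le_pow_left₀ (nu_nonneg _ _) b1 2).trans ?_, ?_,
    (hτ.sq_le (a1 M E X Z hc).2.1 (a1 M E X Z hc).2.2).trans c2⟩
  · rw [← r1]
    nlinarith [sq_nonneg (C * ρ - θ * s), mul_le_mul_of_nonneg_left n1 (sq_nonneg θ)]
  · have e2 : C * ρ * s ≤ C ^ 2 / θ * ρ ^ 2 + θ * s ^ 2 := by
      rw [div_mul_eq_mul_div, div_add' _ _ _ hθ.ne', le_div_iff₀ hθ]
      nlinarith [sq_nonneg (C * ρ - θ * s), sq_nonneg (C * ρ), sq_nonneg (θ * s)]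
    rw [← r1]
    nlinarith [mul_le_mul_of_nonneg_left n1 hθ.le]

theorem incS (h1 : ConS) (h2 : BlkS) (h3 : FamS) : IncS := by
  intro G _ _ hG K ε hε
  obtain ⟨θ, θ0, θ1, θ2⟩ : ∃ θ : ℝ, 0 < θ ∧ θ ≤ 1 / 8 ∧ 208 * θ ≤ ε :=
    ⟨min (1 / 8) (ε / 208), by positivity, min_le_left _ _, by
      linarith [min_le_right (1 / 8) (ε / 208)]⟩
  obtain ⟨F, hF, hK⟩ := hG K θ θ0
  have := hF.to_subtype
  obtain ⟨C, C0, hC⟩ := Inc_blk h1 h2 F θ0
  rw [Fintype.card_coe] at hC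
  have n0 : (0 : ℝ) < F.card := Nat.cast_pos.2 hF.card_pos
  obtain ⟨a, ha⟩ := exists_nat_gt (4 * C * F.card / θ ^ 2)
  have a0 : (0 : ℝ) < a := lt_of_le_of_lt (by positivity) ha
  obtain ⟨c, c0, c2⟩ : ∃ c : ℕ → ℝ, (∀ i, 0 ≤ c i) ∧ ∀ i, c i ^ 2 = 2 ^ i / (a * F.card) :=
    ⟨fun i => √(2 ^ i / (a * F.card)), fun _ => Real.sqrt_nonneg _,
      fun _ => Real.sq_sqrt (by positivity)⟩
  refine ⟨∑ i ∈ Finset.range a, c i * (√(√θ)⁻¹ * F.card * √(√θ)⁻¹) + 1,
    add_pos_of_nonneg_of_pos (Finset.sum_nonneg fun i _ => mul_nonneg (c0 i) (by positivity))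
      one_pos, fun M _ α hM => ?_⟩
  obtain ⟨E, X, Z, ch, hov⟩ := (h3 G M α hM).1
  have cf : ∀ (t : G) i, Cfg (fun g : F => α (t * g) (E i)) (fun g : F => α (t * g) (X i))
      fun g : F => α (t * g) (Z i) := fun t i => ⟨fun _ => (ch.prj i).map _,
    fun _ => (ch.pauli i).map _, fun _ _ => (ch.ce i i _ _ le_rfl).1,
    fun _ _ => (ch.ce i i _ _ le_rfl).2⟩
  obtain ⟨U, hU⟩ : ∃ U : G → ℕ → M, ∀ t i, U t i =
      blkOp (IncK θ) (fun g : F => α (t * g) (E i)) fun g : F => α (t * g) (X i) :=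
    ⟨_, fun _ _ => rfl⟩
  have sU : ∀ t i, IsSelfAdjoint (U t i) := fun t i =>
    hU t i ▸ ((h2 F _ (IncK_cont θ0) (IncK_nonneg θ)).1 M _ _ _ (cf t i)).1
  have mU : ∀ t i, α t (U 1 i) = U t i := fun t i => by
    rw [hU, hU, Inc_map _ (IncK_cont θ0) _ (cf 1 i).prj]
    simp only [act_mul, one_mul]
  have sd : ∀ d : ℕ → M, (∀ i, IsSelfAdjoint (d i)) →
      IsSelfAdjoint (∑ i ∈ Finset.range a, c i • d i) := fun d hd =>
    isSelfAdjoint_sum _ fun i _ => (IsSelfAdjoint.all _).smul (hd i)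
  refine ⟨∑ i ∈ Finset.range a, c i • U 1 i, sd _ (sU 1), ?_, fun τ hτ => ?_⟩
  · refine ((norm_sum_le _ _).trans (Finset.sum_le_sum fun i _ => ?_)).trans (lt_add_one _).le
    rw [norm_smul, Real.norm_of_nonneg (c0 i), hU, ← Fintype.card_coe]
    exact mul_le_mul_of_nonneg_left (Inc_norm (Real.sqrt_nonneg _) (IncK_le θ0) (cf 1 i)) (c0 i)
  have t0 := hτ.one_nonneg
  have oU : ∀ t t' i j, i < j → τ (U t i * U t' j) = 0 := fun t t' i j hij => by
    rw [hU t' j]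
    exact Inc_zero hτ _ (cf t' j) fun g => hU t i ▸ Inc_comm _ (fun _ => (ch.ce i j _ _ hij.le).2)
      fun _ => (ch.cx i j _ _ hij).2
  have tE : ∀ g i, τ (α g (E i)) = (1 / 2) ^ i * τ 1 := fun g i => by
    simpa using ch.tr _ (hτ.comp (α g)) i
  have hB := fun t i => hC M τ _ _ _ _ hτ (cf t i) fun g => tE _ i
  simp only [← hU] at hB
  have S1 : ∑ i ∈ Finset.range a, c i ^ 2 * (F.card * ((1 / 2) ^ i * τ 1)) = τ 1 := by
    rw [Finset.sum_congr rfl (g := fun _ => τ 1 / a) fun i _ => by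
      rw [c2, one_div, inv_pow]
      field_simp]
    rw [Finset.sum_const, Finset.card_range, nsmul_eq_mul, mul_div_cancel₀ _ a0.ne']
  have S2 : ∀ t, C * ∑ i ∈ Finset.range a, c i ^ 2 * IncR τ (fun g : F => α (t * g) (E i))
      (fun g : F => α (t * g) (X i)) ≤ θ ^ 2 * τ 1 := fun t => by
    have e1 : ∑ i ∈ Finset.range a, c i ^ 2 * IncR τ (fun g : F => α (t * g) (E i))
        (fun g : F => α (t * g) (X i)) = (∑ g : F, ∑ g' : F, ∑ i ∈ Finset.range a, 2 ^ i *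
          nu τ (α (t * g') (E i) * α (t * g) (E i) * (α (t * g) (X i) - α (t * g') (X i))) ^ 2) /
          (a * F.card) := by
      simp only [IncR, c2, Finset.mul_sum, Finset.sum_div]
      rw [Finset.sum_comm]
      refine Finset.sum_congr rfl fun g _ => ?_
      rw [Finset.sum_comm]
      exact Finset.sum_congr rfl fun g' _ => Finset.sum_congr rfl fun i _ => by ring
    have e2 := Finset.sum_le_card_nsmul (Finset.univ : Finset F) _ _ fun g _ =>
      Finset.sum_le_card_nsmul (Finset.univ : Finset F) _ _ fun g' _ => hov τ hτ (t * g) (t * g') a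
    rw [Finset.card_univ, Fintype.card_coe, nsmul_eq_mul, nsmul_eq_mul] at e2
    rw [div_lt_iff₀ (by positivity)] at ha
    rw [e1, ← mul_div_assoc, div_le_iff₀ (by positivity)]
    refine (mul_le_mul_of_nonneg_left e2 C0).trans ?_
    nlinarith [mul_le_mul_of_nonneg_right ha.le (mul_nonneg n0.le t0)]
  rw [Inc_orth hτ c (oU 1 1)]
  refine ⟨?_, ?_, ?_, fun t ht => ?_⟩
  · rw [map_sum]
    refine Finset.sum_eq_zero fun i _ => ?_
    rw [map_smul, ← one_mul (U 1 i), hU, Inc_zero hτ _ (cf 1 i) fun _ => Commute.one_left _,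
      smul_zero]
  · have e1 := Finset.sum_le_sum fun i (_ : i ∈ Finset.range a) =>
      mul_le_mul_of_nonneg_left (hB 1 i).2.1 (sq_nonneg (c i))
    simp only [mul_sub, Finset.sum_sub_distrib, mul_left_comm (c _ ^ 2) (1 - 3 * θ),
      mul_left_comm (c _ ^ 2) (C / θ), ← Finset.mul_sum, S1] at e1
    have e2 := div_le_div_of_nonneg_right (S2 1) θ0.le
    rw [← div_mul_eq_mul_div, sq, mul_assoc, mul_div_cancel_left₀ _ θ0.ne'] at e2
    nlinarith
  · exact (Finset.sum_le_sum fun i _ =>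
      mul_le_mul_of_nonneg_left (hB 1 i).2.2 (sq_nonneg (c i))).trans_eq S1
  · have e0 : α t (∑ i ∈ Finset.range a, c i • U 1 i) - ∑ i ∈ Finset.range a, c i • U 1 i =
        ∑ i ∈ Finset.range a, c i • (U t i - U 1 i) := by
      simp only [map_sum, map_rsmul, mU, smul_sub, Finset.sum_sub_distrib]
    rw [e0, hτ.nu_sq_sa (sd _ fun i => (sU t i).sub (sU 1 i)), Inc_orth hτ c fun i j hij => by
      simp only [sub_mul, mul_sub, map_sub, oU _ _ i j hij, sub_self]]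
    have e1 : ∀ i, τ ((U t i - U 1 i) * (U t i - U 1 i)) ≤
        (16 * θ ^ 2 + 128 * θ) * (F.card * ((1 / 2) ^ i * τ 1)) +
        8 * C * IncR τ (fun g : F => α (t * g) (E i)) (fun g : F => α (t * g) (X i)) +
        8 * C * IncR τ (fun g : F => α (1 * g) (E i)) fun g : F => α (1 * g) (X i) := fun i => by
      have p1 := fun g => (ch.pauli i).map (α g)
      have p2 := fun g => (ch.ce i i g g le_rfl).1
      have p3 := fun g => (ch.prj i).map (α g)
      have s0 : 0 ≤ (1 / 2) ^ i * τ 1 := by positivity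
      have q1 := Inc_shift h1 hτ (fun g => Inc_prj (p3 g) (p1 g).sx (p1 g).xx (p2 g)) θ0 s0
        (fun g => tE g i ▸ Inc_prj_le hτ (p3 g) (p1 g).sx (p1 g).xx (p2 g)) (hK t ht)
      have q2 := Inc_shift h1 hτ (fun g => Inc_prj (p3 g) (p1 g).sx.neg
        ((neg_mul_neg _ _).trans (p1 g).xx) (p2 g).neg_right) θ0 s0
        (fun g => tE g i ▸ Inc_prj_le hτ (p3 g) (p1 g).sx.neg
          ((neg_mul_neg _ _).trans (p1 g).xx) (p2 g).neg_right) (hK t ht)
      have q3 := (hB t i).1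
      have q4 := (hB 1 i).1
      simp only [one_mul] at q4 ⊢
      have key := (Inc_four hτ _ _ _ _).trans (mul_le_mul_of_nonneg_left
        (add_le_add (add_le_add (add_le_add q3 q4) q1) q2) (by norm_num))
      rw [show ∀ x y p p' m m' : M, x - (p - m) - (y - (p' - m')) + (p - p' - (m - m')) = x - y from
        fun x y p p' m m' => by abel, hτ.nu_sq_sa ((sU t i).sub (sU 1 i))] at key
      linarith
    have e2 := Finset.sum_le_sum fun i (_ : i ∈ Finset.range a) =>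
      mul_le_mul_of_nonneg_left (e1 i) (sq_nonneg (c i))
    simp only [mul_add (c _ ^ 2), Finset.sum_add_distrib,
      mul_left_comm (c _ ^ 2) (16 * θ ^ 2 + 128 * θ), mul_left_comm (c _ ^ 2) (8 * C),
      ← Finset.mul_sum, S1] at e2
    have e3 := S2 t
    have e4 := S2 1
    have e5 := mul_le_mul_of_nonneg_right θ2 t0
    have e6 : θ ^ 2 * τ 1 ≤ θ * τ 1 := mul_le_mul_of_nonneg_right (by nlinarith) t0
    have e7 := mul_nonneg θ0.le t0
    linarith

end Vale.Agent.P095
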