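import Vale.Agent.P095.Basic

/-! Convex combinations of blocks. -/

open TopologicalSpace

namespace Vale.Agent.P095

namespace Mix

theorem convex {E : Type*} [NormedAddCommGroup E] [NormedSpace ℝ E] {S : Set E} (hS : IsClosed S)
    (h : ∀ x ∈ S, ∀ y ∈ S, (1 / 2 : ℝ) • (x + y) ∈ S) : Convex ℝ S := by
  refine convex_iff_add_mem.2 fun x hx y hy a b ha hb hab => ?_
  have key : ∀ (n : ℕ) (s : ℝ), 0 ≤ s → s ≤ 1 →
      ∃ r : ℝ, (1 - r) • x + r • y ∈ S ∧ |s - r| ≤ (1 / 2) ^ n := by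
    intro n
    induction n with
    | zero => exact fun s h0 h1 => ⟨0, by simpa, by simpa [abs_of_nonneg h0]⟩
    | succ n ih =>
      intro s h0 h1
      rcases le_total s (1 / 2) with hs | hs
      · obtain ⟨r, hr, e⟩ := ih (2 * s) (by linarith) (by linarith)
        refine ⟨r / 2, Set.mem_of_eq_of_mem (by module) (h _ hx _ hr), ?_⟩
        rw [abs_le] at e ⊢
        constructor <;> linarith [pow_succ (1 / 2 : ℝ) n]
      · obtain ⟨r, hr, e⟩ := ih (2 * s - 1) (by linarith) (by linarith)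
        refine ⟨(r + 1) / 2, Set.mem_of_eq_of_mem (by module) (h _ hy _ hr), ?_⟩
        rw [abs_le] at e ⊢
        constructor <;> linarith [pow_succ (1 / 2 : ℝ) n]
  have hT : IsClosed {r : ℝ | (1 - r) • x + r • y ∈ S} := hS.preimage (by fun_prop)
  rw [show a = 1 - b by linarith]
  refine hT.closure_subset (Metric.mem_closure_iff.2 fun ε hε => ?_)
  obtain ⟨n, hn⟩ := exists_pow_lt_of_lt_one hε (by norm_num : (1 / 2 : ℝ) < 1)
  obtain ⟨r, hr, e⟩ := key n b hb (by linarith)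
  exact ⟨r, hr, e.trans_lt hn⟩

variable {M : Type} [CStarAlgebra M] {t a b c d u v q : M} {τ : M →ₗ[ℝ] ℝ}

/-- The mixture of two elements. -/
def mx (t a b : M) : M := a * t + b * (1 - t)

theorem mx_mul (hc : Commute t c) (hd : Commute t d) :
    mx t a b * mx t c d = mx t (a * c) (b * d) - (a - b) * (c - d) * (t - t * t) := by
  have h1 : ∀ x, t * (c * x) = c * (t * x) := fun x => hc.left_comm x
  have h2 : ∀ x, t * (d * x) = d * (t * x) := fun x => hd.left_comm x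
  simp only [mx, mul_add, add_mul, mul_sub, sub_mul, mul_assoc, mul_one, h1, h2, hd.eq]
  abel

theorem mx_star (ht : Pos t) (ha : Commute t (star a)) (hb : Commute t (star b)) :
    star (mx t a b) = mx t (star a) (star b) := by
  simp only [mx, star_add, star_mul, star_sub, ht.sa.star_eq, mul_sub, ha.eq, hb.eq, mul_one]

theorem mx_sub : mx t a b - mx t c d = mx t (a - c) (b - d) := by
  simp only [mx, sub_mul]
  abel

theorem mx_add : mx t a b + mx t c d = mx t (a + c) (b + d) := by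
  simp only [mx, add_mul]
  abel

theorem mx_pos (ht : Pos t) (ht' : Pos (1 - t)) (ha : Pos a) (hb : Pos b) (h : Commute t a)
    (h' : Commute t b) : Pos (mx t a b) :=
  (ha.mul ht h.symm).add (hb.mul ht' ((Commute.one_right b).sub_right h'.symm))

theorem mx_norm (ht : Pos t) (ht' : Pos (1 - t)) : ‖mx t a b‖ ≤ ‖a‖ + ‖b‖ :=
  norm_add_le_of_le
    ((norm_mul_le _ _).trans (mul_le_of_le_one_right (norm_nonneg _)
      ((ht.norm_le ht').trans norm_one_le')))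
    ((norm_mul_le _ _).trans (mul_le_of_le_one_right (norm_nonneg _)
      ((ht'.norm_le (by simpa using ht)).trans norm_one_le')))

theorem norm_le (h1 : Pos (q - u)) (h2 : Pos (q + u)) (h : Pos (1 - q)) : ‖u‖ ≤ 1 :=
  norm_le_of_pos zero_le_one (by simpa using h.add h1) (by simpa [← add_assoc] using h.add h2)

theorem blk_norm (h : Blk u v q) : ‖u‖ ≤ 1 ∧ ‖v‖ ≤ 1 ∧ ‖q‖ ≤ 1 := by
  have e : Pos (q + q) := by simpa using h.u1.add h.u2
  exact ⟨norm_le h.u1 h.u2 h.le, norm_le h.v1 h.v2 h.le,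
    norm_le (by simpa using Pos.zero) e h.le⟩

theorem norm_sub_two (ha : ‖a‖ ≤ 1) (hb : ‖b‖ ≤ 1) : ‖a - b‖ ≤ 2 :=
  (norm_sub_le_of_le ha hb).trans_eq one_add_one_eq_two

/-- A selector for the subalgebra `D`. -/
structure Sl (D : StarSubalgebra ℂ M) (t : M) (τ : M →ₗ[ℝ] ℝ) : Prop where
  rt : IsRT τ
  p : Pos t
  p' : Pos (1 - t)
  cm : ∀ w ∈ D, Commute t w
  hf : ∀ w ∈ D, τ (w * t) = τ w / 2

variable {D : StarSubalgebra ℂ M}

theorem Sl.r (h : Sl D t τ) : Pos (t - t * t) := by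
  simpa [mul_sub] using h.p.mul h.p' ((Commute.one_right t).sub_right (Commute.refl t))

theorem Sl.tr (h : Sl D t τ) (ha : a ∈ D) (hb : b ∈ D) : τ (mx t a b) = (τ a + τ b) / 2 := by
  simp only [mx, mul_sub, map_add, map_sub, mul_one, h.hf _ ha, h.hf _ hb]
  ring

theorem Sl.sq (h : Sl D t τ) (ha : a ∈ D) (hb : b ∈ D) : τ (star (mx t a b) * mx t a b) =
    (τ (star a * a) + τ (star b * b)) / 2 - τ (star (a - b) * (a - b) * (t - t * t)) := by
  rw [mx_star h.p (h.cm _ (star_mem ha)) (h.cm _ (star_mem hb)), mx_mul (h.cm _ ha) (h.cm _ hb),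
    map_sub, h.tr (mul_mem (star_mem ha) ha) (mul_mem (star_mem hb) hb), star_sub]

theorem Sl.inv (h : Sl D t τ) (β : M ≃⋆ₐ[ℂ] M) (ha : β a - a ∈ D) (hb : β b - b ∈ D)
    (ha' : ‖β a‖ ≤ 1 ∧ ‖a‖ ≤ 1) (hb' : ‖β b‖ ≤ 1 ∧ ‖b‖ ≤ 1) {δ : ℝ} (h0 : 0 ≤ δ) (h1 : δ ≤ 1)
    (hδ : nu τ (β t - t) ^ 2 ≤ δ ^ 2 * τ 1) : nu τ (β (mx t a b) - mx t a b) ^ 2 ≤
      (nu τ (β a - a) ^ 2 + nu τ (β b - b) ^ 2) / 2 + 20 * δ * τ 1 := by
  have e : β (mx t a b) - mx t a b = mx t (β a - a) (β b - b) + (β a - β b) * (β t - t) := by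
    simp only [mx, map_add, map_mul, map_sub, mul_sub, sub_mul, mul_one]
    abel
  have s0 := Real.sqrt_nonneg (τ 1)
  have s1 := Real.sq_sqrt h.rt.one_nonneg
  have a1 : nu τ (β t - t) ≤ δ * √(τ 1) :=
    (sq_le_sq₀ (nu_nonneg _ _) (by positivity)).1 (by rwa [mul_pow, s1])
  have a2 := (h.rt.nu_mul_le _ _).trans
    (mul_le_mul (norm_sub_two ha'.1 hb'.1) a1 (nu_nonneg _ _) zero_le_two)
  have a3 := (h.rt.nu_le _).trans (mul_le_mul_of_nonneg_right ((mx_norm h.p h.p').trans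
    (add_le_add (norm_sub_two ha'.1 ha'.2) (norm_sub_two hb'.1 hb'.2))) s0)
  have a4 := h.sq ha hb
  have a5 := h.rt.mul_nonneg (Pos.sq (β a - a - (β b - b))) h.r
  have a6 := pow_le_pow_left₀ (nu_nonneg _ _)
    ((h.rt.nu_add_le (mx t (β a - a) (β b - b)) _).trans (add_le_add le_rfl a2)) 2
  rw [← h.rt.nu_sq, ← h.rt.nu_sq, ← h.rt.nu_sq] at a4
  rw [e]
  nlinarith [mul_le_mul_of_nonneg_right a3 (mul_nonneg h0 s0),
    mul_le_mul_of_nonneg_right h1 (mul_nonneg h0 h.rt.one_nonneg)]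

theorem Yc_mem (ha : a ∈ D) (hb : b ∈ D) : Yc a b ∈ D := by
  rw [Yc, ← Complex.coe_smul]
  exact SMulMemClass.smul_mem _ (sub_mem (mul_mem ha hb) (mul_mem hb ha))

theorem Sl.yc (h : Sl D t τ) (ha : a ∈ D) (hb : b ∈ D) (hc : c ∈ D) (hd : d ∈ D) (na : ‖a‖ ≤ 1)
    (nb : ‖b‖ ≤ 1) (nc : ‖c‖ ≤ 1) (nd : ‖d‖ ≤ 1) :
    (τ (star (Yc a c) * Yc a c) + τ (star (Yc b d) * Yc b d)) / 2 - 20 * τ (t - t * t) ≤
      τ (star (Yc (mx t a b) (mx t c d)) * Yc (mx t a b) (mx t c d)) := by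
  have e : Yc (mx t a b) (mx t c d) =
      mx t (Yc a c) (Yc b d) - Yc (a - b) (c - d) * (t - t * t) := by
    rw [Yc, mx_mul (h.cm _ hc) (h.cm _ hd), mx_mul (h.cm _ ha) (h.cm _ hb)]
    simp only [Yc, mx, smul_mul_assoc, sub_mul (_ * _)]
    module
  have n1 := norm_Yc_le na nc
  have n2 := norm_Yc_le nb nd
  have n3 : ‖Yc (a - b) (c - d)‖ ≤ 4 := by
    have k : ∀ {x y : M}, ‖x‖ ≤ 2 → ‖y‖ ≤ 2 → ‖x * y‖ ≤ 2 * 2 := fun hx hy =>
      norm_mul_le_of_le hx hy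
    have := norm_sub_le_of_le (k (norm_sub_two na nb) (norm_sub_two nc nd))
      (k (norm_sub_two nc nd) (norm_sub_two na nb))
    rw [Yc, norm_smul, Real.norm_of_nonneg (by norm_num)]
    linarith
  have r0 := h.rt.nonneg h.r
  have a1 := h.sq (Yc_mem ha hc) (Yc_mem hb hd)
  have a2 := (le_abs_self _).trans ((h.rt.abs_mul_le h.r _).trans (mul_le_mul_of_nonneg_right
    (norm_mul_le_of_le ((norm_star _).trans_le (norm_sub_two n1 n2)) (norm_sub_two n1 n2)) r0))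
  have a3 := (le_abs_self _).trans ((h.rt.abs_mul_le h.r _).trans (mul_le_mul_of_nonneg_right
    (norm_mul_le_of_le ((norm_star _).trans_le ((mx_norm h.p h.p').trans (add_le_add n1 n2))) n3)
    r0))
  have a4 := h.rt.pos (Yc (a - b) (c - d) * (t - t * t))
  have k : ∀ x y : M, τ (star (x - y) * (x - y)) =
      τ (star x * x) - 2 * τ (star x * y) + τ (star y * y) := fun x y => by
    rw [star_sub, sub_mul, mul_sub, mul_sub, map_sub, map_sub, map_sub, h.rt.symm x y]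
    ring
  rw [mul_assoc _ (Yc _ _)] at a3
  rw [e, k]
  linarith

variable {G : Type} [Group G] (α : Act G M) (K : Finset G)

/-- The element that represents the cost. -/
noncomputable def ce (u v q : M) : M := q - star (Yc u v) * Yc u v +
  ∑ g ∈ K, (star (α g u - u) * (α g u - u) + star (α g v - v) * (α g v - v) +
    star (α g q - q) * (α g q - q))

theorem cost_eq (h : IsRT τ) : cost α K τ u v q = τ (ce α K u v q) := by
  simp only [cost, ce, h.nu_sq, map_add, map_sum]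

/-- Approximately achievable pairs. -/
def Ach : Set (M × M) := {p | ∀ ε : ℝ, 0 < ε → ∃ u v q, Blk u v q ∧ ∀ τ, IsRT τ →
  |τ q - τ p.1| ≤ ε * τ 1 ∧ cost α K τ u v q ≤ τ p.2 + ε * τ 1}

theorem closed : IsClosed (Ach α K) := by
  refine isClosed_of_closure_subset fun p hp ε hε => ?_
  obtain ⟨p', hp', e⟩ := Metric.mem_closure_iff.1 hp _ (half_pos hε)
  obtain ⟨u, v, q, hb, h⟩ := hp' _ (half_pos hε)
  rw [dist_eq_norm'] at e
  refine ⟨u, v, q, hb, fun τ hτ => ?_⟩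
  have a1 := (hτ.abs_le (p' - p).1).trans
    (mul_le_mul_of_nonneg_right ((norm_fst_le _).trans e.le) hτ.one_nonneg)
  have a2 := (hτ.abs_le (p' - p).2).trans
    (mul_le_mul_of_nonneg_right ((norm_snd_le _).trans e.le) hτ.one_nonneg)
  obtain ⟨a3, a4⟩ := h τ hτ
  simp only [Prod.fst_sub, Prod.snd_sub, map_sub, abs_le] at a1 a2 a3 ⊢
  exact ⟨⟨by linarith, by linarith⟩, by linarith⟩

theorem mid [Countable G] (h1 : SelS) (h2 : ResS) (hG : Fol G) (hM : FP M) {u v q u' v' q' : M}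
    (hb : Blk u v q) (hb' : Blk u' v' q') {ε : ℝ} (hε : 0 < ε) : ∃ x y z, Blk x y z ∧ ∀ τ, IsRT τ →
      τ z = (τ q + τ q') / 2 ∧
      cost α K τ x y z ≤ (cost α K τ u v q + cost α K τ u' v' q') / 2 + ε * τ 1 := by
  obtain ⟨M', _, α', i, hM', hi, hc⟩ := h2 G M α hM {u, v, q, u', v', q'}
    (Set.toFinite _).isSeparable
  obtain ⟨δ, δ0, δ1, δ2⟩ : ∃ δ : ℝ, 0 < δ ∧ δ ≤ 1 ∧ (20 + 60 * K.card) * δ ≤ ε :=
    ⟨min 1 (ε / (20 + 60 * K.card)), by positivity, min_le_left _ _,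
      (le_div_iff₀' (by positivity)).1 (min_le_right _ _)⟩
  obtain ⟨t, p, p', ht⟩ := h1 G hG M' α' hM' K _ (pow_pos δ0 2)
  have m1 : ∀ g, ∀ s ∈ ({u, v, q, u', v', q'} : Set M), α g s ∈ Cm i := fun g s hs =>
    mem_Cm.2 fun x => (hc x g s hs).symm
  have m2 : ∀ s ∈ ({u, v, q, u', v', q'} : Set M), s ∈ Cm i := fun s hs => by simpa using m1 1 s hs
  have m3 := fun g s hs => sub_mem (m1 g s hs) (m2 s hs)
  simp only [Set.mem_insert_iff, Set.mem_singleton_iff, forall_eq_or_imp, forall_eq] at m2 m3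
  obtain ⟨mu, mv, mq, mu', mv', mq'⟩ := m2
  have P := p.map i
  have P' : Pos (1 - i t) := by simpa using p'.map i
  have cm : ∀ w ∈ Cm i, Commute (i t) w := fun w hw => (mem_Cm.1 hw t).symm
  have k : ∀ {a b : M}, a ∈ Cm i → b ∈ Cm i → Pos a → Pos b → Pos (mx (i t) a b) :=
    fun ha hb pa pb => mx_pos P P' pa pb (cm _ ha) (cm _ hb)
  have k' : ∀ {a b : M}, a ∈ Cm i → b ∈ Cm i → IsSelfAdjoint a → IsSelfAdjoint b →
      IsSelfAdjoint (mx (i t) a b) := fun ha hb pa pb => by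
    rw [IsSelfAdjoint, mx_star P (cm _ (star_mem ha)) (cm _ (star_mem hb)), pa, pb]
  refine ⟨mx (i t) u u', mx (i t) v v', mx (i t) q q', ⟨k' mu mu' hb.su hb'.su,
    k' mv mv' hb.sv hb'.sv,
    (mx_sub (M := M)).symm ▸ k (sub_mem mq mu) (sub_mem mq' mu') hb.u1 hb'.u1,
    (mx_add (M := M)).symm ▸ k (add_mem mq mu) (add_mem mq' mu') hb.u2 hb'.u2,
    (mx_sub (M := M)).symm ▸ k (sub_mem mq mv) (sub_mem mq' mv') hb.v1 hb'.v1,
    (mx_add (M := M)).symm ▸ k (add_mem mq mv) (add_mem mq' mv') hb.v2 hb'.v2, ?_⟩, fun τ hτ => ?_⟩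
  · have := k (sub_mem (one_mem _) mq) (sub_mem (one_mem _) mq') hb.le hb'.le
    rwa [← mx_sub, mx.eq_1 _ 1, one_mul, one_mul, add_sub_cancel] at this
  have s : Sl (Cm i) (i t) τ := ⟨hτ, P, P', cm, fun w hw => by
    have := hτ.eq_zero_of_comm i (y := t - (1 / 2 : ℝ) • 1)
      (p.sa.sub ((IsSelfAdjoint.all _).smul (.one _)))
      (fun σ hσ => by rw [map_sub, map_smul, (ht σ hσ).1, smul_eq_mul]; ring)
      fun x => (mem_Cm.1 hw x).symm
    rw [map_sub, map_rsmul, map_one, mul_sub, mul_smul_comm, mul_one, map_sub, map_smul,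
      smul_eq_mul] at this
    linarith⟩
  obtain ⟨-, t1, t2⟩ := ht _ (hτ.comp i)
  simp only [nu_comp, LinearMap.comp_apply, rl_apply, map_one, map_sub i, map_mul i, hi] at t1 t2
  obtain ⟨n1, n2, n3⟩ := blk_norm hb
  obtain ⟨n4, n5, n6⟩ := blk_norm hb'
  have k2 : ∀ g ∈ K, ∀ {a b : M}, α g a - a ∈ Cm i → α g b - b ∈ Cm i → ‖a‖ ≤ 1 → ‖b‖ ≤ 1 → _ :=
    fun g hg a b ha hb na nb => s.inv (α g) ha hb ⟨(act_norm α g a).trans_le na, na⟩
      ⟨(act_norm α g b).trans_le nb, nb⟩ δ0.le δ1 (t2 g hg)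
  have a1 := s.yc mu mu' mv mv' n1 n4 n2 n5
  have a2 := Finset.sum_le_sum fun g hg => add_le_add (add_le_add
    (k2 g hg (m3 g).1 (m3 g).2.2.2.1 n1 n4) (k2 g hg (m3 g).2.1 (m3 g).2.2.2.2.1 n2 n5))
    (k2 g hg (m3 g).2.2.1 (m3 g).2.2.2.2.2 n3 n6)
  refine ⟨s.tr mq mq', ?_⟩
  simp only [cost, map_sub, s.tr mq mq', Finset.sum_add_distrib, ← Finset.sum_div,
    Finset.sum_const, nsmul_eq_mul] at a1 a2 t1 ⊢
  nlinarith [mul_le_mul_of_nonneg_right δ2 hτ.one_nonneg,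
    mul_le_mul_of_nonneg_right δ1 (mul_nonneg δ0.le hτ.one_nonneg)]

end Mix

open Mix in
theorem mixS (h1 : SelS) (h2 : ResS) : MixS := by
  intro G _ _ hG M _ α hM K J _ w u v q h0 hw hb ε hε
  have hc : Convex ℝ (Ach α K) := convex (closed α K) fun p hp p' hp' ε hε => by
    obtain ⟨u, v, q, hb, h⟩ := hp _ (half_pos hε)
    obtain ⟨u', v', q', hb', h'⟩ := hp' _ (half_pos hε)
    obtain ⟨x, y, z, hz, e⟩ := mid α K h1 h2 hG hM hb hb' (half_pos hε)
    refine ⟨x, y, z, hz, fun τ hτ => ?_⟩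
    obtain ⟨a1, a2⟩ := h τ hτ
    obtain ⟨a3, a4⟩ := h' τ hτ
    obtain ⟨a5, a6⟩ := e τ hτ
    have := mul_nonneg hε.le hτ.one_nonneg
    simp only [Prod.smul_fst, Prod.smul_snd, Prod.fst_add, Prod.snd_add, map_smul, map_add,
      smul_eq_mul, abs_le] at a1 a3 ⊢
    exact ⟨⟨by linarith, by linarith⟩, by linarith⟩
  obtain ⟨x, y, z, hz, e⟩ := hc.sum_mem (t := Finset.univ) (fun j _ => h0 j) hw
    (z := fun j => (q j, ce α K (u j) (v j) (q j))) (fun j _ ε hε => ⟨_, _, _, hb j, fun τ hτ => by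
      have := mul_nonneg hε.le hτ.one_nonneg
      simpa [cost_eq α K hτ] using this⟩) ε hε
  refine ⟨x, y, z, hz, fun τ hτ => ?_⟩
  simpa only [Prod.fst_sum, Prod.snd_sum, Prod.smul_mk, map_sum, map_smul, smul_eq_mul,
    cost_eq α K hτ] using e τ hτ

end Vale.Agent.P095
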