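import Vale.Agent.P095.OutA

/-! Proper outerness and orthogonal pieces. -/

open Filter Topology TopologicalSpace BoundedContinuousFunction
open scoped BoundedContinuousFunction

namespace Vale.Agent.P095

open Vale.Agent.P101

variable {G B : Type} [Group G] [CStarAlgebra B] {I : TwoSidedIdeal B} {α : Act G B} (c : Ctx I α)

theorem out_post (x : ℕ →ᵇ B) (hx : IsSelfAdjoint x) (h : (c.ul x)⁺ ≠ 0) :
    ∀ᶠ n in c.ω, (x n)⁺ ≠ 0 := by
  rw [← map_posPart c.ul hx, ← norm_pos_iff] at h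
  filter_upwards [(c.ultra.lim x⁺).eventually (lt_mem_nhds h)] with n hn
  have e : x⁺ n = (x n)⁺ := map_posPart (outEv n) hx
  rwa [e, norm_pos_iff] at hn

theorem out_ne {X : Cm c.j} (hX : IsSelfAdjoint X) (h : (c.q X)⁺ ≠ 0) {g : B} (hg : g ∈ I)
    (g0 : g ≠ 0) : (c.j g * X * star (c.j g))⁺ ≠ 0 := by
  let _ := CStarAlgebra.spectralOrder c.U
  have := CStarAlgebra.spectralOrderedRing c.U
  let _ := CStarAlgebra.spectralOrder (Cm c.j)
  have := CStarAlgebra.spectralOrderedRing (Cm c.j)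
  have hX' : IsSelfAdjoint (X : c.U) := hX.map (Cm c.j).subtype
  rw [Ne, CFC.posPart_eq_zero_iff _ (hX'.conjugate _)]
  intro h0
  have p0 : IsSelfAdjoint X⁺ := .of_nonneg (CFC.posPart_nonneg X)
  have p1 : Pos (X⁺ * X * X⁺) := by
    have := outA_conj (q := X⁺) hX (CFC.negPart_mul_posPart X)
    rw [p0.star_eq] at this
    exact pos_iff.2 this
  have c1 := (mem_Cm.1 (X⁺).2 g).eq
  have c2 := (mem_Cm.1 (X⁺).2 (star g)).eq
  have c3 := (mem_Cm.1 (X⁺ * X * X⁺).2 g).eq
  have e1 : star (X⁺ : Cm c.j).1 * (c.j g * X * star (c.j g)) * (X⁺ : Cm c.j).1 =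
      c.j g * (X⁺ * X * X⁺ : Cm c.j) * star (c.j g) := by
    rw [show star (X⁺ : Cm c.j).1 = (X⁺ : Cm c.j).1 from congrArg Subtype.val p0, ← map_star]
    simp only [MulMemClass.coe_mul, ← mul_assoc, c1]
    rw [mul_assoc _ (c.j (star g)), ← c2, ← mul_assoc]
  have e2 := star_left_conjugate_le_conjugate h0 (X⁺ : Cm c.j).1
  rw [e1, mul_zero, zero_mul] at e2
  have e3 := le_antisymm e2 (star_right_conjugate_nonneg (pos_iff.1 (p1.map (Cm c.j).subtype)) _)
  have e4 := c.isF.norm (X⁺ * X * X⁺) (g * star g) (I.mul_mem_right _ _ hg)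
  rw [map_mul, ← mul_assoc, c3, map_star, e3, norm_zero, eq_comm, mul_eq_zero, norm_eq_zero,
    norm_eq_zero, CStarRing.mul_star_self_eq_zero_iff, or_iff_left g0, map_mul, map_mul,
    map_posPart c.q hX] at e4
  have s1 := hX.map c.q
  set x := c.q X
  have s2 : IsSelfAdjoint x⁺ := by
    rw [← map_posPart c.q hX]
    exact p0.map c.q
  have e5 : x⁺ * x * x⁺ = x⁺ * (x⁺ - x⁻) * x⁺ := by rw [CFC.posPart_sub_negPart x s1]
  rw [e4, mul_sub, CFC.posPart_mul_negPart, sub_zero] at e5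
  refine h (sa_sq_zero s2 (sa_sq_zero (by simpa [sq] using s2.pow 2) ?_))
  rw [← mul_assoc, ← e5, zero_mul]

theorem out_two (h : IsEmpty (c.F →⋆ₐ[ℂ] ℂ)) {g : B} (hg : g ∈ I) (g0 : g ≠ 0) :
    ∃ b b', g * b ≠ 0 ∧ g * b' ≠ 0 ∧ star (g * b) * (g * b') = 0 := by
  let _ := CStarAlgebra.spectralOrder c.F
  have := CStarAlgebra.spectralOrderedRing c.F
  let _ := CStarAlgebra.spectralOrder B
  have := CStarAlgebra.spectralOrderedRing B
  have := c.nontrivial
  obtain ⟨x, hx, h1, h2⟩ := outA_scalar h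
  obtain ⟨X, hX, rfl, -⟩ := lift_sa c.isF.surj hx
  obtain ⟨y, hy, e, -⟩ := lift_sa c.ultra.surj (hX.map (Cm c.j).subtype)
  have e' : c.ul y = X := e
  have k1 := out_post c (cst g * y * star (cst g)) (hy.conjugate _) (by
    rw [map_mul, map_mul, map_star, e']
    exact out_ne c hX h1 hg g0)
  have k2 := out_post c (cst g * (-y) * star (cst g)) (hy.neg.conjugate _) (by
    rw [map_mul, map_mul, map_star, map_neg, e']
    exact out_ne c hX.neg (by rwa [map_neg]) hg g0)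
  obtain ⟨n, n1, n2⟩ := (k1.and k2).exists
  have a0 : IsSelfAdjoint (g * y n * star g) := (hy.map (outEv n)).conjugate g
  change (g * y n * star g)⁺ ≠ 0 at n1
  change (g * -y n * star g)⁺ ≠ 0 at n2
  rw [mul_neg, neg_mul, CFC.posPart_neg] at n2
  set a := g * y n * star g with ha
  have p1 : IsSelfAdjoint a⁺ := .of_nonneg (CFC.posPart_nonneg a)
  have p2 : IsSelfAdjoint a⁻ := .of_nonneg (CFC.negPart_nonneg a)
  have e1 : g * (y n * star g * a⁺) = a⁺ * a⁺ := by
    rw [← mul_assoc, ← mul_assoc, ← ha]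
    nth_rw 1 [← CFC.posPart_sub_negPart a a0]
    rw [sub_mul, CFC.negPart_mul_posPart, sub_zero]
  have e2 : g * (y n * star g * a⁻) = -(a⁻ * a⁻) := by
    rw [← mul_assoc, ← mul_assoc, ← ha]
    nth_rw 1 [← CFC.posPart_sub_negPart a a0]
    rw [sub_mul, CFC.posPart_mul_negPart, zero_sub]
  refine ⟨_, _, e1 ▸ fun h => n1 (sa_sq_zero p1 h),
    e2 ▸ fun h => n2 (sa_sq_zero p2 (neg_eq_zero.1 h)), ?_⟩
  rw [e1, e2, star_mul, p1.star_eq, mul_neg, mul_assoc, ← mul_assoc a⁺ a⁻,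
    CFC.posPart_mul_negPart, zero_mul, mul_zero, neg_zero]

theorem pcsS : PcsS := by
  intro G B _ _ I α c h g hg g0 k
  induction k generalizing g with
  | zero => exact ⟨Fin.elim0, fun i => i.elim0, fun i => i.elim0⟩
  | succ k ih =>
    obtain ⟨b, b', h1, h2, h3⟩ := out_two c h hg g0
    obtain ⟨d, d1, d2⟩ := ih (g * b) (I.mul_mem_right _ _ hg) h1
    have k1 : ∀ i, star (g * (b * d i)) * (g * b') = 0 := fun i => by
      rw [← mul_assoc g b, star_mul, mul_assoc, h3, mul_zero]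
    refine ⟨Fin.cons b' fun i => b * d i, fun i => ?_, fun i j hij => ?_⟩
    · refine Fin.cases h2 (fun i => ?_) i
      rw [Fin.cons_succ, ← mul_assoc]
      exact d1 i
    · rcases Fin.eq_zero_or_eq_succ i with rfl | ⟨i, rfl⟩ <;>
        rcases Fin.eq_zero_or_eq_succ j with rfl | ⟨j, rfl⟩
      · exact absurd rfl hij
      · simpa using congrArg star (k1 j)
      · exact k1 i
      · simpa only [Fin.cons_succ, mul_assoc] using d2 i j fun e => hij (e ▸ rfl)

theorem out_sums [Countable G] (h2 : CopyS) (g : G) {x : c.F} (hx : IsSelfAdjoint x) {t : ℝ}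
    (ht : ¬Pos (t • 1 - (x - c.γ g x))) (k : ℕ) : ∃ S P : c.F, IsSelfAdjoint S ∧
      ‖S‖ ≤ k * ‖x‖ ∧ ‖S * c.γ g S - c.γ g S * S‖ ≤ k * ‖x * c.γ g x - c.γ g x * x‖ ∧ P ≠ 0 ∧
      Pos (star P * (S - c.γ g S - (k * t) • 1) * P) := by
  induction k with
  | zero =>
    have := c.nontrivial
    exact ⟨0, 1, .zero _, by simp, by simp, one_ne_zero, by simpa using Pos.zero⟩
  | succ k ih =>
    obtain ⟨S, P, s1, s2, s3, s4, s5⟩ := ih
    let D := (StarAlgebra.adjoin ℂ {x, c.γ g x}).topologicalClosure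
    have : IsClosed (D : Set c.F) := StarSubalgebra.isClosed_topologicalClosure _
    have : SeparableSpace D :=
      (isSeparable_adjoin (Set.toFinite {x, c.γ g x}).isSeparable).separableSpace
    have hD : ∀ y ∈ ({x, c.γ g x} : Set c.F), y ∈ D := fun y hy =>
      StarSubalgebra.le_topologicalClosure _ (StarAlgebra.subset_adjoin ℂ _ hy)
    let d : D := ⟨x, hD x (by simp)⟩
    let d' : D := ⟨c.γ g x, hD _ (by simp)⟩
    have a1 : IsSelfAdjoint d := Subtype.ext hx
    have a2 : IsSelfAdjoint d' := Subtype.ext (hx.map (c.γ g))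
    have a3 := (a1.sub a2).sub (outA_sa t)
    obtain ⟨p, p1, p2⟩ : ∃ p : D, p ≠ 0 ∧ Pos (star p * (d - d' - t • 1) * p) := by
      let _ := CStarAlgebra.spectralOrder D
      have := CStarAlgebra.spectralOrderedRing D
      refine ⟨(d - d' - t • 1)⁺, fun h => ht ?_,
        pos_iff.2 (outA_conj a3 (CFC.negPart_mul_posPart _))⟩
      rw [CFC.posPart_eq_zero_iff _ a3, sub_nonpos, ← sub_nonneg] at h
      exact (pos_iff.2 h).map D.subtype
    obtain ⟨θ, t1, t2⟩ := (h2 G B I α c).1 D D.subtype {S, c.γ g S, P}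
      (Set.toFinite _).isSeparable
    have e1 : c.γ g (θ d) = θ d' :=
      (sub_eq_zero.1 (norm_le_zero_iff.1 ((t2 d d' g).trans_eq (by simp [d, d'])))).symm
    have cS : ∀ y, Commute (θ y) S := fun y => (t1 y S (by simp)).1
    have cS' : ∀ y, Commute (θ y) (c.γ g S) := fun y => (t1 y _ (by simp)).1
    have cP : ∀ y, Commute (θ y) P := fun y => (t1 y P (by simp)).1
    refine ⟨S + θ d, θ p * P, s1.add (a1.map θ), ?_, ?_, ?_, ?_⟩
    · have : ‖θ d‖ ≤ ‖x‖ := hom_le θ d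
      push_cast
      linarith [norm_add_le S (θ d)]
    · have e : (S + θ d) * c.γ g (S + θ d) - c.γ g (S + θ d) * (S + θ d) =
          (S * c.γ g S - c.γ g S * S) + θ (d * d' - d' * d) := by
        rw [map_add, e1, map_sub, map_mul, map_mul, mul_add, mul_add, add_mul, add_mul, add_mul,
          add_mul, (cS d').eq, (cS' d).eq]
        abel
      have : ‖θ (d * d' - d' * d)‖ ≤ ‖x * c.γ g x - c.γ g x * x‖ := hom_le θ _
      rw [e]
      push_cast
      linarith [norm_add_le (S * c.γ g S - c.γ g S * S) (θ (d * d' - d' * d))]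
    · rw [← norm_ne_zero_iff, (t1 p P (by simp)).2]
      exact mul_ne_zero (norm_ne_zero_iff.2 fun h => p1 (Subtype.ext h)) (norm_ne_zero_iff.2 s4)
    · convert (s5.conj (θ p)).add ((p2.map θ).conj P) using 1
      have e : S + θ d - c.γ g (S + θ d) - (((k + 1 : ℕ) : ℝ) * t) • (1 : c.F) =
          (S - c.γ g S - (k * t) • 1) + θ (d - d' - t • 1) := by
        rw [map_add, e1, map_sub, map_sub, map_rsmul, map_one]
        push_cast
        module
      rw [e, mul_add, add_mul, map_mul, map_mul, map_star]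
      congr 1
      · rw [(cP p).eq, star_mul]
        simp only [mul_assoc]
      · rw [star_mul]
        simp only [mul_assoc]

theorem out_comm [Countable G] (h1 : SatFS) (h2 : CopyS) {g : G} (hg : c.γ g ≠ 1) :
    ∃ Y : c.F, IsSelfAdjoint Y ∧ Commute Y (c.γ g Y) ∧ ¬Pos (-(Y - c.γ g Y)) := by
  let _ := CStarAlgebra.spectralOrder c.F
  have := CStarAlgebra.spectralOrderedRing c.F
  obtain ⟨x, hx, x1⟩ : ∃ x : c.F, IsSelfAdjoint x ∧ ¬x - c.γ g x ≤ 0 := by
    by_contra H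
    push Not at H
    have k : ∀ x, IsSelfAdjoint x → c.γ g x = x := fun x hx => le_antisymm
      (by simpa using H _ hx.neg) (sub_nonpos.1 (H x hx))
    refine hg (StarAlgEquiv.ext fun x => ?_)
    rw [← realPart_add_I_smul_imaginaryPart x, map_add, map_smul, k _ (realPart x).2,
      k _ (imaginaryPart x).2]
    rfl
  obtain ⟨t, t0, ht⟩ := outA_gap (hx.sub (hx.map (c.γ g))) x1
  choose S P s1 s2 s3 s4 s5 using out_sums c h2 g hx (t := t) (by rwa [pos_iff, sub_nonneg])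
  have m0 : ∀ m : ℕ, (0 : ℝ) < (m + 1 : ℕ) := fun m => by positivity
  have b1 : ∀ m : ℕ, ‖((m + 1 : ℕ) : ℝ)⁻¹ • S (m + 1)‖ ≤ ‖x‖ := fun m => by
    rw [norm_smul, Real.norm_of_nonneg (by positivity), inv_mul_le_iff₀ (m0 m)]
    exact s2 _
  let X : ℕ →ᵇ c.F := ofNormedAddCommGroupDiscrete _ _ b1
  have hX : ∀ m, X m = ((m + 1 : ℕ) : ℝ)⁻¹ • S (m + 1) := fun m => rfl
  obtain ⟨Y, T, y1, y2, y3⟩ := h1 G B I α c Unit fun _ => X
  have z1 := y1 ()
  have z2 := y2 _ z1 g
  have q1 : IsSelfAdjoint (Y ()) := by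
    have := y3 _ (sub_mem (star_mem z1) z1)
    refine sub_eq_zero.1 (norm_eq_zero.1 (tendsto_nhds_unique this ?_))
    refine tendsto_const_nhds.congr fun m => ?_
    show 0 = ‖star (X m) - X m‖
    rw [hX, ((IsSelfAdjoint.all _).smul (s1 _)).star_eq, sub_self, norm_zero]
  refine ⟨Y (), q1, ?_, fun h => ?_⟩
  · have := y3 _ (sub_mem (mul_mem z1 z2) (mul_mem z2 z1))
    refine sub_eq_zero.1 (norm_eq_zero.1 (tendsto_nhds_unique this ?_))
    refine squeeze_zero (fun _ => norm_nonneg _) (g := fun m : ℕ =>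
      ‖x * c.γ g x - c.γ g x * x‖ / (m + 1 : ℕ)) (fun m => ?_)
      (((tendsto_const_div_atTop_nhds_zero_nat _).comp (tendsto_add_atTop_nat 1)).mono_left
        c.atTop)
    show ‖X m * c.γ g (X m) - c.γ g (X m) * X m‖ ≤ _
    rw [hX, map_rsmul, smul_mul_smul_comm, smul_mul_smul_comm, ← smul_sub, norm_smul,
      Real.norm_of_nonneg (by positivity), mul_assoc, div_eq_inv_mul]
    gcongr
    rw [inv_mul_le_iff₀ (m0 m)]
    exact s3 _
  · set R := ‖Y () - c.γ g (Y ())‖
    have r1 : ‖R • (1 : c.F) + (Y () - c.γ g (Y ()))‖ ≤ R := by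
      refine le_trans ((Pos.of_norm' (q1.sub (q1.map _)) le_rfl).norm_le
        (y := R • 1) (by rwa [sub_add_cancel_left])) ?_
      rw [norm_smul, norm_norm]
      exact mul_le_of_le_one_right (norm_nonneg _) norm_one_le'
    have r2 := y3 _ (add_mem (T.smul_mem (one_mem T) (R : ℂ)) (sub_mem z1 z2))
    have r3 := r2.eventually (gt_mem_nhds (show _ < R + t / 2 from
      lt_of_le_of_lt (by simpa using r1) (by linarith)))
    obtain ⟨m, hm⟩ := r3.exists
    have hm' : ‖R • (1 : c.F) + (X m - c.γ g (X m))‖ < R + t / 2 := hm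
    have w1 : IsSelfAdjoint (X m) := (IsSelfAdjoint.all _).smul (s1 _)
    have w2 := pos_iff.1 ((Pos.of_norm ((outA_sa R).add (w1.sub (w1.map _))) hm'.le).smul
      (m0 m).le)
    refine s4 (m + 1) (outA_zero (δ := (m + 1 : ℕ) * (t / 2)) (by positivity)
      (pos_iff.1 (s5 _)) ?_)
    rw [← sub_nonneg]
    convert w2 using 1
    rw [hX, map_rsmul]
    have := (m0 m).ne'
    match_scalars <;> field_simp
    ring

theorem outS (h1 : SatFS) (h2 : CopyS) : OutS := by
  intro G B _ _ _ I α c g hg y hy y0 z ε hε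
  let _ := CStarAlgebra.spectralOrder c.F
  have := CStarAlgebra.spectralOrderedRing c.F
  obtain ⟨Y, q1, q2, q3⟩ := out_comm c h1 h2 hg
  rw [pos_iff, neg_nonneg] at q3
  have q4 := q1.map (c.γ g)
  obtain ⟨m, hm⟩ := outA_cut q1 q4 q2 q3
  have c1 : Commute (Y - m • 1)⁺ (c.γ g Y - m • 1)⁻ :=
    (((q2.sub_left ((Commute.one_left _).smul_left m)).sub_right
      ((Commute.one_right _).smul_right m)).cfcₙ_real _).symm.cfcₙ_real _ |>.symm
  have e1 : Pos ((Y - m • 1)⁺ * (c.γ g Y - m • 1)⁻) :=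
    (pos_iff.2 (CFC.posPart_nonneg _)).mul (pos_iff.2 (CFC.negPart_nonneg _)) c1
  have e2 : (Y - m • 1)⁺ * (c.γ g Y - m • 1)⁻ * c.γ g ((Y - m • 1)⁺ * (c.γ g Y - m • 1)⁻) = 0 := by
    have : c.γ g (Y - m • 1)⁺ = (c.γ g Y - m • 1)⁺ := by
      have := map_posPart (c.γ g : c.F →⋆ₐ[ℂ] c.F) (q1.sub (outA_sa m))
      rwa [map_sub, map_rsmul, map_one] at this
    rw [map_mul, this, ← mul_assoc, mul_assoc _ _ (c.γ g Y - m • 1)⁺, CFC.negPart_mul_posPart,
      mul_zero, zero_mul]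
  obtain ⟨E, E1, E2, -⟩ := lift_pos c.isF.surj e1
  obtain ⟨e, f1, f2, -⟩ := lift_pos c.ultra.surj (E1.map (Cm c.j).subtype)
  have f3 : c.ul e = E := f2
  rw [← E2] at hm e2
  have hyy : y * star y ∈ I := I.mul_mem_right _ _ hy
  have a1 : c.ul (cst y * e * star (cst y)) = E * c.j (y * star y) := by
    rw [map_mul, map_mul, map_star, f3, map_mul, map_star, ← mul_assoc, (mem_Cm.1 E.2 y).eq]
    rfl
  have a2 : 0 < ‖c.ul (cst y * e * star (cst y))‖ := by
    rw [a1, c.isF.norm E _ hyy]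
    exact mul_pos (norm_pos_iff.2 hm) (norm_pos_iff.2 fun h =>
      y0 (CStarRing.mul_star_self_eq_zero_iff y |>.1 h))
  have a3 : c.ul (cst y * e * star (cst y) * cst z *
      post (α g : B →⋆ₐ[ℂ] B) (cst y * e * star (cst y))) = 0 := by
    have := c.isF.norm (E * ⟨c.β g E, c.β_mem g E.2⟩) (y * star y * z * α g (y * star y))
      (I.mul_mem_right _ _ (I.mul_mem_right _ _ hyy))
    rw [map_mul c.q, c.q_β, e2, norm_zero, zero_mul, norm_eq_zero] at this
    rw [map_mul, map_mul, ← c.eqU, a1, map_mul (c.β g), c.β_j, ← this, map_mul c.j _ (α g _),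
      map_mul c.j _ z]
    have k1 := (mem_Cm.1 (c.β_mem g E.2) (y * star y * z)).eq
    rw [map_mul] at k1
    rw [MulMemClass.coe_mul, mul_assoc (E : c.U) (c.β g E), ← mul_assoc (c.β g E), k1]
    simp only [mul_assoc]
    rfl
  set r := ‖c.ul (cst y * e * star (cst y))‖ / 4 with hr
  have r0 : 0 < r := by positivity
  have n1 := (c.ultra.lim (cst y * e * star (cst y))).eventually
    (lt_mem_nhds (show 2 * r < _ by linarith))
  have n2 := (c.ul_eq_zero.1 a3).eventually (gt_mem_nhds (show 0 < ε * r ^ 2 by positivity))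
  obtain ⟨n, k1, k2⟩ := (n1.and n2).exists
  have k3 : Pos (y * e n * star y) := by
    have := (f1.map (outEv n)).conj (star y)
    rwa [star_star] at this
  obtain ⟨h, h3, h4⟩ := outA_small (z := z) (α g) k3 r0 k1 k2.le
  refine ⟨e n * star y * h, ?_⟩
  rw [← mul_assoc, ← mul_assoc]
  exact ⟨h3, h4⟩

end Vale.Agent.P095
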