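import Vale.Agent.P095.Basic

/-! Strict comparison. -/

open Filter Topology BoundedContinuousFunction Matrix
open scoped BoundedContinuousFunction

namespace Vale.Agent.P095

open Vale.Agent.P101

theorem qb_root {B : Type*} [CStarAlgebra B] {w y : B} {η : ℝ} (hη : 0 < η) (hy : Pos y)
    (h : Pos (star w * w - y + η • 1)) : ∃ t, ‖star (w * t) * (w * t) - y‖ ≤ η := by
  obtain ⟨s, ps, rfl, -⟩ := hy.sqrt
  have pa := Pos.sq w
  have sa := pa.sa
  let f : ℝ → ℝ := fun t => (√(|t| + η))⁻¹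
  have cf : Continuous f := Continuous.inv₀ (by fun_prop) fun t => by positivity
  have e0 : star w * w + η • 1 = cfc (fun t => t + η) (star w * w) := by
    rw [cfc_add_const .., cfc_id' .., Algebra.algebraMap_eq_smul_one]
  have e1 : cfc f (star w * w) * (star w * w + η • 1) * cfc f (star w * w) = 1 := by
    have c1 : ContinuousOn (fun t => t + η) (spectrum ℝ (star w * w)) := by fun_prop
    rw [e0, ← cfc_mul _ _ _ cf.continuousOn c1,
      ← cfc_mul (fun t => f t * (t + η)) f _ (cf.continuousOn.mul c1) cf.continuousOn,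
      ← cfc_const_one ℝ (star w * w)]
    refine cfc_congr fun t ht => ?_
    have := pa.spec t ht
    simp only [f, abs_of_nonneg this]
    rw [mul_right_comm, ← mul_inv, Real.mul_self_sqrt (by positivity), inv_mul_cancel₀ (by positivity)]
  have sk : star (cfc f (star w * w)) = _ := IsSelfAdjoint.cfc.star_eq
  generalize cfc f (star w * w) = k at e1 sk
  have e2 : ‖star (s * k) * (s * k)‖ ≤ 1 := ((Pos.sq _).norm_le (y := 1) (by
    refine (congrArg Pos ?_).mp (h.conj k)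
    nth_rw 2 [← e1]
    rw [star_mul s, sk, ps.sa.star_eq]
    simp only [mul_sub, sub_mul, mul_add, add_mul, mul_assoc]
    abel)).trans norm_one_le'
  refine ⟨k * s, ?_⟩
  have e3 : star (w * (k * s)) * (w * (k * s)) - s * s = -η • (star (star (s * k)) * star (s * k)) := by
    have := congrArg (fun u => s * u * s) e1
    simp only [star_mul, sk, ps.sa.star_eq, mul_add, add_mul, mul_assoc, mul_smul_comm,
      smul_mul_assoc, one_mul] at this ⊢
    rw [← this]; module
  rw [CStarRing.norm_star_mul_self] at e2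
  rw [e3, norm_smul, CStarRing.norm_star_mul_self, norm_star, norm_neg, Real.norm_of_nonneg hη.le]
  exact mul_le_of_le_one_right hη.le e2

theorem qb_desc {B U : Type} [CStarAlgebra B] [CStarAlgebra U] {ω : Ultrafilter ℕ}
    {ul : (ℕ →ᵇ B) →⋆ₐ[ℂ] U} (hu : IsUltra ω ul) {x : ℕ →ᵇ B} (hx : Pos (ul x))
    (sx : ∀ n, IsSelfAdjoint (x n)) {ε : ℝ} (hε : 0 < ε) : ∃ n, Pos (x n + ε • 1) := by
  obtain ⟨w, hw⟩ := hx
  obtain ⟨w, rfl⟩ := hu.surj w
  obtain ⟨n, hn⟩ := (hu.lt (x := x - star w * w) (r := ε) (by simpa [map_star, hw] using hε)).exists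
  refine ⟨n, (congrArg Pos ?_).mp ((Pos.of_norm' ((sx n).sub (IsSelfAdjoint.star_mul_self (w n)))
    hn.le).add (Pos.sq (w n)))⟩
  abel

theorem qb_rows {B U F : Type} [CStarAlgebra B] [CStarAlgebra U] [CStarAlgebra F]
    {I : TwoSidedIdeal B} {T : B → F → U} {p : Type} [Fintype p] [DecidableEq p]
    {ψ : Matrix p p ℂ →ₗ[ℂ] F} (hψ : IsOZ ψ) (T0 : ∀ a ∈ I, T a 0 = 0)
    (T1 : ∀ a a' φ φ', star a * a' ∈ I → star (T a φ) * T a' φ' = T (star a * a') (star φ * φ'))
    (A : p → p → B) (hA : ∀ a b, A a b ∈ I) (i : p) :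
    star (∑ a, ∑ b, T (A a b) (ψ (single a b 1))) * ∑ a, ∑ b, T (A a b) (ψ (single a b 1)) =
      ∑ a, star (∑ b, T (A a b) (ψ (single i b 1))) * ∑ b, T (A a b) (ψ (single i b 1)) := by
  have e1 : ∀ a b a' b' : p, star (ψ (single a b 1)) * ψ (single a' b' 1) =
      if a = a' then ψ 1 * ψ (single b b' 1) else 0 := fun a b a' b' => by
    rw [← hψ.star, hψ.mul, star_eq_conjTranspose, conjTranspose_single]
    split_ifs with h
    · simp [h]
    · simp [single_mul_single_of_ne _ _ _ _ h]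
  have m : ∀ a b a' b', star (A a b) * A a' b' ∈ I := fun a b a' b' => I.mul_mem_left _ _ (hA _ _)
  simp only [star_sum, Finset.sum_mul_sum, T1 _ _ _ _ (m _ _ _ _), e1, apply_ite (T _),
    T0 _ (m _ _ _ _), Finset.sum_ite_irrel, Finset.sum_const_zero, Finset.sum_ite_eq,
    Finset.mem_univ, if_true]

theorem qbS (h1 : SimpS) (h2 : QaS) : QbS := by
  intro G B _ _ I α c l hl hc hF hE hP g mg g0 e me se η hη
  obtain ⟨b, b0, bo⟩ := hP g mg g0 3
  have mb := fun i => I.mul_mem_right g (b i) mg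
  obtain ⟨γ, hγ, hQ⟩ := h2 B I l c.sys hl hc _ (mb 0) _ (mb 1) (b0 0) (b0 1) e me se (η / 4)
    (by positivity)
  refine ⟨γ, hγ, fun y py ey cy => ?_⟩
  obtain ⟨N, W₁, W₂, hW⟩ := hQ y py ey cy
  have my : y ∈ I := ey ▸ I.mul_mem_right _ _ me
  have ye : y * e = y := by rw [← py.sa.star_eq, ← se.sa.star_eq, ← star_mul, ey]
  obtain ⟨m, v, hv⟩ := h1 B I c.sys _ (mb 2) (b0 2) y my py.sa (η / 4) (by positivity)
  obtain ⟨ψ, E, z, hd, -, hz⟩ := tree hF (i₀ := (0 : Fin (N + 2))) (i₁ := 1) (by simp)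
    (fullOZ_all hF hE (N + 1)) (Fin m)
  have sh := hd.oz.sa1.star_eq
  have nh : ‖star (ψ 1) * ψ 1‖ ≤ 1 := by
    rw [CStarRing.norm_star_mul_self]; exact mul_le_one₀ hd.le (norm_nonneg _) hd.le
  obtain ⟨r, pr, rr, -⟩ := (Pos.of_norm (IsSelfAdjoint.star_mul_self (ψ 1)) nh).sqrt
  rw [one_smul, sh] at rr
  have Er : E * r = r := by
    have e1 : (1 - E) * (r * r) = 0 := by
      rw [rr, show 1 - ψ 1 * ψ 1 = (1 - ψ 1) * (1 + ψ 1) by noncomm_ring, ← mul_assoc, sub_mul,
        hd.one, one_mul, sub_self, zero_mul]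
    have := (CStarRing.mul_star_self_eq_zero_iff ((1 - E) * r)).1 (by
      rw [star_mul, pr.sa.star_eq, mul_assoc, ← mul_assoc r, ← mul_assoc, e1, zero_mul])
    rwa [sub_mul, one_mul, sub_eq_zero, eq_comm] at this
  have nr : ‖r‖ ≤ 1 := by
    have := (Pos.sq r).norm_le (y := 1) (by simpa [pr.sa.star_eq, rr, sh] using Pos.sq (ψ 1))
    rw [CStarRing.norm_star_mul_self] at this
    nlinarith [norm_one_le' (M := c.F), norm_nonneg r]
  choose L hL nL using lift_norm c.isF.surj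
  let T : B → c.F → c.U := fun a φ => c.j a * L φ
  have T1 : ∀ a a' φ φ', star a * a' ∈ I → star (T a φ) * T a' φ' =
      T (star a * a') (star φ * φ') := fun a a' φ φ' h => by
    have := c.ann (x := L (star φ * φ')) (y := star (L φ) * L φ')
      (by rw [map_mul, map_star, hL, hL, hL]) h
    simp only [T]
    rw [this, star_mul, ← map_star, mul_assoc, ← mul_assoc (c.j _), ← map_mul, ← mul_assoc,
      ← StarMemClass.coe_star, (mem_Cm.1 (star (L φ)).2 _).eq, mul_assoc, MulMemClass.coe_mul]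
  have T2 : ∀ a a' φ, c.j a * T a' φ = T (a * a') φ := fun a a' φ => by
    simp only [T]; rw [map_mul, mul_assoc]
  have T3 : ∀ a ∈ I, ∀ (k : ℕ) (φ : Fin k → c.F), T a (∑ i, φ i) = ∑ i, T a (φ i) :=
    fun a ha k φ => by
      simp only [T]
      rw [c.ann (x := L (∑ i, φ i)) (y := ∑ i, L (φ i)) (by simp only [map_sum, hL]) ha,
        AddSubmonoidClass.coe_finsetSum, Finset.mul_sum]
  have T0 : ∀ a ∈ I, T a 0 = 0 := fun a ha => by simpa using T3 a ha 0 Fin.elim0
  have T4 : T y (ψ 1 * ψ 1) + T y (r * r) = c.j y := by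
    have := T3 y my 2 ![ψ 1 * ψ 1, r * r]
    simp only [Fin.sum_univ_two, cons_val_zero, cons_val_one] at this
    rw [← this, rr, add_sub_cancel]
    exact (c.ann (y := 1) (by rw [hL, map_one]) my).trans (mul_one _)
  have e0 : ∑ i, star (ψ (single (0 : Fin (N + 2)) i 1)) * ψ (single 0 i 1) = ψ 1 * ψ 1 := by
    rw [Finset.sum_congr rfl (g := fun i => ψ 1 * ψ (single i i 1)) fun i _ => by
      rw [← hd.oz.star, hd.oz.mul, star_eq_conjTranspose]; simp, ← Finset.mul_sum, ← map_sum,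
      sum_single_one]
  have q1 := hW c.U c.j fun i => T e (ψ (single 0 i 1))
  have e1 : ∀ a ∈ I, ∑ i, star (T e (ψ (single (0 : Fin (N + 2)) i 1))) * T a (ψ (single 0 i 1)) =
      T (e * a) (ψ 1 * ψ 1) := fun a ha => by
    simp only [T1 _ _ _ _ (I.mul_mem_left (star e) _ ha), se.sa.star_eq]
    rw [← T3 _ (I.mul_mem_left _ _ ha), e0]
  simp only [mul_assoc (star _), T2, e1 e me, e1 y my, ye, ey] at q1
  rw [← qb_rows hd.oz T0 T1 _ fun i j => I.mul_mem_left _ _ me,
    ← qb_rows hd.oz T0 T1 _ fun i j => I.mul_mem_left _ _ me] at q1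
  set x₁ := ∑ i, ∑ j, T (g * b 0 * W₁ i j * e) (ψ (single i j 1)) with hx₁
  set x₂ := ∑ i, ∑ j, T (g * b 1 * W₂ i j * e) (ψ (single i j 1)) with hx₂
  set x₃ := ∑ i, T (g * b 2 * v i) (z i * r) with hx₃
  have e3 : star x₃ * x₃ = T (∑ i, star (g * b 2 * v i) * (g * b 2 * v i)) (r * r) := by
    have mv : ∀ i j, star (g * b 2 * v i) * (g * b 2 * v j) ∈ I := fun i j =>
      I.mul_mem_left _ _ (I.mul_mem_right _ _ (mb 2))
    have : ∀ i j, star (z i * r) * (z j * r) = if i = j then r * r else 0 := fun i j => by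
      rw [star_mul, mul_assoc, ← mul_assoc (star (z i)), hz, pr.sa.star_eq]
      split_ifs
      · rw [mul_assoc, Er, Er]
      · rw [zero_mul, mul_zero]
    simp only [hx₃, star_sum, Finset.sum_mul_sum, T1 _ _ _ _ (mv _ _), this, apply_ite (T _),
      T0 _ (mv _ _), Finset.sum_ite_eq, Finset.mem_univ, if_true]
    simp only [T, map_sum, Finset.sum_mul]
  have e4 : ∀ a ∈ I, star (L r : c.U) * c.j a * L r = T a (r * r) := fun a ha => by
    simpa [T, mul_assoc, pr.sa.star_eq] using T1 1 a r r (by simpa using ha)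
  have q2 := (hv.map c.j).conj (L r)
  have ms : ∑ i, star (g * b 2 * v i) * (g * b 2 * v i) ∈ I :=
    sum_mem fun i _ => I.mul_mem_left _ _ (I.mul_mem_right _ _ (mb 2))
  rw [map_sub, map_add, mul_sub, mul_add, sub_mul, add_mul, e4 _ ms, e4 _ my, ← e3,
    Algebra.algebraMap_eq_smul_one, map_rsmul, map_one, mul_smul_comm, mul_one, smul_mul_assoc] at q2
  have nsq : ∀ u : c.U, ‖u‖ ≤ 1 → Pos ((1 : ℝ) • 1 - star u * u) := fun u hu =>
    Pos.of_norm (IsSelfAdjoint.star_mul_self u) (by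
      rw [CStarRing.norm_star_mul_self]; exact mul_le_one₀ hu (norm_nonneg _) hu)
  have q3 := nsq (L r) ((nL r).trans nr)
  have q4 := nsq (T e (ψ 1)) ((norm_mul_le _ _).trans (mul_le_one₀ ((c.norm_j e).trans_le se.le)
    (norm_nonneg _) ((nL _).trans hd.le)))
  rw [T1 _ _ _ _ (I.mul_mem_left _ _ me), se.sa.star_eq, sh] at q4
  obtain ⟨X, hX⟩ : ∃ X : Fin 3 → c.U, x₁ = c.j (g * b 0) * X 0 ∧ x₂ = c.j (g * b 1) * X 1 ∧
      x₃ = c.j (g * b 2) * X 2 :=
    ⟨![∑ i, ∑ j, T (W₁ i j * e) (ψ (single i j 1)), ∑ i, ∑ j, T (W₂ i j * e) (ψ (single i j 1)),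
      ∑ i, T (v i) (z i * r)], by
      simp only [hx₁, hx₂, hx₃, cons_val_zero, cons_val_one, cons_val, Finset.mul_sum, T2,
        mul_assoc _ _ e, and_self]⟩
  have e5 : star (∑ i, c.j (g * b i) * X i) * ∑ i, c.j (g * b i) * X i =
      star x₁ * x₁ + star x₂ * x₂ + star x₃ * x₃ := by
    rw [star_sum, Finset.sum_mul_sum, hX.1, hX.2.1, hX.2.2,
      ← Fin.sum_univ_three fun i => star (c.j (g * b i) * X i) * (c.j (g * b i) * X i)]
    refine Finset.sum_congr rfl fun i _ => Finset.sum_eq_single_of_mem i (Finset.mem_univ _)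
      fun j _ h => ?_
    rw [star_mul, mul_assoc, ← mul_assoc (star (c.j _)), ← map_star, ← map_mul, bo _ _ h.symm,
      map_zero, zero_mul, mul_zero]
  obtain ⟨Y, hY⟩ := c.ultra.surj (∑ i, c.j (b i) * X i)
  obtain ⟨n, hn⟩ := qb_desc c.ultra (x := star (const ℕ g * Y) * (const ℕ g * Y) - const ℕ y +
    (η / 2) • 1) (by
      rw [map_add, map_sub, map_mul, map_star, map_mul, hY, map_rsmul, map_one, ← c.j_apply,
        ← c.j_apply, Finset.mul_sum]
      simp only [← mul_assoc, ← map_mul]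
      rw [e5, ← T4]
      have η4 : 0 ≤ η / 4 := by positivity
      refine (congrArg Pos ?_).mp (((q1.add q2).add (q3.smul η4)).add (q4.smul η4))
      module)
    (fun n => ((IsSelfAdjoint.star_mul_self (g * Y n)).sub py.sa).add
      ((IsSelfAdjoint.all (η / 2)).smul (IsSelfAdjoint.one B))) (half_pos hη)
  obtain ⟨t, ht⟩ := qb_root (w := g * Y n) hη py ((congrArg Pos (by
    change star (g * Y n) * (g * Y n) - y + (η / 2) • 1 + _ = _; module)).mp hn)
  exact ⟨Y n * t, by rwa [← mul_assoc g]⟩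

end Vale.Agent.P095
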