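import Vale.Agent.P095.Basic

/-! Almost invariant selectors. -/

open Filter Topology TopologicalSpace

namespace Vale.Agent.P095

open Vale.Agent.P101

section step

variable {M M' : Type} [CStarAlgebra M] [CStarAlgebra M'] {τ : M →ₗ[ℝ] ℝ}

theorem Sel_pyth (h : IsRT τ) {x y : M} (κ : ℝ) (h0 : τ (star x * y) = 0) :
    nu τ (x + κ • y) ^ 2 = nu τ x ^ 2 + κ ^ 2 * nu τ y ^ 2 := by
  have h1 : τ (star y * x) = 0 := (h.symm x y).trans h0
  simp only [h.nu_sq, star_add, star_smul, star_trivial, add_mul, mul_add, smul_mul_assoc,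
    mul_smul_comm, map_add, map_smul, h0, h1, smul_eq_mul]
  ring

theorem Sel_mom (h : IsRT τ) (i : M' →⋆ₐ[ℂ] M) {b : M} (hb : Pos b) (hc : ∀ x, Commute (i x) b) :
    ∃ σ : M' →ₗ[ℝ] ℝ, IsRT σ ∧ σ 1 = τ b ∧ ∀ y, σ (y * y) = τ (b * (i y * i y)) :=
  ⟨_, h.mulc hb i hc, by simp, fun y => by simp⟩

theorem Sel_sa {T : M} (h : Pos (1 - T)) : IsSelfAdjoint T := by
  have := (IsSelfAdjoint.one M).sub h.sa
  rwa [sub_sub_cancel] at this

theorem Sel_norm {T : M} (h1 : Pos (1 - T)) (h2 : Pos (1 + T)) : ‖T‖ ≤ 1 :=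
  norm_le_of_pos zero_le_one (by rwa [one_smul]) (by rwa [one_smul])

theorem Sel_posD {T : M} (h1 : Pos (1 - T)) (h2 : Pos (1 + T)) : Pos (1 - T * T) := by
  have := h1.mul h2 ((Commute.one_left _).sub_left ((Commute.one_right _).add_right (.refl _)))
  rwa [show (1 - T) * (1 + T) = 1 - T * T by noncomm_ring] at this

theorem Sel_normD {T : M} (h1 : Pos (1 - T)) (h2 : Pos (1 + T)) : ‖1 - T * T‖ ≤ 1 := by
  refine ((Sel_posD h1 h2).norm_le (y := 1) ?_).trans norm_one_le'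
  have := Pos.sq T
  rwa [(Sel_sa h1).star_eq, ← sub_sub_cancel 1 (T * T)] at this

theorem Sel_pos {T y : M} (h1 : Pos (1 - T)) (h2 : Pos (1 + T)) (hy : IsSelfAdjoint y)
    (hc : Commute y T) {κ : ℝ} (hκ : 0 ≤ κ) (hn : 2 * κ * ‖y‖ ≤ 1) :
    Pos (1 - (T + κ • ((1 - T * T) * y))) := by
  have c1 : Commute (1 + T) y := (Commute.one_left _).add_left hc.symm
  have s1 : IsSelfAdjoint (κ • ((1 + T) * y)) :=
    (IsSelfAdjoint.all κ).smul ((h2.sa.commute_iff hy).1 c1)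
  have n1 : ‖κ • ((1 + T) * y)‖ ≤ 1 := by
    have a1 : ‖1 + T‖ ≤ 2 := (norm_add_le _ _).trans (by linarith [Sel_norm h1 h2, norm_one_le' (M := M)])
    rw [norm_smul, Real.norm_of_nonneg hκ]
    have a2 := (norm_mul_le (1 + T) y).trans (mul_le_mul_of_nonneg_right a1 (norm_nonneg y))
    nlinarith
  have p1 := Pos.of_norm s1 n1
  rw [one_smul] at p1
  have c2 : Commute T ((1 + T) * y) :=
    ((Commute.one_right _).add_right (.refl _)).mul_right hc.symm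
  have := h1.mul p1 ((Commute.one_left _).sub_left ((Commute.one_right _).sub_right
    (c2.smul_right κ)))
  rwa [mul_sub, mul_one, mul_smul_comm, ← mul_assoc,
    show (1 - T) * (1 + T) = 1 - T * T by noncomm_ring, sub_sub] at this

theorem Sel_def (h : IsRT τ) (i : M' →⋆ₐ[ℂ] M) {T : M} (h1 : Pos (1 - T)) (h2 : Pos (1 + T))
    (hc : ∀ x, Commute (i x) T) {y : M'} (hy : IsSelfAdjoint y)
    (h0 : ∀ σ, IsRT σ → σ y = 0 ∧ σ 1 / 2 ≤ σ (y * y)) (κ : ℝ) :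
    τ (T + κ • ((1 - T * T) * i y)) = τ T ∧
    τ (1 - (T + κ • ((1 - T * T) * i y)) * (T + κ • ((1 - T * T) * i y))) ≤
      τ (1 - T * T) - κ ^ 2 * τ ((1 - T * T) * (1 - T * T)) / 2 := by
  have hD := Sel_posD h1 h2
  generalize e : 1 - T * T = D at hD ⊢
  have cD : ∀ x, Commute (i x) D := fun x =>
    e ▸ (Commute.one_right _).sub_right ((hc x).mul_right (hc x))
  have a1 : τ (D * i y) = 0 := h.eq_zero_of_comm i hy (fun σ hσ => (h0 σ hσ).1) cD
  have a2 : τ (T * (D * i y)) = 0 := by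
    rw [← mul_assoc]
    exact h.eq_zero_of_comm i hy (fun σ hσ => (h0 σ hσ).1) fun x => (hc x).mul_right (cD x)
  have a3 : τ (D * i y * T) = 0 := (h.comm _ _).trans a2
  obtain ⟨σ, s1, s2, s3⟩ := Sel_mom h i (hD.mul hD (.refl _)) fun x => (cD x).mul_right (cD x)
  have a4 := (h0 σ s1).2
  rw [s2, s3, ← (cD y).mul_mul_mul_comm] at a4
  refine ⟨by rw [map_add, map_smul, a1, smul_zero, add_zero], ?_⟩
  have e1 : ∀ W : M, 1 - (T + κ • W) * (T + κ • W) =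
      1 - T * T - κ • (T * W) - κ • (W * T) - κ ^ 2 • (W * W) := fun W => by
    simp only [add_mul, mul_add, smul_mul_assoc, mul_smul_comm]
    module
  rw [e1, e]
  simp only [map_sub, map_smul, a2, a3, smul_eq_mul]
  nlinarith [sq_nonneg κ]

theorem Sel_inv (h : IsRT τ) (i : M' →⋆ₐ[ℂ] M) {T T' : M} (h1 : Pos (1 - T)) (h2 : Pos (1 + T))
    (hT : ‖T'‖ ≤ 1) (hc : ∀ x, Commute (i x) T) (hc' : ∀ x, Commute (i x) T') {y y' : M'}
    (hy : IsSelfAdjoint y) (hy' : IsSelfAdjoint y') (h0 : ∀ σ, IsRT σ → σ y = 0)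
    (h0' : ∀ σ, IsRT σ → σ y' = 0 ∧ σ (y' * y') ≤ σ 1) (κ : ℝ) :
    nu τ (T' + κ • ((1 - T' * T') * i y') - (T + κ • ((1 - T * T) * i y))) ^ 2 ≤
      (1 + 8 * κ ^ 2) * nu τ (T' - T) ^ 2 + 2 * κ ^ 2 * nu τ (i y' - i y) ^ 2 := by
  have cs : ∀ {w : M}, (∀ x, Commute (i x) w) → ∀ x, Commute (i x) (star w) := fun hw x => by
    simpa [← map_star] using (hw (star x)).star_star
  have b1 : nu τ (1 - T' * T' - (1 - T * T)) ≤ 2 * nu τ (T' - T) := by
    rw [show 1 - T' * T' - (1 - T * T) = -(T' * (T' - T) + (T' - T) * T) by noncomm_ring, nu_neg]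
    have a1 := h.nu_mul_le T' (T' - T)
    have a2 := h.nu_mul_le' (T' - T) T
    have a3 := nu_nonneg τ (T' - T)
    have a4 := h.nu_add_le (T' * (T' - T)) ((T' - T) * T)
    nlinarith [Sel_norm h1 h2]
  have nD := Sel_normD h1 h2
  have cD : ∀ x, Commute (i x) (1 - T * T) := fun x =>
    (Commute.one_right _).sub_right ((hc x).mul_right (hc x))
  have cD' : ∀ x, Commute (i x) (1 - T' * T') := fun x =>
    (Commute.one_right _).sub_right ((hc' x).mul_right (hc' x))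
  generalize 1 - T * T = D at *
  generalize 1 - T' * T' = D' at *
  have cΔ := cs fun x => (hc' x).sub_right (hc x)
  rw [show T' + κ • (D' * i y') - (T + κ • (D * i y)) = T' - T + κ • (D' * i y' - D * i y) by
    rw [smul_sub]; abel, Sel_pyth h κ (by
      rw [mul_sub, map_sub, ← mul_assoc, ← mul_assoc,
        h.eq_zero_of_comm i hy h0 fun x => (cΔ x).mul_right (cD x),
        h.eq_zero_of_comm i hy' (fun σ hσ => (h0' σ hσ).1) fun x => (cΔ x).mul_right (cD' x),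
        sub_zero])]
  have cB : ∀ x, Commute (i x) (D' - D) := fun x => (cD' x).sub_right (cD x)
  obtain ⟨σ, s1, s2, s3⟩ := Sel_mom h i (Pos.sq (D' - D)) fun x => (cs cB x).mul_right (cB x)
  have b2 : nu τ ((D' - D) * i y') ^ 2 ≤ nu τ (D' - D) ^ 2 := by
    have := (h0' σ s1).2
    rw [s2, s3] at this
    rw [h.nu_sq, h.nu_sq, star_mul, (hy'.map i).star_eq, mul_assoc, h.comm]
    simpa only [mul_assoc] using this
  have b3 : nu τ (D * (i y' - i y)) ≤ nu τ (i y' - i y) :=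
    (h.nu_mul_le _ _).trans (mul_le_of_le_one_left (nu_nonneg _ _) nD)
  have b4 := h.nu_add_le ((D' - D) * i y') (D * (i y' - i y))
  rw [show (D' - D) * i y' + D * (i y' - i y) = D' * i y' - D * i y by noncomm_ring] at b4
  have b5 := (pow_le_pow_iff_left₀ (nu_nonneg _ _) (nu_nonneg _ _) two_ne_zero).1 b2
  have b6 : nu τ (D' * i y' - D * i y) ^ 2 ≤ (2 * nu τ (T' - T) + nu τ (i y' - i y)) ^ 2 :=
    pow_le_pow_left₀ (nu_nonneg _ _) (by linarith) 2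
  have b7 : nu τ (D' * i y' - D * i y) ^ 2 ≤ 8 * nu τ (T' - T) ^ 2 + 2 * nu τ (i y' - i y) ^ 2 := by
    nlinarith [sq_nonneg (2 * nu τ (T' - T) - nu τ (i y' - i y))]
  nlinarith [mul_le_mul_of_nonneg_left b7 (sq_nonneg κ)]

end step

theorem Sel_step (hR : ResS) {G M : Type} [Group G] [Countable G] [CStarAlgebra M] (α : Act G M)
    (hM : FP M) {K : Finset G} {ε R κ : ℝ} (hκ : 0 ≤ κ) (hκR : 2 * κ * R ≤ 1)
    (hI : ∀ (M : Type) [CStarAlgebra M] (α : Act G M), FP M → ∃ y : M,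
      IsSelfAdjoint y ∧ ‖y‖ ≤ R ∧ ∀ τ, IsRT τ → τ y = 0 ∧ τ 1 / 2 ≤ τ (y * y) ∧ τ (y * y) ≤ τ 1 ∧
        ∀ g ∈ K, nu τ (α g y - y) ^ 2 ≤ ε * τ 1) {T : M} (h1 : Pos (1 - T)) (h2 : Pos (1 + T)) :
    ∃ T', Pos (1 - T') ∧ Pos (1 + T') ∧ ∀ τ, IsRT τ → τ T' = τ T ∧
      τ (1 - T' * T') ≤ τ (1 - T * T) - κ ^ 2 * τ ((1 - T * T) * (1 - T * T)) / 2 ∧
      ∀ g ∈ K, nu τ (α g T' - T') ^ 2 ≤
        (1 + 8 * κ ^ 2) * nu τ (α g T - T) ^ 2 + 2 * κ ^ 2 * (ε * τ 1) := by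
  obtain ⟨M', _, α', i, hM', he, hc⟩ := hR G M α hM {T} (Set.finite_singleton T).isSeparable
  obtain ⟨y, hy, hn, ht⟩ := hI M' α' hM'
  have c1 : ∀ g x, Commute (i x) (α g T) := fun g x => hc x g T rfl
  have c0 : ∀ x, Commute (i x) T := fun x => by simpa using c1 1 x
  have n1 : 2 * κ * ‖i y‖ ≤ 1 :=
    (mul_le_mul_of_nonneg_left ((hom_le i y).trans hn) (by positivity)).trans hκR
  refine ⟨T + κ • ((1 - T * T) * i y), Sel_pos h1 h2 (hy.map i) (c0 y) hκ n1, ?_, fun τ hτ => ?_⟩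
  · have := Sel_pos (T := -T) (y := -i y) (by rwa [sub_neg_eq_add]) (by rwa [← sub_eq_add_neg])
      (hy.map i).neg (c0 y).neg_left.neg_right hκ (by rwa [norm_neg])
    rwa [neg_mul_neg, mul_neg, smul_neg, ← neg_add, sub_neg_eq_add] at this
  obtain ⟨a1, a2⟩ := Sel_def hτ i h1 h2 c0 hy (fun σ hσ => ⟨(ht σ hσ).1, (ht σ hσ).2.1⟩) κ
  refine ⟨a1, a2, fun g hg => ?_⟩
  have a3 := Sel_inv hτ i h1 h2 ((act_norm α g T).trans_le (Sel_norm h1 h2)) c0 (c1 g) hy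
    (hy.map (α' g)) (fun σ hσ => (ht σ hσ).1) (fun σ hσ => by
      have := ht _ (hσ.comp (α' g))
      simpa using And.intro this.1 this.2.2.1) κ
  have a4 := (ht _ (hτ.comp i)).2.2.2 g hg
  rw [nu_comp, map_sub, LinearMap.comp_apply, rl_apply, map_one] at a4
  rw [map_add, map_rsmul, map_mul, map_sub, map_one, map_mul, ← he]
  nlinarith [mul_le_mul_of_nonneg_left a4 (sq_nonneg κ)]

theorem selS (h1 : IncS) (h2 : ResS) : SelS := by
  intro G _ _ hG M _ α hM K ε hε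
  set η := ε * Real.exp (-(8 * (2 / ε ^ 2 + 1))) with hη
  have η0 : 0 < η := mul_pos hε (Real.exp_pos _)
  obtain ⟨R, hR, hI⟩ := h1 G hG K η η0
  obtain ⟨κ, k0, k1, k2⟩ : ∃ κ : ℝ, 0 < κ ∧ κ ≤ 1 ∧ 2 * κ * R ≤ 1 := by
    refine ⟨(2 * R + 1)⁻¹, by positivity, inv_le_one_of_one_le₀ (by linarith), ?_⟩
    rw [mul_right_comm, mul_inv_le_iff₀ (by positivity)]
    linarith
  have key : ∀ m : ℕ, ∃ T : M, Pos (1 - T) ∧ Pos (1 + T) ∧ ∀ τ, IsRT τ → τ T = 0 ∧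
      (τ (1 - T * T) ≤ ε * τ 1 ∨ τ (1 - T * T) ≤ (1 - m * (κ ^ 2 * ε ^ 2 / 2)) * τ 1) ∧
      ∀ g ∈ K, nu τ (α g T - T) ^ 2 ≤ ((1 + 8 * κ ^ 2) ^ m - 1) * (η * τ 1) / 4 := by
    intro m
    induction m with
    | zero => exact ⟨0, by simpa using Pos.one, by simpa using Pos.one, fun τ _ =>
        ⟨map_zero τ, Or.inr (by simp), fun g _ => by simp [nu_zero]⟩⟩
    | succ m ih =>
      obtain ⟨T, a1, a2, a3⟩ := ih
      obtain ⟨T', b1, b2, b3⟩ := Sel_step h2 α hM k0.le k2 hI a1 a2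
      refine ⟨T', b1, b2, fun τ hτ => ?_⟩
      obtain ⟨c1, c2, c3⟩ := a3 τ hτ
      obtain ⟨d1, d2, d3⟩ := b3 τ hτ
      refine ⟨d1.trans c1, ?_, fun g hg => (d3 g hg).trans ?_⟩
      · have hD := (Sel_posD a1 a2).sa
        generalize 1 - T * T = D at *
        have e1 : 0 ≤ τ (D * D) := by simpa [hD.star_eq] using hτ.pos D
        have e2 : 0 ≤ τ (D * D) - 2 * ε * τ D + ε ^ 2 * τ 1 := by
          have := hτ.pos (D - ε • 1)
          simp only [star_sub, hD.star_eq, star_smul, star_trivial, star_one, sub_mul, mul_sub,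
            smul_mul_assoc, mul_smul_comm, one_mul, mul_one, map_sub, map_smul, smul_eq_mul] at this
          linarith
        have e3 := mul_nonneg (sq_nonneg κ) e1
        rcases le_or_gt (τ D) (ε * τ 1) with e4 | e4
        · exact Or.inl (by linarith)
        · refine Or.inr ?_
          have e5 := c2.resolve_left e4.not_ge
          have e6 : ε ^ 2 * τ 1 ≤ τ (D * D) := by nlinarith
          push_cast
          nlinarith [mul_le_mul_of_nonneg_left e6 (sq_nonneg κ)]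
      · have := mul_le_mul_of_nonneg_left (c3 g hg) (show 0 ≤ 1 + 8 * κ ^ 2 by positivity)
        rw [pow_succ _ m]
        linarith
  obtain ⟨T, a1, a2, a3⟩ := key ⌈2 / (κ ^ 2 * ε ^ 2)⌉₊
  have m1 := Nat.le_ceil (2 / (κ ^ 2 * ε ^ 2))
  have m2 := (Nat.ceil_lt_add_one (show 0 ≤ 2 / (κ ^ 2 * ε ^ 2) by positivity)).le
  generalize ⌈2 / (κ ^ 2 * ε ^ 2)⌉₊ = m at *
  have m3 : 1 - m * (κ ^ 2 * ε ^ 2 / 2) ≤ 0 := by
    rw [div_le_iff₀ (by positivity)] at m1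
    linarith
  have m4 : (1 + 8 * κ ^ 2) ^ m * η ≤ ε := by
    have e1 : (1 + 8 * κ ^ 2) ^ m ≤ Real.exp (8 * κ ^ 2) ^ m :=
      pow_le_pow_left₀ (by positivity) (by linarith [Real.add_one_le_exp (8 * κ ^ 2)]) m
    have e2 : m * (8 * κ ^ 2) ≤ 8 * (2 / ε ^ 2 + 1) := by
      have e3 := mul_le_mul_of_nonneg_right m2 (sq_nonneg κ)
      have e4 : (2 / (κ ^ 2 * ε ^ 2) + 1) * κ ^ 2 = 2 / ε ^ 2 + κ ^ 2 := by field_simp
      nlinarith
    rw [← Real.exp_nat_mul] at e1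
    have e5 := e1.trans (Real.exp_le_exp.2 e2)
    rw [hη, Real.exp_neg, mul_left_comm]
    exact mul_le_of_le_one_right hε.le (mul_inv_le_one_of_le₀ e5 (Real.exp_pos _).le)
  refine ⟨(1 / 2 : ℝ) • (1 + T), a2.smul (by norm_num), ?_, fun τ hτ => ?_⟩
  · have := a1.smul (show (0 : ℝ) ≤ 1 / 2 by norm_num)
    rwa [show (1 / 2 : ℝ) • (1 - T) = 1 - (1 / 2 : ℝ) • (1 + T) by module] at this
  obtain ⟨b1, b2, b3⟩ := a3 τ hτ
  have t0 := hτ.one_nonneg
  refine ⟨by rw [map_smul, map_add, b1, smul_eq_mul]; ring, ?_, fun g hg => ?_⟩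
  · have e : (1 / 2 : ℝ) • (1 + T) - (1 / 2 : ℝ) • (1 + T) * (1 / 2 : ℝ) • (1 + T) =
        (1 / 4 : ℝ) • (1 - T * T) := by
      simp only [smul_mul_assoc, mul_smul_comm, add_mul, mul_add, one_mul, mul_one]
      module
    have := mul_nonneg hε.le t0
    rw [e, map_smul, smul_eq_mul]
    rcases b2 with b2 | b2
    · linarith
    · nlinarith
  · rw [map_rsmul, map_add, map_one, ← smul_sub, add_sub_add_left_eq_sub, nu_smul, mul_pow]
    have := b3 g hg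
    have e1 := mul_le_mul_of_nonneg_right m4 t0
    have e2 := mul_nonneg η0.le t0
    have e3 := mul_nonneg hε.le t0
    rw [sq_abs]
    nlinarith

end Vale.Agent.P095
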