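import Vale.Agent.P095.Si1A

/-! The first stage of property SI. -/

open Filter Topology TopologicalSpace BoundedContinuousFunction
open scoped BoundedContinuousFunction

namespace Vale.Agent.P095

open Vale.Agent.P101

namespace Si1

variable {G B : Type} [Group G] [CStarAlgebra B] {I : TwoSidedIdeal B} {α : Act G B}

theorem shrink [Countable G] (h2 : OutS) (c : Ctx I α) {y : B} (hy : y ∈ I) (y0 : y ≠ 0) {ε : ℝ}
    (hε : 0 < ε) (S : Finset (G × B)) : ∃ b, y * b ≠ 0 ∧ ∀ p ∈ S, c.γ p.1 ≠ 1 → ∀ b₁ b₂,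
      ‖star (y * b * b₁) * p.2 * α p.1 (y * b * b₂)‖ ≤ ε * (‖y * b * b₁‖ * ‖y * b * b₂‖) := by
  classical
  induction S using Finset.induction_on with
  | empty => exact ⟨1, by rwa [mul_one], by simp⟩
  | insert p S _ ih =>
    obtain ⟨b, b0, hb⟩ := ih
    by_cases hp : c.γ p.1 = 1
    · refine ⟨b, b0, fun p' hp' ne => hb p' ((Finset.mem_insert.1 hp').resolve_left ?_) ne⟩
      rintro rfl
      exact ne hp
    obtain ⟨b', b1, hb'⟩ := h2 G B I α c p.1 hp _ (I.mul_mem_right _ b hy) b0 p.2 ε hε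
    refine ⟨b * b', by rwa [← mul_assoc], fun p' hp' ne b₁ b₂ => ?_⟩
    rcases Finset.mem_insert.1 hp' with rfl | hp'
    · simpa only [mul_assoc] using hb' b₁ b₂
    · simpa only [mul_assoc] using hb p' hp' ne (b' * b₁) (b' * b₂)

theorem ul_le (c : Ctx I α) {x : ℕ →ᵇ B} {r : ℝ} (h : ∀ᶠ n in (c.ω : Filter ℕ), ‖x n‖ ≤ r) :
    ‖c.ul x‖ ≤ r := le_of_tendsto (c.ultra.lim x) h

theorem exists_seq (g : B) (y : ℕ →ᵇ B) (hy : ∀ n, ‖y n‖ ≤ 1) {ε : ℝ} (hε : ε ≤ 1) :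
    ∃ w : ℕ →ᵇ B, ∀ n, (∃ b, w n = g * b) ∧ ‖w n‖ ≤ 2 ∧
      ((∃ b, ‖star (g * b) * (g * b) - y n‖ ≤ ε) → ‖star (w n) * w n - y n‖ ≤ ε) := by
  have : ∀ n, ∃ b, ‖g * b‖ ≤ 2 ∧
      ((∃ b, ‖star (g * b) * (g * b) - y n‖ ≤ ε) → ‖star (g * b) * (g * b) - y n‖ ≤ ε) := fun n => by
    by_cases h : ∃ b, ‖star (g * b) * (g * b) - y n‖ ≤ ε
    · obtain ⟨b, hb⟩ := h
      refine ⟨b, ?_, fun _ => hb⟩
      have h1 := (norm_sub_norm_le _ _).trans hb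
      rw [CStarRing.norm_star_mul_self] at h1
      nlinarith [hy n, norm_nonneg (g * b)]
    · exact ⟨0, by simp, fun h' => absurd h' h⟩
  choose b h1 h2 using this
  exact ⟨ofNormedAddCommGroupDiscrete (fun n => g * b n) 2 h1, fun n => ⟨⟨b n, rfl⟩, h1 n, h2 n⟩⟩

theorem step_le {b a x : B} (hb : ‖b‖ ≤ 1) {ε δ : ℝ} (h : ‖b * a - a‖ ≤ ε) (hx : ‖x - a‖ ≤ δ) :
    ‖b * x - a‖ ≤ δ + ε := by
  rw [show b * x - a = b * (x - a) + (b * a - a) by noncomm_ring]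
  exact (norm_add_le _ _).trans (add_le_add ((norm_mul_le _ _).trans
    ((mul_le_of_le_one_left (norm_nonneg _) hb).trans hx)) h)

theorem four_le {a b ε : ℝ} (hε : 0 ≤ ε) (b0 : 0 ≤ b) (ha : a ≤ 2) (hb : b ≤ 2) :
    ε * (a * b) ≤ 4 * ε := by
  have : a * b ≤ 2 * 2 := mul_le_mul ha hb b0 zero_le_two
  nlinarith

theorem stage [Countable G] (h2 : OutS) (h3 : LocS) (h4 : HbtS) (c : Ctx I α) {l : B →L[ℂ] ℂ}
    (hE : Exc I l) (hP : Pcs I) (hC : Cpr I) (hG : Good c.γ) (KB : Finset B) (KG : Finset G)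
    (KI : Finset B) (hI : ∀ x ∈ KI, x ∈ I) (m : ℕ) {ε : ℝ} (hε : 0 < ε) (hε' : ε ≤ 1) :
    ∃ (u v : Cm c.j) (W : ℕ → c.U), SC u ∧ SC v ∧
      (∀ g ∈ KG, ‖c.γ g (c.q u) - c.q u‖ ≤ ε ∧ ‖c.γ g (c.q v) - c.q v‖ ≤ ε) ∧ (∀ i, ‖W i‖ ≤ 2) ∧
      (∀ i k, ∀ z ∈ KB, ‖star (W i) * c.j z * W k - l z • (star (W i) * W k)‖ ≤ 4 * ε) ∧
      (∀ i k, ∀ z ∈ KB, ∀ g ∈ KG, c.γ g ≠ 1 → ‖star (W i) * c.j z * c.β g (W k)‖ ≤ 4 * ε) ∧
      (∀ i k, i ≠ k → star (W i) * W k = 0) ∧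
      ∀ i < m, ∀ a ∈ KI, ‖star (W i) * W i * c.j a - Df (u : c.U) v * c.j a‖ ≤ (‖a‖ + 4) * ε := by
  obtain ⟨y₀, y1, y2, y3⟩ := hE KB ε hε
  obtain ⟨b₀, y4, y5⟩ := shrink h2 c y1 y2 hε (KG ×ˢ KB)
  have y6 : y₀ * b₀ ∈ I := I.mul_mem_right _ _ y1
  obtain ⟨p, p1, p2⟩ := hP _ y6 y4 m
  obtain ⟨b, b1, e, e1, b2, e2, eb, hb⟩ := h3 B I c.sys KI hI ε hε
  choose γ γ0 hγ using fun i => hC _ (I.mul_mem_right _ (p i) y6) (p1 i) e e1 e2 ε hε
  obtain ⟨δ, δ0, δ1, δ2⟩ : ∃ δ : ℝ, 0 < δ ∧ δ ≤ ε ∧ ∀ i, δ < γ i := by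
    have : ∀ᶠ δ in 𝓝[>] (0 : ℝ), δ ≤ ε ∧ ∀ i, δ < γ i := nhdsWithin_le_nhds
      ((eventually_le_nhds hε).and (eventually_all.2 fun i => eventually_lt_nhds (γ0 i)))
    obtain ⟨δ, h1, h2⟩ := (this.and self_mem_nhdsWithin).exists
    exact ⟨δ, h2, h1⟩
  obtain ⟨u₀, v₀, su, sv, g1, g2⟩ := hG KG δ δ0
  obtain ⟨u, su1, rfl⟩ := lift_sc c.isF.surj su
  obtain ⟨v, sv1, rfl⟩ := lift_sc c.isF.surj sv
  obtain ⟨u', su2, eu⟩ := lift_sc c.ultra.surj (su1.map (Cm c.j).subtype)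
  obtain ⟨v', sv2, ev⟩ := lift_sc c.ultra.surj (sv1.map (Cm c.j).subtype)
  have nu : ∀ n, ‖u' n‖ ≤ 1 := fun n => (u'.norm_coe_le_norm n).trans su2.le
  have nv : ∀ n, ‖v' n‖ ≤ 1 := fun n => (v'.norm_coe_le_norm n).trans sv2.le
  have ex : c.ul (Df u' v') = Df (u : c.U) v := by rw [map_Df, eu, ev]; rfl
  have mx : c.ul (Df u' v') ∈ Cm c.j := ex ▸ Si.Df_mem _ u.2 v.2
  have qx : c.q ⟨_, mx⟩ = Df (c.q u) (c.q v) := by
    rw [← map_Df]; exact congrArg c.q (Subtype.ext ex)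
  let y : ℕ →ᵇ B := const ℕ (b * b) * Df u' v' * const ℕ (b * b)
  have nb : ‖b * b‖ ≤ 1 := (norm_mul_le _ _).trans (mul_le_one₀ b2.le (norm_nonneg _) b2.le)
  have ny : ∀ n, ‖y n‖ ≤ 1 := fun n => (norm_mul_le _ _).trans (mul_le_one₀ ((norm_mul_le _ _).trans
    (mul_le_one₀ nb (norm_nonneg _) (norm_Df_le (nu n) (nv n)))) (norm_nonneg _) nb)
  have py : ∀ n, Pos (y n) := fun n => by
    have := (pos_Df (nu n) (nv n)).conj (b * b)
    rwa [star_mul, b2.sa.star_eq] at this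
  have ey : ∀ n, e * y n = y n := fun n => by
    change e * (b * b * _ * _) = b * b * _ * _
    simp only [← mul_assoc, eb]
  let p' : ℕ → B := fun i => if h : i < m then p ⟨i, h⟩ else 0
  have p3 : ∀ i k, i ≠ k → star (y₀ * b₀ * p' i) * (y₀ * b₀ * p' k) = 0 := fun i k ne => by
    simp only [p']
    split_ifs with h h'
    · exact p2 _ _ fun e => ne (congrArg Fin.val e)
    all_goals simp
  choose w hw using fun i => exists_seq (y₀ * b₀ * p' i) y ny hε'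
  refine ⟨u, v, fun i => c.ul (w i), su1, sv1, fun g hg => ⟨(g1 g hg).1.trans δ1,
    (g1 g hg).2.trans δ1⟩, fun i => ul_le c (.of_forall fun n => (hw i n).2.1),
    fun i k z hz => ?_, fun i k z hz g hg ne => ?_, fun i k ne => ?_, fun i hi a ha => ?_⟩
  · simp only [c.j_apply, ← map_star, ← map_mul, ← map_smul, ← map_sub]
    refine ul_le c (.of_forall fun n => ?_)
    obtain ⟨⟨s, hs⟩, n1, -⟩ := hw i n
    obtain ⟨⟨s', hs'⟩, n2, -⟩ := hw k n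
    have := y3 z hz (b₀ * p' i * s) (b₀ * p' k * s')
    rw [← mul_assoc y₀, ← mul_assoc y₀, ← mul_assoc y₀, ← mul_assoc y₀, ← hs, ← hs', Algebra.algebraMap_eq_smul_one, mul_sub, sub_mul, mul_smul_comm, mul_one,
      smul_mul_assoc] at this
    exact this.trans (four_le hε.le (norm_nonneg _) n1 n2)
  · simp only [c.j_apply, c.eqU, ← map_star, ← map_mul]
    refine ul_le c (.of_forall fun n => ?_)
    obtain ⟨⟨s, hs⟩, n1, -⟩ := hw i n
    obtain ⟨⟨s', hs'⟩, n2, -⟩ := hw k n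
    have := y5 (g, z) (Finset.mem_product.2 ⟨hg, hz⟩) ne (p' i * s) (p' k * s')
    rw [← mul_assoc (y₀ * b₀), ← mul_assoc (y₀ * b₀), ← hs, ← hs'] at this
    exact this.trans (four_le hε.le (norm_nonneg _) n1 n2)
  · rw [← map_star, ← map_mul, ← map_zero c.ul]
    congr 1
    ext n
    obtain ⟨⟨s, hs⟩, -⟩ := hw i n
    obtain ⟨⟨s', hs'⟩, -⟩ := hw k n
    change star (w i n) * w k n = 0
    rw [hs, hs', star_mul, mul_assoc, ← mul_assoc _ _ s', p3 i k ne, zero_mul, mul_zero]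
  · have k1 : ‖star (c.ul (w i)) * c.ul (w i) - c.ul y‖ ≤ ε := by
      rw [← map_star, ← map_mul, ← map_sub]
      refine ul_le c ((h4 G B I α c _ mx δ (γ ⟨i, hi⟩) δ0.le (δ2 _) (fun n => Si.sa_Df _ _)
        (fun τ hτ => qx ▸ g2 τ hτ) b b1 e b2 e2.sa eb).mono fun n hn => ?_)
      refine (hw i n).2.2 ?_
      simp only [p', dif_pos hi]
      exact hγ ⟨i, hi⟩ _ (py n) (ey n) hn
    have k2 : c.ul y * c.j a = Df (u : c.U) v * c.j (b * (b * (b * (b * a)))) := by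
      rw [map_mul, map_mul, ← c.j_apply, ← (mem_Cm.1 mx _).eq, ex]
      simp only [map_mul, mul_assoc]
    have k3 : ‖b * (b * (b * (b * a))) - a‖ ≤ ε + ε + ε + ε :=
      step_le b2.le (hb a ha).1 (step_le b2.le (hb a ha).1 (step_le b2.le (hb a ha).1 (hb a ha).1))
    rw [show star (c.ul (w i)) * c.ul (w i) * c.j a - Df (u : c.U) v * c.j a =
      (star (c.ul (w i)) * c.ul (w i) - c.ul y) * c.j a +
        Df (u : c.U) v * c.j (b * (b * (b * (b * a))) - a) by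
      rw [sub_mul, k2, map_sub, mul_sub]; abel]
    have k4 := (norm_mul_le _ (c.j a)).trans (mul_le_mul_of_nonneg_right k1 (norm_nonneg _))
    have k5 := (norm_mul_le (Df (u : c.U) v) (c.j (b * (b * (b * (b * a))) - a))).trans
      (mul_le_of_le_one_left (norm_nonneg _) (norm_Df_le su1.le sv1.le))
    rw [c.norm_j] at k4 k5
    refine (norm_add_le _ _).trans ?_
    linarith

end Si1

theorem si1S (h1 : SatS) (h2 : OutS) (h3 : LocS) (h4 : HbtS) : Si1S := by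
  intro G B _ _ _ I α c l _ hE hP hC hG
  have := c.sys.sep
  obtain ⟨KB, -, hB⟩ := Si.exists_dense (Set.univ : Set B)
  obtain ⟨KI, hI1, hI2⟩ := Si.exists_dense (I : Set B)
  obtain ⟨KG, hKG⟩ := Si.exists_enum G
  have p0 : ∀ m : ℕ, (0 : ℝ) < 1 / ((m : ℝ) + 1) := fun m => by positivity
  have p1 : ∀ m : ℕ, 1 / ((m : ℝ) + 1) ≤ 1 := fun m =>
    (div_le_one (by positivity)).2 (by linarith [(Nat.cast_nonneg m : (0 : ℝ) ≤ m)])
  choose u v W su sv s1 s2 s3 s4 s5 s6 using fun m : ℕ =>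
    Si1.stage h2 h3 h4 c hE hP hC hG (KB m) (KG m) (KI m) (hI1 m) m (p0 m) (p1 m)
  let uu : ℕ →ᵇ c.U := ofNormedAddCommGroupDiscrete (fun m => (u m : c.U)) 1 fun m => (su m).le
  let vv : ℕ →ᵇ c.U := ofNormedAddCommGroupDiscrete (fun m => (v m : c.U)) 1 fun m => (sv m).le
  let X : ℕ → ℕ →ᵇ c.U := fun i => ofNormedAddCommGroupDiscrete (fun m => W m i) 2 fun m => s2 m i
  obtain ⟨Y, T, t1, -, t2, t3, t4⟩ := h1 G B I α c (Bool ⊕ ℕ) Empty
    (Sum.elim (fun b => if b then uu else vv) X) Empty.elim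
  have tu : (uu, Y (.inl true)) ∈ T := t1 (.inl true)
  have tv : (vv, Y (.inl false)) ∈ T := t1 (.inl false)
  have ts : ∀ i, (X i, Y (.inr i)) ∈ T := fun i => t1 (.inr i)
  obtain ⟨a₀, ha, a0⟩ := c.sys.ne
  have cn : ∀ (x : ℕ → Cm c.j) (x' : ℕ →ᵇ c.U) (y : c.U), (∀ m, x' m = x m) → (x', y) ∈ T →
      (∀ m, SC (x m)) → (∀ m, ∀ g ∈ KG m, ‖c.γ g (c.q (x m)) - c.q (x m)‖ ≤ 1 / ((m : ℝ) + 1)) →
      ∃ hy : y ∈ Cm c.j, SC (⟨y, hy⟩ : Cm c.j) ∧ ∀ g, c.γ g (c.q ⟨y, hy⟩) = c.q ⟨y, hy⟩ := by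
    intro x x' y e hxy sx hx
    have hy : y ∈ Cm c.j := mem_Cm.2 fun b => sub_eq_zero.1 (Si.sat_eq (t4 _ (sub_mem
      (mul_mem hxy (t2 b)) (mul_mem (t2 b) hxy))) fun m => sub_eq_zero.2 (by
        change x' m * c.j b = c.j b * x' m
        rw [e]; exact mem_Cm.1 (x m).2 b))
    refine ⟨hy, ⟨Subtype.ext (sub_eq_zero.1 (Si.sat_eq (t4 _ (sub_mem (star_mem hxy) hxy))
      fun m => sub_eq_zero.2 ?_)), Si.sat_le (t4 _ hxy) (.of_forall fun m => ?_)⟩, fun g => ?_⟩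
    · change star (x' m) = x' m
      rw [e]; exact congrArg Subtype.val (sx m).sa.star_eq
    · change ‖x' m‖ ≤ 1
      rw [e]; exact (sx m).le
    rw [← c.q_β]
    refine c.isF.eq_of ha a0 (sub_eq_zero.1 (Si.sat_zero c.atTop (t4 _ (sub_mem
      (mul_mem (t3 _ hxy g) (t2 a₀)) (mul_mem hxy (t2 a₀)))) (C := ‖a₀‖)
      ((hKG g).mono fun m hm => ?_)))
    change ‖c.β g (x' m) * c.j a₀ - x' m * c.j a₀‖ ≤ _
    have := c.isF.norm (⟨c.β g (x m), c.β_mem g (x m).2⟩ - x m) a₀ ha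
    rw [map_sub, c.q_β, AddSubgroupClass.coe_sub, sub_mul] at this
    rw [e, this, mul_comm]
    exact mul_le_mul_of_nonneg_left (hx m g hm) (norm_nonneg _)
  obtain ⟨mu, su', iu⟩ := cn u uu _ (fun _ => rfl) tu su fun m g hg => (s1 m g hg).1
  obtain ⟨mv, sv', iv⟩ := cn v vv _ (fun _ => rfl) tv sv fun m g hg => (s1 m g hg).2
  refine ⟨⟨_, mu⟩, ⟨_, mv⟩, fun i => Y (.inr i), su', sv', fun g => ⟨iu g, iv g⟩, fun i k z => ?_,
    fun i k z g hg => ?_, fun i k a _ a' ha' => ?_⟩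
  · refine closure_minimal (t := {z | star (Y (.inr i)) * c.j z * Y (.inr k) =
      l z • (star (Y (.inr i)) * Y (.inr k))}) (fun y hy => ?_)
      (isClosed_eq (by fun_prop) (by fun_prop)) (hB (Set.mem_univ z))
    exact sub_eq_zero.1 (Si.sat_zero c.atTop (t4 _ (sub_mem (mul_mem (mul_mem (star_mem (ts i))
      (t2 y)) (ts k)) (T.smul_mem (mul_mem (star_mem (ts i)) (ts k)) (l y)))) (C := 4)
      (Eventually.mono hy fun m hm => s3 m i k y hm))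
  · refine closure_minimal (t := {z | star (Y (.inr i)) * c.j z * c.β g (Y (.inr k)) = 0})
      (fun y hy => ?_) (isClosed_eq (by fun_prop) (by fun_prop)) (hB (Set.mem_univ z))
    exact Si.sat_zero c.atTop (t4 _ (mul_mem (mul_mem (star_mem (ts i)) (t2 y)) (t3 _ (ts k) g)))
      (C := 4) ((Eventually.and hy (hKG g)).mono fun m hm => s4 m i k y hm.1 g hm.2 hg)
  · split_ifs with hik
    · subst hik
      rw [mul_assoc, mul_assoc (c.j a)]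
      congr 1
      refine closure_minimal (t := {z | star (Y (.inr i)) * Y (.inr i) * c.j z =
        Df (Y (.inl true)) (Y (.inl false)) * c.j z}) (fun y hy => ?_)
        (isClosed_eq (by fun_prop) (by fun_prop)) (hI2 ha')
      exact sub_eq_zero.1 (Si.sat_zero c.atTop (t4 _ (sub_mem (mul_mem (mul_mem (star_mem (ts i))
        (ts i)) (t2 y)) (mul_mem (Si.Df_mem T tu tv) (t2 y)))) (C := ‖y‖ + 4)
        ((Eventually.and hy (eventually_gt_atTop i)).mono fun m hm => s6 m i hm.2 y hm.1))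
    · have : star (Y (.inr i)) * Y (.inr k) = 0 :=
        Si.sat_eq (t4 _ (mul_mem (star_mem (ts i)) (ts k))) fun m => s5 m i k hik
      rw [this, mul_zero, zero_mul]

end Vale.Agent.P095
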