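import Vale.Agent.P095.Si1A

/-! The second stage of property SI. -/

open Filter Topology TopologicalSpace BoundedContinuousFunction
open scoped BoundedContinuousFunction

namespace Vale.Agent.P095

open Vale.Agent.P101

namespace Si2

variable {G B : Type} [Group G] [CStarAlgebra B] {I : TwoSidedIdeal B} {α : Act G B} (c : Ctx I α)

/-- The elements of the second stage. -/
noncomputable def sv (W : ℕ → c.U) {n k : ℕ} (d : Fin n → B) (e : Fin k → Fin n → B) (r : Bool) :
    c.U := ∑ m, ∑ a, c.j (d a) * W (Encodable.encode (m, r)) * c.j (e m a)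

variable {c} {l : B →L[ℂ] ℂ} {W : ℕ → c.U} {D : c.U}

theorem term (hD : D ∈ Cm c.j)
    (h1 : ∀ i k z, star (W i) * c.j z * W k = l z • (star (W i) * W k))
    (h3 : ∀ i k, ∀ a ∈ I, ∀ a' ∈ I, c.j a * (star (W i) * W k) * c.j a' =
      if i = k then c.j a * D * c.j a' else 0) (i k : ℕ) (x a b : B) {e e' : B} (he : e ∈ I)
    (he' : e' ∈ I) : star (c.j a * W i * c.j e) * c.j x * (c.j b * W k * c.j e') =
      if i = k then D * c.j (l (star a * x * b) • (star e * e')) else 0 := by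
  have : star (c.j a * W i * c.j e) * c.j x * (c.j b * W k * c.j e') =
      c.j (star e) * (star (W i) * c.j (star a * x * b) * W k) * c.j e' := by
    simp only [star_mul, map_mul, map_star, mul_assoc]
  rw [this, h1, mul_smul_comm, smul_mul_assoc, h3 _ _ _ (c.sys.star e he) _ he']
  split_ifs
  · rw [← (mem_Cm.1 hD _).eq, map_smul, map_mul c.j, mul_smul_comm, mul_assoc D]
  · rw [smul_zero]

theorem sv_mul (hD : D ∈ Cm c.j)
    (h1 : ∀ i k z, star (W i) * c.j z * W k = l z • (star (W i) * W k))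
    (h3 : ∀ i k, ∀ a ∈ I, ∀ a' ∈ I, c.j a * (star (W i) * W k) * c.j a' =
      if i = k then c.j a * D * c.j a' else 0) {n k : ℕ} (d : Fin n → B) {e : Fin k → Fin n → B}
    (he : ∀ m a, e m a ∈ I) (r r' : Bool) (x : B) :
    star (sv c W d e r) * c.j x * sv c W d e r' = if r = r' then D * c.j (cpm l d e x) else 0 := by
  simp only [sv, star_sum, Finset.sum_mul]
  simp only [Finset.mul_sum, term hD h1 h3 _ _ _ _ _ (he _ _) (he _ _), Encodable.encode_inj,
    Prod.mk.injEq]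
  split_ifs with h
  · simp only [cpm, map_sum, Finset.mul_sum, h, and_true]
    refine Finset.sum_congr rfl fun m _ => Finset.sum_congr rfl fun a _ => ?_
    rw [Finset.sum_eq_single m (fun m' _ h' => by simp [h'.symm]) (by simp)]
    simp
  · simp [h]

theorem sv_act (g : G) (h2 : ∀ i k z, star (W i) * c.j z * c.β g (W k) = 0) {n k : ℕ}
    (d : Fin n → B) (e : Fin k → Fin n → B) (r r' : Bool) :
    star (sv c W d e r) * c.β g (sv c W d e r') = 0 := by
  simp only [sv, star_sum, Finset.sum_mul, map_sum, Finset.mul_sum]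
  refine Finset.sum_eq_zero fun _ _ => Finset.sum_eq_zero fun _ _ => Finset.sum_eq_zero fun _ _ =>
    Finset.sum_eq_zero fun _ _ => ?_
  have : ∀ a i f b k f', star (c.j a * W i * c.j f) * c.β g (c.j b * W k * c.j f') =
      star (c.j f) * (star (W i) * c.j (star a * α g b) * c.β g (W k)) * c.β g (c.j f') := by
    intro a i f b k f'
    simp only [star_mul, map_mul, map_star, mul_assoc, c.β_j]
  rw [this, h2, mul_zero, zero_mul]

theorem bound (hD : D ∈ Cm c.j) (pD : Pos D) (nD : ‖D‖ ≤ 1) {s : c.U} {p : B} {ε : ℝ} (hε : 0 ≤ ε)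
    (hε' : ε ≤ 1) (hp : ‖p‖ ≤ 1 + ε) (hs : star s * s = D * c.j p) :
    ‖(2 : ℝ) • (1 : c.U) - (D - star s * s)‖ ≤ 2 + 1 * ε := by
  obtain ⟨r, r1, r2, r3⟩ := pD.sqrt
  have cm : ∀ b, Commute r (c.j b) := fun b => r3 _ (mem_Cm.1 hD b)
  have e1 : star s * s = star r * c.j p * r := by
    rw [hs, r1.sa.star_eq, mul_assoc, ← (cm p).eq, ← mul_assoc, r2]
  have e2 : star s * s = star r * star (c.j p) * r := by
    rw [← (IsSelfAdjoint.star_mul_self s).star_eq, e1]
    simp only [star_mul, star_star, mul_assoc]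
  have sa : IsSelfAdjoint ((1 / 2 : ℝ) • (c.j p + star (c.j p))) :=
    (IsSelfAdjoint.all _).smul (IsSelfAdjoint.add_star_self _)
  have n1 : ‖(1 / 2 : ℝ) • (c.j p + star (c.j p))‖ ≤ 1 + ε := by
    have := norm_add_le (c.j p) (star (c.j p))
    rw [norm_star, c.norm_j] at this
    rw [norm_smul, Real.norm_of_nonneg (by norm_num)]
    linarith
  have P1 : Pos ((1 + ε) • D - star s * s) := by
    convert (Pos.of_norm sa n1).conj r using 1
    simp only [mul_sub, sub_mul, mul_smul_comm, smul_mul_assoc, mul_add, add_mul, ← e1, ← e2]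
    rw [r1.sa.star_eq, mul_one, r2, ← two_smul ℝ, smul_smul]
    norm_num
  have P2 : Pos ((2 : ℝ) • (1 : c.U) - ((1 + ε) • D - star s * s)) := by
    convert (Pos.of_norm ((IsSelfAdjoint.all (1 + ε)).smul pD.sa) (r := 2) (by
      rw [norm_smul, Real.norm_of_nonneg (by positivity)]; nlinarith [norm_nonneg D])).add
      (Pos.sq s) using 1
    abel
  have := Si.norm_sub_le_of_pos zero_le_two P1 P2
  rw [show (2 : ℝ) • (1 : c.U) - (D - star s * s) =
    ((2 : ℝ) • (1 : c.U) - ((1 + ε) • D - star s * s)) + ε • D by rw [add_smul, one_smul]; abel]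
  refine (norm_add_le _ _).trans (add_le_add this ?_)
  rw [norm_smul, Real.norm_of_nonneg hε, one_mul]
  exact mul_le_of_le_one_right hε nD

theorem comm_of {s : c.U} (hD : D ∈ Cm c.j) (h1 : Pos (D - star s * s))
    (h2 : ∀ x ∈ I, star s * c.j x * s = D * c.j x) : s ∈ Cm c.j := by
  refine c.mem_N fun a ha => sub_eq_zero.1 (CStarRing.star_mul_self_eq_zero_iff _ |>.1
    (Si.eq_zero_of_pos (Pos.sq _) ?_))
  convert h1.conj (c.j a) using 1
  have k1 := h2 a ha
  have k2 := h2 _ (c.sys.star a ha)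
  have k3 := h2 _ (I.mul_mem_left (star a) _ ha)
  have k4 := (mem_Cm.1 hD (star a)).eq
  simp only [map_mul, map_star] at k2 k3 k4
  have : star (s * c.j a - c.j a * s) * (s * c.j a - c.j a * s) =
      star (c.j a) * (star s * s) * c.j a - star (c.j a) * (star s * c.j a * s) -
        star s * star (c.j a) * s * c.j a + star s * (star (c.j a) * c.j a) * s := by
    simp only [star_sub, star_mul]; noncomm_ring
  rw [this, k1, k2, k3, ← mul_assoc D, k4]
  noncomm_ring

end Si2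

theorem si2S (h : SatS) : Si2S := by
  intro G B _ _ _ I α c l _ hc ⟨u, v, W, hu, hv, h0, h1, h2, h3⟩
  have := c.sys.sep
  have hD : Df (u : c.U) v ∈ Cm c.j := Si.Df_mem _ u.2 v.2
  have pD : Pos (Df (u : c.U) v) := pos_Df hu.le hv.le
  have nD : ‖Df (u : c.U) v‖ ≤ 1 := norm_Df_le hu.le hv.le
  obtain ⟨K, hK1, hK2⟩ := Si.exists_dense (I : Set B)
  have p0 : ∀ m : ℕ, (0 : ℝ) < 1 / ((m : ℝ) + 1) := fun m => by positivity
  have p1 : ∀ m : ℕ, 1 / ((m : ℝ) + 1) ≤ 1 := fun m =>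
    (div_le_one (by positivity)).2 (by linarith [(Nat.cast_nonneg m : (0 : ℝ) ≤ m)])
  choose n k d e he1 he2 he3 using fun m : ℕ => hc (K m) (hK1 m) _ (p0 m)
  have s1 := fun m => Si2.sv_mul hD h1 h3 (d m) (he1 m)
  have s2 : ∀ m r, star (Si2.sv c W (d m) (e m) r) * Si2.sv c W (d m) (e m) r =
      Df (u : c.U) v * c.j (cpm l (d m) (e m) 1) := fun m r => by
    simpa using s1 m r r 1
  have bd : ∀ r m, ‖Si2.sv c W (d m) (e m) r‖ ≤ √2 := fun r m => Real.le_sqrt_of_sq_le (by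
    rw [sq, ← CStarRing.norm_star_mul_self, s2]
    refine (norm_mul_le _ _).trans ((mul_le_of_le_one_left (norm_nonneg _) nD).trans ?_)
    rw [c.norm_j]
    linarith [he2 m, p1 m])
  let X : Bool → ℕ →ᵇ c.U := fun r =>
    ofNormedAddCommGroupDiscrete (fun m => Si2.sv c W (d m) (e m) r) _ (bd r)
  obtain ⟨Y, T, t1, -, t2, t3, t4⟩ := h G B I α c (Bool ⊕ Bool) Empty
    (Sum.elim X fun b => const ℕ (if b then (u : c.U) else v)) Empty.elim
  have tu : (const ℕ (u : c.U), Y (.inr true)) ∈ T := t1 (.inr true)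
  have tv : (const ℕ (v : c.U), Y (.inr false)) ∈ T := t1 (.inr false)
  have ts : ∀ r, (X r, Y (.inl r)) ∈ T := fun r => t1 (.inl r)
  obtain ⟨a₀, ha, a0⟩ := c.sys.ne
  have cn : ∀ (x : Cm c.j) (y : c.U), (const ℕ (x : c.U), y) ∈ T → (∀ g, c.γ g (c.q x) = c.q x) →
      ∃ hy : y ∈ Cm c.j, ∀ g, c.γ g (c.q ⟨y, hy⟩) = c.q ⟨y, hy⟩ := fun x y hxy hx => by
    have hy : y ∈ Cm c.j := mem_Cm.2 fun b => sub_eq_zero.1 (Si.sat_eq (t4 _ (sub_mem
      (mul_mem hxy (t2 b)) (mul_mem (t2 b) hxy))) fun m => sub_eq_zero.2 (mem_Cm.1 x.2 b))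
    refine ⟨hy, fun g => ?_⟩
    rw [← c.q_β]
    refine c.isF.eq_of ha a0 (sub_eq_zero.1 (Si.sat_eq (t4 _ (sub_mem
      (mul_mem (t3 _ hxy g) (t2 a₀)) (mul_mem hxy (t2 a₀)))) fun m => sub_eq_zero.2 ?_))
    exact c.isF.ann' ((c.q_β g x).trans (hx g)) ha
  obtain ⟨mu, iu⟩ := cn u _ tu fun g => (h0 g).1
  obtain ⟨mv, iv⟩ := cn v _ tv fun g => (h0 g).2
  have tD := Si.Df_mem T tu tv
  have hD' : Df (Y (.inr true)) (Y (.inr false)) ∈ Cm c.j := Si.Df_mem _ mu mv
  have e1 : ∀ r r', ∀ x ∈ I, star (Y (.inl r)) * c.j x * Y (.inl r') =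
      if r = r' then Df (Y (.inr true)) (Y (.inr false)) * c.j x else 0 := fun r r' x hx => by
    refine closure_minimal (t := {x | star (Y (.inl r)) * c.j x * Y (.inl r') =
      if r = r' then Df (Y (.inr true)) (Y (.inr false)) * c.j x else 0}) (fun y hy => ?_)
      (isClosed_eq (by fun_prop) (by split_ifs <;> fun_prop)) (hK2 hx)
    have m1 := mul_mem (mul_mem (star_mem (ts r)) (t2 y)) (ts r')
    change _ = _
    split_ifs with hr
    · refine sub_eq_zero.1 (Si.sat_zero c.atTop (t4 _ (sub_mem m1 (mul_mem tD (t2 y)))) (C := 1)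
        (Eventually.mono hy fun m hm => ?_))
      change ‖star (Si2.sv c W (d m) (e m) r) * c.j y * Si2.sv c W (d m) (e m) r' -
        Df (u : c.U) v * c.j y‖ ≤ _
      rw [s1, if_pos hr, ← mul_sub, ← map_sub, one_mul]
      refine (norm_mul_le _ _).trans ((mul_le_of_le_one_left (norm_nonneg _) nD).trans ?_)
      rw [c.norm_j]
      exact he3 m y hm
    · exact Si.sat_eq (t4 _ m1) fun m => (s1 m r r' y).trans (if_neg hr)
  have e2 : ∀ r, Pos (Df (Y (.inr true)) (Y (.inr false)) - star (Y (.inl r)) * Y (.inl r)) :=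
    fun r => Si.pos_of_norm_sub ((Si.sa_Df _ _).sub (IsSelfAdjoint.star_mul_self _)) (r := 2)
      (Si.sat_le' c.atTop (t4 _ (sub_mem (Si.rsmul_mem T 2 (one_mem T))
        (sub_mem tD (mul_mem (star_mem (ts r)) (ts r))))) (C := 1)
        (.of_forall fun m => Si2.bound hD pD nD (p0 m).le (p1 m) (he2 m) (s2 m r)))
  have ms : ∀ r, Y (.inl r) ∈ Cm c.j := fun r => Si2.comm_of hD' (e2 r) fun x hx => by
    rw [e1 r r x hx, if_pos rfl]
  refine ⟨c.q ⟨_, mu⟩, c.q ⟨_, mv⟩, fun r => c.q ⟨_, ms r⟩, fun g => ⟨iu g, iv g⟩,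
    fun r r' => ?_, fun r r' g hg => ?_⟩
  · have k := e1 r r' a₀ ha
    rw [mul_assoc, ← (mem_Cm.1 (ms r') a₀).eq, ← mul_assoc] at k
    rw [← map_star, ← map_mul, ← map_Df]
    split_ifs at k ⊢
    · exact c.isF.eq_of ha a0 k
    · exact (c.isF.eq_of (y := 0) ha a0 (k.trans (zero_mul _).symm)).trans (map_zero _)
  · rw [← c.q_β, ← map_star, ← map_mul, ← map_zero c.q]
    congr 1
    exact Subtype.ext (Si.sat_eq (t4 _ (mul_mem (star_mem (ts r)) (t3 _ (ts r') g)))
      fun m => Si2.sv_act g (fun i k z => h2 i k z g hg) _ _ r r')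

end Vale.Agent.P095
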