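import Vale.Agent.P095.Si1A

/-! The third stage of property SI. -/

open Filter Topology TopologicalSpace BoundedContinuousFunction
open scoped BoundedContinuousFunction

namespace Vale.Agent.P095

open Vale.Agent.P101

namespace Si3

variable {G F : Type} [Group G] [CStarAlgebra F] (γ : Act G F)

open Classical in
/-- The number of elements of `P` acting as `h`. -/
noncomputable def mu (P : Finset G) (h : F ≃⋆ₐ[ℂ] F) : ℕ := (P.filter fun g => γ g = h).card

open Classical in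
/-- The weighted average. -/
noncomputable def av (P : Finset G) (x : F) : F :=
  ∑ h ∈ P.image γ, √((mu γ P h : ℝ) / P.card) • h x

open Classical in
theorem av_eq (P : Finset G) (x : F) {A : Finset (F ≃⋆ₐ[ℂ] F)} (hA : P.image γ ⊆ A) :
    av γ P x = ∑ h ∈ A, √((mu γ P h : ℝ) / P.card) • h x := by
  refine Finset.sum_subset hA fun h _ hh => ?_
  have : mu γ P h = 0 := by
    rw [mu, Finset.card_eq_zero, Finset.filter_eq_empty_iff]
    exact fun g hg e => hh (Finset.mem_image.2 ⟨g, hg, e⟩)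
  simp [this]

open Classical in
theorem act_av (P : Finset G) (x : F) (t : G) :
    γ t (av γ P x) = av γ (P.image (t * ·)) x := by
  have e1 : (P.image (t * ·)).image γ = (P.image γ).image (γ t * ·) := by
    simp only [Finset.image_image]
    exact Finset.image_congr fun g _ => by simp
  have e2 : (P.image (t * ·)).card = P.card :=
    Finset.card_image_of_injective _ (mul_right_injective t)
  have e3 : ∀ h, mu γ (P.image (t * ·)) (γ t * h) = mu γ P h := fun h => by
    rw [mu, mu, Finset.filter_image, Finset.card_image_of_injective _ (mul_right_injective t)]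
    congr 1
    exact Finset.filter_congr fun g _ => by simp
  rw [av, av, e1, Finset.sum_image fun a _ b _ e => mul_right_injective (γ t) e, map_sum]
  refine Finset.sum_congr rfl fun h _ => ?_
  rw [map_rsmul, e2, e3]
  rfl

open Classical in
theorem sum_mu_le (P : Finset G) (A : Finset (F ≃⋆ₐ[ℂ] F)) : ∑ h ∈ A, mu γ P h ≤ P.card := by
  exact (Finset.sum_card_fiberwise_eq_card_filter P A γ).trans_le (Finset.card_filter_le _ _)

open Classical in
theorem sum_mu (P : Finset G) : ∑ h ∈ P.image γ, mu γ P h = P.card :=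
  (Finset.card_eq_sum_card_image γ P).symm

open Classical in
theorem mu_split (P Q : Finset G) (h : F ≃⋆ₐ[ℂ] F) :
    mu γ P h = mu γ (P ∩ Q) h + mu γ (P \ Q) h := by
  unfold mu
  rw [← Finset.card_union_of_disjoint (Finset.disjoint_filter_filter
    (Finset.disjoint_sdiff_inter P Q).symm), ← Finset.filter_union, Finset.union_comm,
    Finset.sdiff_union_inter]

variable {γ} {D : F} {s : Bool → F}

theorem key (hD : ∀ g, γ g D = D) (h1 : ∀ r r', star (s r) * s r' = if r = r' then D else 0)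
    (h2 : ∀ r r' g, γ g ≠ 1 → star (s r) * γ g (s r') = 0) (A : Finset (F ≃⋆ₐ[ℂ] F))
    (hA : ∀ h ∈ A, ∃ g, γ g = h) (c c' : (F ≃⋆ₐ[ℂ] F) → ℝ) (r r' : Bool) :
    star (∑ h ∈ A, c h • h (s r)) * ∑ h ∈ A, c' h • h (s r') =
      (∑ h ∈ A, c h * c' h) • if r = r' then D else 0 := by
  rw [star_sum, Finset.sum_mul, Finset.sum_smul]
  refine Finset.sum_congr rfl fun h hh => ?_
  obtain ⟨g, rfl⟩ := hA h hh
  rw [Finset.mul_sum, Finset.sum_eq_single_of_mem _ hh]
  · rw [star_smul, star_trivial, smul_mul_smul_comm, ← map_star, ← map_mul, h1]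
    split_ifs
    · rw [hD]
    · rw [map_zero]
  · intro h' hh' ne
    obtain ⟨g', rfl⟩ := hA h' hh'
    have : γ (g⁻¹ * g') ≠ 1 := fun e => ne (by
      rw [map_mul, map_inv, inv_mul_eq_one] at e; exact e.symm)
    rw [star_smul, star_trivial, smul_mul_smul_comm, show γ g' (s r') = γ g (γ (g⁻¹ * g') (s r')) by
      rw [act_mul, mul_inv_cancel_left], ← map_star, ← map_mul, h2 _ _ _ this, map_zero, smul_zero]

theorem av_mul (hD : ∀ g, γ g D = D) (h1 : ∀ r r', star (s r) * s r' = if r = r' then D else 0)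
    (h2 : ∀ r r' g, γ g ≠ 1 → star (s r) * γ g (s r') = 0) {P : Finset G} (hP : P.Nonempty)
    (r r' : Bool) : star (av γ P (s r)) * av γ P (s r') = if r = r' then D else 0 := by
  classical
  have c0 : (0 : ℝ) < P.card := by exact_mod_cast hP.card_pos
  rw [av, av, key hD h1 h2 _ (fun h hh => by simpa using (Finset.mem_image.1 hh).imp fun _ h => h.2)]
  simp only [Real.mul_self_sqrt (div_nonneg (Nat.cast_nonneg _) c0.le)]
  rw [← Finset.sum_div, ← Nat.cast_sum, sum_mu, div_self c0.ne', one_smul]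

theorem sqrt_sub_sq {a b : ℝ} (ha : 0 ≤ a) (hb : 0 ≤ b) : (√a - √b) * (√a - √b) ≤ |a - b| := by
  have e : a - b = (√a - √b) * (√a + √b) := by
    nlinarith [Real.mul_self_sqrt ha, Real.mul_self_sqrt hb]
  rw [e, abs_mul, ← abs_mul_abs_self]
  refine mul_le_mul_of_nonneg_left ?_ (abs_nonneg _)
  have h1 := Real.sqrt_nonneg a
  have h2 := Real.sqrt_nonneg b
  rw [abs_of_nonneg (add_nonneg h1 h2), abs_le]
  constructor <;> linarith

open Classical in
theorem av_sub (hD : ∀ g, γ g D = D) (h1 : ∀ r r', star (s r) * s r' = if r = r' then D else 0)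
    (h2 : ∀ r r' g, γ g ≠ 1 → star (s r) * γ g (s r') = 0) {P Q : Finset G} (hP : P.Nonempty)
    (hQ : Q.card = P.card) {ε : ℝ} (hε : ((Q \ P).card : ℝ) ≤ ε * P.card) (r : Bool) :
    ‖av γ Q (s r) - av γ P (s r)‖ * ‖av γ Q (s r) - av γ P (s r)‖ ≤ 2 * ‖D‖ * ε := by
  have c0 : (0 : ℝ) < P.card := by exact_mod_cast hP.card_pos
  rw [← CStarRing.norm_star_mul_self, av_eq γ Q _ (A := (P ∪ Q).image γ)
    (Finset.image_subset_image Finset.subset_union_right), av_eq γ P _ (A := (P ∪ Q).image γ)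
    (Finset.image_subset_image Finset.subset_union_left), ← Finset.sum_sub_distrib]
  simp only [← sub_smul]
  rw [key hD h1 h2 _ (fun h hh => (Finset.mem_image.1 hh).imp fun _ h => h.2), if_pos rfl,
    norm_smul, Real.norm_of_nonneg (Finset.sum_nonneg fun _ _ => mul_self_nonneg _), hQ]
  have e : ∑ h ∈ (P ∪ Q).image γ, (√((mu γ Q h : ℝ) / P.card) - √((mu γ P h : ℝ) / P.card)) *
      (√((mu γ Q h : ℝ) / P.card) - √((mu γ P h : ℝ) / P.card)) ≤ 2 * ε := by
    calc _ ≤ ∑ h ∈ (P ∪ Q).image γ, ((mu γ (Q \ P) h : ℝ) + mu γ (P \ Q) h) / P.card := by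
          refine Finset.sum_le_sum fun h _ => (sqrt_sub_sq (by positivity) (by positivity)).trans ?_
          rw [← sub_div, abs_div, abs_of_pos c0, mu_split γ Q P, mu_split γ P Q, Finset.inter_comm]
          refine div_le_div_of_nonneg_right ?_ c0.le
          push_cast
          have : (0 : ℝ) ≤ mu γ (Q \ P) h := Nat.cast_nonneg _
          have : (0 : ℝ) ≤ mu γ (P \ Q) h := Nat.cast_nonneg _
          rw [abs_le]
          constructor <;> linarith
      _ ≤ 2 * ε := by
          rw [← Finset.sum_div, Finset.sum_add_distrib, div_le_iff₀ c0, ← Nat.cast_sum,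
            ← Nat.cast_sum]
          have a1 : ((∑ h ∈ (P ∪ Q).image γ, mu γ (Q \ P) h : ℕ) : ℝ) ≤ (Q \ P).card := by
            exact_mod_cast sum_mu_le γ _ _
          have a2 : ((∑ h ∈ (P ∪ Q).image γ, mu γ (P \ Q) h : ℕ) : ℝ) ≤ (Q \ P).card := by
            rw [Finset.card_sdiff_comm hQ]; exact_mod_cast sum_mu_le γ _ _
          linarith
  nlinarith [norm_nonneg D]

theorem stage (hG : Fol G) (hD : ∀ g, γ g D = D)
    (h1 : ∀ r r', star (s r) * s r' = if r = r' then D else 0)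
    (h2 : ∀ r r' g, γ g ≠ 1 → star (s r) * γ g (s r') = 0) (K : Finset G) {ε : ℝ} (hε : 0 < ε) :
    ∃ S : Bool → F, (∀ r r', star (S r) * S r' = if r = r' then D else 0) ∧
      ∀ g ∈ K, ∀ r, ‖star (γ g (S r) - S r) * (γ g (S r) - S r)‖ ≤ 2 * ‖D‖ * ε := by
  classical
  obtain ⟨P, hP, h⟩ := hG K ε hε
  refine ⟨fun r => av γ P (s r), av_mul hD h1 h2 hP, fun g hg r => ?_⟩
  rw [CStarRing.norm_star_mul_self, act_av]
  refine av_sub hD h1 h2 hP (Finset.card_image_of_injective _ (mul_right_injective g)) ?_ r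
  refine le_trans (le_of_eq ?_) (h g hg)
  rw [← Finset.card_image_of_injective (P.filter _) (mul_right_injective g)]
  congr 2
  ext x
  simp only [Finset.mem_sdiff, Finset.mem_image, Finset.mem_filter]
  constructor
  · rintro ⟨⟨a, ha, rfl⟩, h⟩; exact ⟨a, ⟨ha, h⟩, rfl⟩
  · rintro ⟨a, ⟨ha, h⟩, rfl⟩; exact ⟨⟨a, ha, rfl⟩, h⟩

end Si3

theorem si3S (h : SatFS) : Si3S := by
  intro G B _ _ _ I α c hG ⟨u, v, s, h0, h1, h2⟩
  have hD : ∀ g, c.γ g (Df u v) = Df u v := fun g => by rw [map_Df, (h0 g).1, (h0 g).2]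
  obtain ⟨K, hK⟩ := Si.exists_enum G
  choose S hS1 hS2 using fun m : ℕ => Si3.stage hG hD h1 h2 (K m) (ε := 1 / ((m : ℝ) + 1))
    (by positivity)
  have bd : ∀ r m, ‖S m r‖ ≤ √‖Df u v‖ := fun r m => Real.le_sqrt_of_sq_le (by
    rw [sq, ← CStarRing.norm_star_mul_self, hS1, if_pos rfl])
  let X : Bool → ℕ →ᵇ c.F := fun r => ofNormedAddCommGroupDiscrete (fun m => S m r) _ (bd r)
  obtain ⟨Y, T, t1, t2, t3⟩ := h G B I α c (Bool ⊕ Bool)
    (Sum.elim X fun b => const ℕ (if b then u else v))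
  have tu : (const ℕ u, Y (.inr true)) ∈ T := t1 (.inr true)
  have tv : (const ℕ v, Y (.inr false)) ∈ T := t1 (.inr false)
  have ts : ∀ r, (X r, Y (.inl r)) ∈ T := fun r => t1 (.inl r)
  have fu : Y (.inr true) ∈ Fix c.γ := fun g => sub_eq_zero.1
    (Si.sat_eq (t3 _ (sub_mem (t2 _ tu g) tu)) fun m => sub_eq_zero.2 (h0 g).1)
  have fv : Y (.inr false) ∈ Fix c.γ := fun g => sub_eq_zero.1
    (Si.sat_eq (t3 _ (sub_mem (t2 _ tv g) tv)) fun m => sub_eq_zero.2 (h0 g).2)
  have fs : ∀ r, Y (.inl r) ∈ Fix c.γ := fun r g => by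
    have m1 := sub_mem (t2 _ (ts r) g) (ts r)
    have := Si.sat_zero c.atTop (t3 _ (mul_mem (star_mem m1) m1)) (C := 2 * ‖Df u v‖)
      ((hK g).mono fun m hm => hS2 m g hm r)
    exact sub_eq_zero.1 (CStarRing.star_mul_self_eq_zero_iff _ |>.1 this)
  have e1 : ∀ r, star (Y (.inl r)) * Y (.inl r) = Df (Y (.inr true)) (Y (.inr false)) := fun r =>
    sub_eq_zero.1 (Si.sat_eq (t3 _ (sub_mem (mul_mem (star_mem (ts r)) (ts r))
      (Si.Df_mem T tu tv))) fun m => sub_eq_zero.2 ((hS1 m r r).trans (if_pos rfl)))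
  have e2 : star (Y (.inl true)) * Y (.inl false) = 0 :=
    Si.sat_eq (t3 _ (mul_mem (star_mem (ts true)) (ts false))) fun m => hS1 m true false
  refine ⟨fun χ => ?_⟩
  have d1 : χ (Df ⟨_, fu⟩ ⟨_, fv⟩) = 1 := by
    rw [map_Df, Df, Yc, mul_comm (χ _), sub_self, smul_zero, mul_zero, sub_zero]
  have k1 : ∀ r, χ ⟨_, fs r⟩ ≠ 0 := fun r e => by
    have : star (⟨_, fs r⟩ : Fix c.γ) * ⟨_, fs r⟩ = Df ⟨_, fu⟩ ⟨_, fv⟩ := Subtype.ext (e1 r)
    rw [← this, map_mul, e, mul_zero] at d1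
    exact zero_ne_one d1
  have k2 : star (⟨_, fs true⟩ : Fix c.γ) * ⟨_, fs false⟩ = 0 := Subtype.ext e2
  have k3 := congrArg χ k2
  rw [map_mul, map_star, map_zero, mul_eq_zero, star_eq_zero] at k3
  exact k3.elim (k1 _) (k1 _)

end Vale.Agent.P095
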