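import Vale.Agent.P095.Basic

/-! Passage through the tracial ultrapower and averaging over Folner sets. -/

open Filter Topology TopologicalSpace BoundedContinuousFunction
open scoped BoundedContinuousFunction

namespace Vale.Agent.P095

open Vale.Agent.P101

namespace Tu

section ap

variable {M M' : Type*} [CStarAlgebra M] [CStarAlgebra M'] {n : ℕ} {X Z : M} {w : Fin n → M}

/-- Approximate Pauli pairs. -/
structure AP (X Z : M) (w : Fin n → M) : Prop where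
  sx : SC X
  sz : SC Z
  xz : X * Z = -(Z * X)
  zz : Z * Z = X * X
  ww : ∀ a b, star (w a) * w b = if a = b then (1 - X * X) * (1 - X * X) else 0

theorem AP.map (h : AP X Z w) (π : M →⋆ₐ[ℂ] M') : AP (π X) (π Z) fun a => π (w a) :=
  ⟨h.sx.map π, h.sz.map π, by rw [← map_mul, h.xz, map_neg, map_mul],
    by rw [← map_mul, h.zz, map_mul], fun a b => by
      rw [← map_star, ← map_mul, h.ww]
      split_ifs <;> simp⟩

theorem AP.tr (h : AP X Z w) {τ : M →ₗ[ℝ] ℝ} (hτ : IsRT τ) :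
    n * τ ((1 - X * X) * (1 - X * X)) ≤ τ 1 := by
  obtain ⟨D, hD⟩ : ∃ D, D = 1 - X * X := ⟨_, rfl⟩
  have hw := h.ww
  rw [← hD] at hw ⊢
  have xs := h.sx.sa.star_eq
  have p1 : Pos D := by
    have := Pos.of_norm (IsSelfAdjoint.star_mul_self X) (r := 1) (by
      rw [CStarRing.norm_star_mul_self]; exact mul_le_one₀ h.sx.le (norm_nonneg _) h.sx.le)
    rwa [xs, one_smul, ← hD] at this
  have n1 : ‖D‖ ≤ 1 := (p1.norm_le (y := 1) (by
    have := Pos.sq X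
    rwa [xs, ← sub_sub_cancel 1 (X * X), ← hD] at this)).trans norm_one_le'
  have ds := p1.sa.star_eq
  have p2 : Pos (D * D) := by have := Pos.sq D; rwa [ds] at this
  have t0 := hτ.nonneg p2
  have e1 : τ (∑ a, w a * star (w a)) = n * τ (D * D) := by
    rw [map_sum, Finset.sum_congr rfl fun a _ => (hτ.comm (w a) _).trans (by rw [hw, if_pos rfl])]
    simp
  have e2 : τ (star (∑ a, w a * star (w a)) * ∑ a, w a * star (w a)) = n * τ (D * D * (D * D)) := by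
    have : ∀ a, τ (star (w a * star (w a)) * ∑ b, w b * star (w b)) = τ (D * D * (D * D)) :=
      fun a => by
        rw [Finset.mul_sum, Finset.sum_eq_single a, star_mul, star_star, mul_assoc,
          ← mul_assoc (star (w a)), hw, if_pos rfl, hτ.comm, mul_assoc, hw, if_pos rfl]
        · intro b _ hb
          rw [star_mul, star_star, mul_assoc, ← mul_assoc (star (w a)), hw, if_neg hb.symm]
          simp
        · simp
    rw [star_sum, Finset.sum_mul, map_sum, Finset.sum_congr rfl fun a _ => this a]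
    simp
  have e3 : τ (D * D * (D * D)) ≤ τ (D * D) :=
    (le_abs_self _).trans ((hτ.abs_mul_le p2 _).trans (mul_le_of_le_one_left t0
      ((norm_mul_le _ _).trans (mul_le_one₀ n1 (norm_nonneg _) n1))))
  have c := hτ.cs 1 (∑ a, w a * star (w a))
  rw [star_one, one_mul, e1] at c
  have c2 := pow_le_pow_left₀ (abs_nonneg _) c 2
  rw [sq_abs, mul_pow (nu τ 1), hτ.nu_sq, hτ.nu_sq, e2, star_one, one_mul] at c2
  have t1 := hτ.one_nonneg
  have n0 : (0 : ℝ) ≤ n := n.cast_nonneg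
  have c3 := c2.trans (mul_le_mul_of_nonneg_left (mul_le_mul_of_nonneg_left e3 n0) t1)
  by_contra hc
  push Not at hc
  nlinarith

theorem exists_ap {F : Type} [CStarAlgebra F] (hF : Fresh F) (h : IsEmpty (F →⋆ₐ[ℂ] ℂ)) (n : ℕ) :
    ∃ (X Z : F) (w : Fin n → F), AP X Z w := by
  obtain ⟨ψ, E, z, hd, -, h2⟩ := tree hF (i₀ := 0) (i₁ := 1) (by simp) (fullOZ_all hF h 1) (Fin n)
  let σx : Matrix (Fin (1 + 1)) (Fin (1 + 1)) ℂ := !![0, 1; 1, 0]
  let σz : Matrix (Fin (1 + 1)) (Fin (1 + 1)) ℂ := !![1, 0; 0, -1]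
  have a1 : IsSelfAdjoint σx := by
    ext i j; fin_cases i <;> fin_cases j <;> simp [σx]
  have a2 : IsSelfAdjoint σz := by
    ext i j; fin_cases i <;> fin_cases j <;> simp [σz]
  have a3 : σx * σx = 1 := by
    ext i j; fin_cases i <;> fin_cases j <;> simp [σx]
  have a4 : σz * σz = 1 := by
    ext i j; fin_cases i <;> fin_cases j <;> simp [σz]
  have a5 : σx * σz = -(σz * σx) := by
    ext i j; fin_cases i <;> fin_cases j <;> simp [σx, σz]
  have sc : ∀ a, IsSelfAdjoint a → a * a = 1 → SC (ψ a) := fun a ha h1 => by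
    refine ⟨hd.oz.sa ha, ?_⟩
    have := CStarRing.norm_star_mul_self (x := ψ a)
    rw [(hd.oz.sa ha).star_eq, hd.oz.mul, h1] at this
    have h3 := (norm_mul_le (ψ 1) (ψ 1)).trans (mul_le_one₀ hd.le (norm_nonneg _) hd.le)
    nlinarith [norm_nonneg (ψ a)]
  have xx : ψ σx * ψ σx = ψ 1 * ψ 1 := by rw [hd.oz.mul, a3]
  have hs : star (1 - ψ 1 * ψ 1) = 1 - ψ 1 * ψ 1 := by
    rw [star_sub, star_one, star_mul, hd.oz.sa1.star_eq]
  have e1 : E * (1 - ψ 1 * ψ 1) = 1 - ψ 1 * ψ 1 := by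
    rw [show 1 - ψ 1 * ψ 1 = (1 - ψ 1) * (1 + ψ 1) by noncomm_ring, ← mul_assoc, hd.one]
  have e2 : (1 - ψ 1 * ψ 1) * E = 1 - ψ 1 * ψ 1 := by
    have := congrArg star e1
    rwa [star_mul, hs, hd.sa.star_eq] at this
  refine ⟨ψ σx, ψ σz, fun a => z a * (1 - ψ 1 * ψ 1), sc _ a1 a3, sc _ a2 a4, ?_, ?_,
    fun a b => ?_⟩
  · rw [hd.oz.mul, hd.oz.mul σz, a5, map_neg, mul_neg]
  · rw [xx, hd.oz.mul, a4]
  · rw [xx, star_mul, hs, mul_assoc, ← mul_assoc (star (z a)), h2]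
    split_ifs
    · rw [mul_assoc E, e1, e1]
    · simp

theorem fresh_ap {F : Type} [CStarAlgebra F] (hF : Fresh F) (h : IsEmpty (F →⋆ₐ[ℂ] ℂ)) (n : ℕ)
    {S : Set F} (hS : IsSeparable S) :
    ∃ (X Z : F) (w : Fin n → F), AP X Z w ∧ ∀ s ∈ S, Commute X s ∧ Commute Z s := by
  obtain ⟨X, Z, w, hp⟩ := exists_ap hF h n
  obtain ⟨D, hD, _, hs, -⟩ := Cov.sep (s := {(1 : F)}) (fun I hI => hI rfl)
    (((Set.finite_range w).insert Z).insert X).isSeparable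
  let X' : D := ⟨X, hs (Set.mem_insert _ _)⟩
  let Z' : D := ⟨Z, hs (Set.mem_insert_of_mem _ (Set.mem_insert _ _))⟩
  let w' : Fin n → D := fun a =>
    ⟨w a, hs (Set.mem_insert_of_mem _ (Set.mem_insert_of_mem _ ⟨a, rfl⟩))⟩
  have hp' : AP X' Z' w' := ⟨⟨Subtype.ext hp.sx.sa, hp.sx.le⟩, ⟨Subtype.ext hp.sz.sa, hp.sz.le⟩,
    Subtype.ext hp.xz, Subtype.ext hp.zz, fun a b => Subtype.ext (by
      have := hp.ww a b
      split_ifs at this ⊢ <;> exact this)⟩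
  obtain ⟨θ, hθ⟩ := hF D D.subtype S hS
  exact ⟨_, _, _, hp'.map θ, fun s hs => ⟨hθ _ s hs, hθ _ s hs⟩⟩

end ap

section lim

variable {F : Type} [CStarAlgebra F] {ω : Ultrafilter ℕ}

/-- Evaluation of bounded sequences. -/
noncomputable def ev (n : ℕ) : (ℕ →ᵇ F) →⋆ₐ[ℂ] F where
  toFun x := x n
  map_one' := rfl
  map_mul' _ _ := rfl
  map_zero' := rfl
  map_add' _ _ := rfl
  commutes' _ := rfl
  map_star' _ := rfl

/-- Limit traces. -/
def LT (ω : Ultrafilter ℕ) (t : (ℕ →ᵇ F) →ₗ[ℝ] ℝ) : Prop :=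
  ∃ τ : ℕ → F →ₗ[ℝ] ℝ, (∀ n, IsRT (τ n) ∧ τ n 1 = 1) ∧
    ∀ x : ℕ →ᵇ F, Tendsto (fun n => τ n (x n)) ω (𝓝 (t x))

theorem exists_lim (ω : Ultrafilter ℕ) (τ : ℕ → F →ₗ[ℝ] ℝ) (h : ∀ n, IsRT (τ n) ∧ τ n 1 = 1) :
    ∃ t : (ℕ →ᵇ F) →ₗ[ℝ] ℝ, ∀ x : ℕ →ᵇ F, Tendsto (fun n => τ n (x n)) ω (𝓝 (t x)) := by
  have ex : ∀ x : ℕ →ᵇ F, ∃ r, Tendsto (fun n => τ n (x n)) ω (𝓝 r) := fun x => by
    obtain ⟨r, -, hr⟩ := (isCompact_Icc (a := -‖x‖) (b := ‖x‖)).ultrafilter_le_nhds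
      (ω.map fun n => τ n (x n)) (le_principal_iff.2 (mem_map.2 (Eventually.of_forall fun n => by
        have := (h n).1.abs_le (x n)
        rw [(h n).2, mul_one] at this
        exact abs_le.1 (this.trans (x.norm_coe_le_norm n)))))
    exact ⟨r, hr⟩
  choose t ht using ex
  exact ⟨⟨⟨t, fun x y => tendsto_nhds_unique (ht _) (by simpa using (ht x).add (ht y))⟩,
    fun r x => tendsto_nhds_unique (ht _) (by simpa using (ht x).const_mul r)⟩, ht⟩

theorem LT.isRT {t : (ℕ →ᵇ F) →ₗ[ℝ] ℝ} (h : LT ω t) : IsRT t := by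
  obtain ⟨τ, h1, h2⟩ := h
  exact ⟨fun x => tendsto_nhds_unique (h2 _) ((h2 x).congr fun n => ((h1 n).1.star (x n)).symm),
    fun x y => tendsto_nhds_unique (h2 _) ((h2 _).congr fun n => (h1 n).1.comm (y n) (x n)),
    fun x => ge_of_tendsto' (h2 _) fun n => (h1 n).1.pos (x n)⟩

theorem LT.one {t : (ℕ →ᵇ F) →ₗ[ℝ] ℝ} (h : LT ω t) : t 1 = 1 := by
  obtain ⟨τ, h1, h2⟩ := h
  exact tendsto_nhds_unique (h2 _) (tendsto_const_nhds.congr fun n => (h1 n).2.symm)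

theorem LT.act {G : Type} [Group G] (γ : Act G F) (g : G) {t : (ℕ →ᵇ F) →ₗ[ℝ] ℝ} (h : LT ω t) :
    LT ω (t ∘ₗ rl (postAct γ g)) := by
  obtain ⟨τ, h1, h2⟩ := h
  exact ⟨fun n => τ n ∘ₗ rl (γ g), fun n => ⟨(h1 n).1.comp _, by simpa using (h1 n).2⟩,
    fun x => h2 (postAct γ g x)⟩

theorem exists_quot (h2 : QuotS) (R : Type) [CStarAlgebra R] (T : Set (R →ₗ[ℝ] ℝ))
    (hT : ∀ t ∈ T, IsRT t) : ∃ (M : Type) (_ : CStarAlgebra M) (π : R →⋆ₐ[ℂ] M),
      Function.Surjective π ∧ (∀ x, π x = 0 ↔ ∀ t ∈ T, nu t x = 0) ∧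
      ∀ t ∈ T, ∃ t', IsRT t' ∧ ∀ x, t' (π x) = t x := by
  have z : ∀ {t : R →ₗ[ℝ] ℝ} {x : R}, nu t x ≤ 0 → nu t x = 0 := fun h =>
    h.antisymm (nu_nonneg _ _)
  let J : TwoSidedIdeal R := TwoSidedIdeal.mk' {x | ∀ t ∈ T, nu t x = 0} (fun t _ => nu_zero t)
    (fun {x y} hx hy t ht => z (((hT t ht).nu_add_le x y).trans (by rw [hx t ht, hy t ht, add_zero])))
    (fun {x} hx t ht => (nu_neg t x).trans (hx t ht))
    (fun {x y} hy t ht => z (((hT t ht).nu_mul_le x y).trans (by rw [hy t ht, mul_zero])))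
    (fun {x y} hx t ht => z (((hT t ht).nu_mul_le' x y).trans (by rw [hx t ht, zero_mul])))
  have hJ : ∀ x, x ∈ J ↔ ∀ t ∈ T, nu t x = 0 := fun x => TwoSidedIdeal.mem_mk' ..
  obtain ⟨M, _, π, hπ, hk⟩ := h2 R J (by
    rw [TwoSidedIdeal.coe_mk', Set.ofPred_forall]
    refine isClosed_iInter fun t => ?_
    rw [Set.ofPred_forall]
    refine isClosed_iInter fun ht => isClosed_eq ?_ continuous_const
    have : Continuous t := AddMonoidHomClass.continuous_of_bound t (t 1) fun x => by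
      rw [mul_comm]; exact (hT t ht).abs_le x
    unfold nu
    fun_prop) fun x hx => (hJ _).2 fun t ht => ((hT t ht).nu_star x).trans ((hJ _).1 hx t ht)
  refine ⟨M, inferInstance, π, hπ, fun x => (hk x).trans (hJ x), fun t ht => ?_⟩
  obtain ⟨g, hg⟩ := LinearMap.exists_rightInverse_of_surjective (rl π)
    (LinearMap.range_eq_top.2 hπ)
  have e : ∀ x, (t ∘ₗ g) (π x) = t x := fun x => by
    have h0 : π (g (π x) - x) = 0 := by
      rw [map_sub, sub_eq_zero]; exact LinearMap.congr_fun hg (π x)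
    have := (hT t ht).cs' 1 (g (π x) - x)
    rwa [(hJ _).1 ((hk _).1 h0) t ht, mul_zero, one_mul, abs_nonpos_iff, map_sub,
      sub_eq_zero] at this
  refine ⟨t ∘ₗ g, ⟨fun x => ?_, fun x y => ?_, fun x => ?_⟩, e⟩
  · obtain ⟨x, rfl⟩ := hπ x
    rw [← map_star, e, e, (hT t ht).star]
  · obtain ⟨x, rfl⟩ := hπ x
    obtain ⟨y, rfl⟩ := hπ y
    rw [← map_mul, ← map_mul, e, e, (hT t ht).comm]
  · obtain ⟨x, rfl⟩ := hπ x
    rw [← map_star, ← map_mul, e]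
    exact (hT t ht).pos x

theorem fp (hF : Fresh F) (h : IsEmpty (F →⋆ₐ[ℂ] ℂ)) (hω : (ω : Filter ℕ) ≤ atTop) {M : Type}
    [CStarAlgebra M] {π : (ℕ →ᵇ F) →⋆ₐ[ℂ] M} (hπ : Function.Surjective π)
    (hk : ∀ x, (∀ t, LT ω t → nu t x = 0) → π x = 0) : FP M := by
  rintro S ⟨c, hc1, hc2⟩
  obtain ⟨s₀, hs₀⟩ := (hc1.insert 0).exists_eq_range (Set.insert_nonempty _ _)
  choose s hs using fun j => hπ (s₀ j)
  choose X Z w hp hc using fun n =>
    fresh_ap hF h (n + 1) (Set.countable_range fun j => s j n).isSeparable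
  let X' : ℕ →ᵇ F := ofNormedAddCommGroupDiscrete X 1 fun n => (hp n).sx.le
  let Z' : ℕ →ᵇ F := ofNormedAddCommGroupDiscrete Z 1 fun n => (hp n).sz.le
  have xs : IsSelfAdjoint X' := by ext n; exact (hp n).sx.sa
  have zs : IsSelfAdjoint Z' := by ext n; exact (hp n).sz.sa
  have zz : Z' * Z' = X' * X' := by ext n; exact (hp n).zz
  have xz : X' * Z' = -(Z' * X') := by ext n; exact (hp n).xz
  have xx : π X' * π X' = 1 := by
    rw [← map_mul, eq_comm, ← map_one π, ← sub_eq_zero, ← map_sub]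
    refine hk _ fun t ht => ?_
    obtain ⟨τ, h1, h2⟩ := ht
    rw [nu, star_sub, star_one, star_mul, xs.star_eq]
    refine Real.sqrt_eq_zero_of_nonpos (le_of_tendsto_of_tendsto' (h2 _)
      (tendsto_one_div_add_atTop_nhds_zero_nat.mono_left hω) fun n => ?_)
    have := (hp n).tr (h1 n).1
    rw [(h1 n).2, Nat.cast_succ, mul_comm] at this
    exact (le_div_iff₀ (by positivity)).2 this
  have com : ∀ Y : ℕ →ᵇ F, (∀ j n, Commute (Y n) (s j n)) → ∀ y ∈ S, Commute (π Y) y :=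
    fun Y hY y hy => by
      refine closure_minimal (t := {y | π Y * y = y * π Y}) (fun y hy => ?_)
        (isClosed_eq (by fun_prop) (by fun_prop)) (hc2 hy)
      obtain ⟨j, rfl⟩ : y ∈ Set.range s₀ := hs₀ ▸ Set.mem_insert_of_mem _ hy
      rw [← hs j, Set.mem_ofPred_eq, ← map_mul, ← map_mul]
      congr 1
      ext n
      exact (hY j n).eq
  exact ⟨π X', π Z', ⟨xs.map π, zs.map π, xx, by rw [← map_mul, zz, map_mul, xx],
    by rw [← map_mul, xz, map_neg, map_mul]⟩, fun y hy =>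
    ⟨com _ (fun j n => (hc n _ ⟨j, rfl⟩).1) y hy, com _ (fun j n => (hc n _ ⟨j, rfl⟩).2) y hy⟩⟩

end lim

section W

variable {G M M' : Type} [Group G] [CStarAlgebra M] [CStarAlgebra M'] {α : Act G M} {K : Finset G}
  {u v : M} {τ : M →ₗ[ℝ] ℝ}

/-- The total defect. -/
noncomputable def W (α : Act G M) (K : Finset G) (u v : M) : M :=
  Df u v + ∑ g ∈ K, (star (α g u - u) * (α g u - u) + star (α g v - v) * (α g v - v))

theorem map_W {α' : Act G M'} (π : M →⋆ₐ[ℂ] M') (hπ : ∀ g x, α' g (π x) = π (α g x)) :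
    π (W α K u v) = W α' K (π u) (π v) := by
  simp only [W, map_add, map_sum, map_mul, map_star, map_sub, map_Df, hπ]

theorem tr_W (hτ : IsRT τ) : τ (W α K u v) =
    τ (Df u v) + ∑ g ∈ K, (nu τ (α g u - u) ^ 2 + nu τ (α g v - v) ^ 2) := by
  simp only [W, map_add, map_sum, hτ.nu_sq]

theorem of_norm {x : M} {ε : ℝ} (h : ∀ τ, IsRT τ ∧ τ 1 = 1 → τ x ≤ ε) (hτ : IsRT τ) :
    τ x ≤ ε * τ 1 := by
  rcases hτ.one_nonneg.eq_or_lt with e | e
  · have := hτ.abs_le x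
    rw [← e, mul_zero] at this ⊢
    exact (le_abs_self _).trans this
  · have := h ((τ 1)⁻¹ • τ) ⟨⟨fun x => by simp [hτ.star], fun x y => by simp [hτ.comm x],
      fun x => mul_nonneg (inv_pos.2 e).le (hτ.pos x)⟩, by simp [e.ne']⟩
    rwa [LinearMap.smul_apply, smul_eq_mul, inv_mul_le_iff₀ e, mul_comm] at this

end W

end Tu

open Tu in
theorem tuS (h1 : TtS) (h2 : QuotS) : TuS := by
  intro G _ _ hG F _ γ hF h K ε hε
  obtain ⟨M, _, π, hπ, hk, hd⟩ := exists_quot h2 (ℕ →ᵇ F) {t | LT (hyperfilter ℕ) t}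
    fun t ht => LT.isRT ht
  obtain ⟨α, hα⟩ := exists_act hπ (postAct γ) fun g x hx => (hk _).2 fun t ht =>
    (nu_comp _ t x).symm.trans ((hk _).1 hx _ (LT.act γ g ht))
  have k0 : (0 : ℝ) < 2 * (1 + 2 * K.card) := by positivity
  obtain ⟨u, v, hu, hv, ht⟩ := h1 G hG M α (fp hF h Nat.hyperfilter_le_atTop hπ
    fun x hx => (hk x).2 hx) K (ε / (2 * (1 + 2 * K.card))) (div_pos hε k0)
  obtain ⟨u, su, rfl⟩ := lift_sc hπ hu
  obtain ⟨v, sv, rfl⟩ := lift_sc hπ hv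
  have ex : ∃ n, ∀ τ, IsRT τ ∧ τ 1 = 1 → τ (W γ K (u n) (v n)) ≤ ε := by
    by_contra hc
    push Not at hc
    choose τ t1 t2 using hc
    obtain ⟨t, ht'⟩ := exists_lim (hyperfilter ℕ) τ t1
    have lt : LT (hyperfilter ℕ) t := ⟨τ, t1, ht'⟩
    obtain ⟨t', r', e'⟩ := hd t lt
    have b1 : ε ≤ t (W (postAct γ) K u v) := ge_of_tendsto' (ht' _) fun n => by
      have := map_W (α := postAct γ) (α' := γ) (K := K) (u := u) (v := v) (ev n) fun _ _ => rfl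
      exact (t2 n).le.trans_eq (congrArg (τ n) this.symm)
    obtain ⟨b2, b3⟩ := ht t' r'
    rw [← map_one π, e', lt.one, mul_one] at b2 b3
    rw [← e', map_W π hα, tr_W r'] at b1
    have b4 := Finset.sum_le_sum fun g hg => add_le_add (b3 g hg).1 (b3 g hg).2
    rw [Finset.sum_const, nsmul_eq_mul] at b4
    have b5 : ε / (2 * (1 + 2 * K.card)) * (2 * (1 + 2 * K.card)) = ε := div_mul_cancel₀ _ k0.ne'
    linarith
  obtain ⟨n, hn⟩ := ex
  have su' := su.map (ev n)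
  have sv' := sv.map (ev n)
  refine ⟨u n, v n, su', sv', fun τ hτ => ?_⟩
  have b1 := of_norm hn hτ
  rw [tr_W hτ] at b1
  have b2 := hτ.nonneg (pos_Df su'.le sv'.le)
  have b3 : ∀ g ∈ K, 0 ≤ nu τ (γ g (u n) - u n) ^ 2 + nu τ (γ g (v n) - v n) ^ 2 :=
    fun g _ => by positivity
  refine ⟨by linarith [Finset.sum_nonneg b3], fun g hg => ?_⟩
  have b4 := Finset.single_le_sum b3 hg
  have b5 : 0 ≤ τ (Df (u n) (v n)) := b2
  constructor <;> nlinarith [sq_nonneg (nu τ (γ g (u n) - u n)), sq_nonneg (nu τ (γ g (v n) - v n))]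

namespace Tu

variable {G F : Type} [Group G] [CStarAlgebra F] (γ : Act G F) {P : Finset G}

/-- The average over a finite set. -/
noncomputable def av (P : Finset G) (x : F) : F := (P.card : ℝ)⁻¹ • ∑ g ∈ P, γ g x

theorem av_sc (hP : P.Nonempty) {x : F} (hx : SC x) : SC (av γ P x) := by
  have p0 : (0 : ℝ) < P.card := Nat.cast_pos.2 hP.card_pos
  refine ⟨(IsSelfAdjoint.all _).smul (isSelfAdjoint_sum _ fun g _ => hx.sa.map (γ g)), ?_⟩
  rw [av, norm_smul, Real.norm_of_nonneg (inv_pos.2 p0).le, inv_mul_le_iff₀ p0]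
  refine (norm_sum_le_of_le _ fun g _ => (act_norm γ g x).le.trans hx.le).trans ?_
  simp

open Classical in
theorem av_inv (hP : P.Nonempty) {x : F} (hx : ‖x‖ ≤ 1) {t : G} {δ : ℝ}
    (ht : ((P.filter fun g => t * g ∉ P).card : ℝ) ≤ δ * P.card) :
    ‖γ t (av γ P x) - av γ P x‖ ≤ 2 * δ := by
  have p0 : (0 : ℝ) < P.card := Nat.cast_pos.2 hP.card_pos
  have e1 : γ t (∑ g ∈ P, γ g x) = ∑ g ∈ P.image (t * ·), γ g x := by
    rw [map_sum, Finset.sum_image fun a _ b _ e => mul_right_injective t e]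
    exact Finset.sum_congr rfl fun g _ => act_mul γ t g x
  have e2 : (P.image (t * ·)).card = P.card :=
    Finset.card_image_of_injective _ (mul_right_injective t)
  have e3 : (P.image (t * ·) \ P).card = (P.filter fun g => t * g ∉ P).card := by
    rw [← Finset.card_image_of_injective (P.filter _) (mul_right_injective t),
      ← Finset.filter_image (p := fun g => g ∉ P), Finset.sdiff_eq_filter]
  have e4 : (P \ P.image (t * ·)).card = (P.image (t * ·) \ P).card :=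
    Finset.card_sdiff_comm e2.symm
  have b : ∀ Q : Finset G, ‖∑ g ∈ Q, γ g x‖ ≤ Q.card := fun Q =>
    (norm_sum_le_of_le _ fun g _ => (act_norm γ g x).le.trans hx).trans (by simp)
  rw [av, map_rsmul, ← smul_sub, e1, ← Finset.sum_sdiff_sub_sum_sdiff, norm_smul,
    Real.norm_of_nonneg (inv_pos.2 p0).le, inv_mul_le_iff₀ p0]
  refine (norm_sub_le _ _).trans ((add_le_add (b _) (b _)).trans ?_)
  rw [e4, e3]
  linarith

theorem av_nu (hP : P.Nonempty) {x : F} {τ : F →ₗ[ℝ] ℝ} (hτ : IsRT τ) {r : ℝ}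
    (h : ∀ g ∈ P, nu τ (γ g x - x) ≤ r) : nu τ (av γ P x - x) ≤ r := by
  have p0 : (0 : ℝ) < P.card := Nat.cast_pos.2 hP.card_pos
  have e : av γ P x - x = (P.card : ℝ)⁻¹ • ∑ g ∈ P, (γ g x - x) := by
    rw [Finset.sum_sub_distrib, smul_sub, Finset.sum_const, ← Nat.cast_smul_eq_nsmul ℝ, smul_smul,
      inv_mul_cancel₀ p0.ne', one_smul, av]
  rw [e, nu_smul, abs_of_pos (inv_pos.2 p0), inv_mul_le_iff₀ p0]
  exact (hτ.nu_sum_le _ _).trans ((Finset.sum_le_sum h).trans (by simp))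

theorem df_le {u v u' v' : F} (hu : ‖u‖ ≤ 1) (hv : ‖v‖ ≤ 1) (hu' : ‖u'‖ ≤ 1) (hv' : ‖v'‖ ≤ 1)
    {τ : F →ₗ[ℝ] ℝ} (hτ : IsRT τ) {r : ℝ} (h1 : nu τ (u' - u) ≤ r) (h2 : nu τ (v' - v) ≤ r) :
    τ (Df u' v') ≤ τ (Df u v) + 4 * r * √(τ 1) := by
  have r0 := (nu_nonneg _ _).trans h1
  have l : ∀ {b x : F}, ‖b‖ ≤ 1 → nu τ x ≤ r → nu τ (b * x) ≤ r := fun hb hx =>
    (hτ.nu_mul_le _ _).trans ((mul_le_of_le_one_left (nu_nonneg _ _) hb).trans hx)
  have l' : ∀ {b x : F}, ‖b‖ ≤ 1 → nu τ x ≤ r → nu τ (x * b) ≤ r := fun hb hx =>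
    (hτ.nu_mul_le' _ _).trans ((mul_le_of_le_one_right (nu_nonneg _ _) hb).trans hx)
  have e : Yc u' v' - Yc u v =
      (1 / 2 : ℝ) • (((u' - u) * v' + u * (v' - v)) - ((v' - v) * u' + v * (u' - u))) := by
    rw [Yc, Yc, ← smul_sub]; congr 1; noncomm_ring
  have b1 : nu τ (Yc u' v' - Yc u v) ≤ 2 * r := by
    rw [e, nu_smul, abs_of_pos (by norm_num)]
    have := (hτ.nu_sub_le _ _).trans (add_le_add
      ((hτ.nu_add_le _ _).trans (add_le_add (l' hv' h1) (l hu h2)))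
      ((hτ.nu_add_le _ _).trans (add_le_add (l' hu' h2) (l hv h1))))
    linarith
  have s0 := Real.sqrt_nonneg (τ 1)
  have y1 := (hτ.nu_le _).trans (mul_le_of_le_one_left s0 (norm_Yc_le hu hv))
  have y2 := (hτ.nu_le _).trans (mul_le_of_le_one_left s0 (norm_Yc_le hu' hv'))
  have c1 := (abs_le.1 ((hτ.cs (Yc u v) (Yc u' v' - Yc u v)).trans
    (mul_le_mul y1 b1 (nu_nonneg _ _) s0))).1
  have c2 := (abs_le.1 ((hτ.cs (Yc u' v' - Yc u v) (Yc u' v')).trans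
    (mul_le_mul b1 y2 (nu_nonneg _ _) (by positivity)))).1
  simp only [Df, star_sub, mul_sub, sub_mul, map_sub] at c1 c2 ⊢
  linarith

end Tu

open Tu in
theorem goodS : GoodS := by
  intro G _ hG F _ γ h K ε hε
  obtain ⟨P, hP, hK⟩ := hG K (ε / 2) (half_pos hε)
  obtain ⟨δ, d0, d1, d2⟩ : ∃ δ : ℝ, 0 < δ ∧ δ ≤ 1 ∧ δ ≤ ε / 5 :=
    ⟨min 1 (ε / 5), by positivity, min_le_left _ _, min_le_right _ _⟩
  obtain ⟨u, v, hu, hv, ht⟩ := h P (δ ^ 2) (by positivity)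
  have hu' := av_sc γ hP hu
  have hv' := av_sc γ hP hv
  refine ⟨av γ P u, av γ P v, hu', hv', fun g hg => ⟨(av_inv γ hP hu.le (hK g hg)).trans_eq (by ring),
    (av_inv γ hP hv.le (hK g hg)).trans_eq (by ring)⟩, fun τ hτ => ?_⟩
  obtain ⟨b1, b2⟩ := ht τ hτ
  have t0 := hτ.one_nonneg
  have s0 := Real.sqrt_nonneg (τ 1)
  have e : (δ * √(τ 1)) ^ 2 = δ ^ 2 * τ 1 := by rw [mul_pow, Real.sq_sqrt t0]
  have k : ∀ {x : F}, nu τ x ^ 2 ≤ δ ^ 2 * τ 1 → nu τ x ≤ δ * √(τ 1) := fun hx =>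
    (abs_le_of_sq_le_sq' (hx.trans_eq e.symm) (by positivity)).2
  have b3 := df_le hu.le hv.le hu'.le hv'.le hτ (av_nu γ hP hτ fun g hg => k (b2 g hg).1)
    (av_nu γ hP hτ fun g hg => k (b2 g hg).2)
  have e2 : 4 * (δ * √(τ 1)) * √(τ 1) = 4 * δ * τ 1 := by
    rw [mul_assoc, mul_assoc, Real.mul_self_sqrt t0, mul_assoc]
  have b4 : δ ^ 2 + 4 * δ ≤ ε := by nlinarith
  nlinarith [mul_le_mul_of_nonneg_right b4 t0]

end Vale.Agent.P095
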