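import Vale.Agent.P095.Basic

/-! The unitaries for the intertwining argument. -/

open Filter Topology TopologicalSpace BoundedContinuousFunction NormedSpace
open scoped BoundedContinuousFunction

namespace Vale.Agent.P095

open Vale.Agent.P101 selfAdjoint

theorem uni_lip {M : Type} [CStarAlgebra M] (x y : selfAdjoint M) :
    ‖(expUnitary x : M) - expUnitary y‖ ≤ ‖(x : M) - y‖ := by
  let +nondep : NormedAlgebra ℚ M := .restrictScalars ℚ ℂ M
  have u : ∀ (t : ℝ) (z : selfAdjoint M), exp (t • Complex.I • (z : M)) ∈ unitary M := fun t z => by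
    rw [smul_comm]; exact (expUnitary (t • z)).2
  have := norm_image_sub_le_of_norm_deriv_le_segment_01' (C := ‖(x : M) - y‖)
    (f := fun t : ℝ => exp (t • Complex.I • (x : M)) * exp (t • Complex.I • ((-y : selfAdjoint M) : M)))
    (fun t _ => ((hasDerivAt_exp_smul_const _ t).mul
      (hasDerivAt_exp_smul_const' _ t)).hasDerivWithinAt) fun t _ => by
      rw [← mul_assoc, ← add_mul, ← mul_add, CStarRing.norm_mul_mem_unitary _ (u _ _),
        CStarRing.norm_mem_unitary_mul _ (u _ _), ← smul_add, norm_smul, Complex.norm_I, one_mul]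
      simp [sub_eq_add_neg]
  simp only [one_smul, zero_smul, exp_zero, mul_one] at this
  rw [← CStarRing.norm_mul_mem_unitary _ (expUnitary (-y)).2, sub_mul, ← Submonoid.coe_mul,
    ← Submonoid.coe_mul, ← Commute.expUnitary_add (a := y) (by simp), add_neg_cancel, expUnitary_zero]
  exact this

theorem uni_map {M M' F : Type} [CStarAlgebra M] [CStarAlgebra M'] [FunLike F M M']
    [AlgHomClass F ℂ M M'] [StarHomClass F M M'] (π : F) {x : selfAdjoint M} {y : selfAdjoint M'}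
    (h : π x = y) : π (expUnitary x) = expUnitary y := by
  let +nondep : NormedAlgebra ℚ M := .restrictScalars ℚ ℂ M
  let +nondep : NormedAlgebra ℚ M' := .restrictScalars ℚ ℂ M'
  rw [expUnitary_coe, expUnitary_coe, map_exp π (hom_cont (π : M →⋆ₐ[ℂ] M')), map_smul, h]

open Classical in
theorem uni_avg {G M : Type} [Group G] [CStarAlgebra M] (β : Act G M) (F : Finset G) (g : G) (x : M) :
    ‖β g (∑ h ∈ F, β h x) - ∑ h ∈ F, β h x‖ ≤ 2 * (F.filter fun h => g * h ∉ F).card * ‖x‖ := by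
  have e1 : β g (∑ h ∈ F, β h x) = ∑ h ∈ F.image (g * ·), β h x := by
    rw [Finset.sum_image fun _ _ _ _ => mul_left_cancel, map_sum]; simp only [act_mul]
  have e2 : (F.image (g * ·) \ F).card = (F.filter fun h => g * h ∉ F).card := by
    rw [← Finset.card_image_of_injective (F.filter _) (mul_right_injective g)]
    congr 1; ext; simp only [Finset.mem_sdiff, Finset.mem_image, Finset.mem_filter]
    exact ⟨fun ⟨⟨a, h1, h2⟩, h3⟩ => ⟨a, ⟨h1, h2 ▸ h3⟩, h2⟩,
      fun ⟨a, ⟨h1, h2⟩, h3⟩ => ⟨⟨a, h1, h3⟩, h3 ▸ h2⟩⟩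
  have e3 := Finset.card_sdiff_comm (Finset.card_image_of_injective F (mul_right_injective g))
  have e4 : ∀ s : Finset G, ‖∑ h ∈ s, β h x‖ ≤ s.card * ‖x‖ := fun s =>
    (norm_sum_le _ _).trans (by simp [act_norm])
  rw [e1, ← Finset.sum_sdiff_sub_sum_sdiff]
  refine (norm_sub_le _ _).trans ((add_le_add (e4 _) (e4 _)).trans_eq ?_)
  rw [← e3, e2]; ring

theorem uni_fol {G M : Type} [Group G] [CStarAlgebra M] (hG : Fol G) (β : Act G M) (K : Finset G)
    (x : M) {δ : ℝ} (hδ : 0 < δ) : ∃ F : Finset G, F.Nonempty ∧ ∀ g ∈ K,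
      ‖β g ((F.card : ℝ)⁻¹ • ∑ h ∈ F, β h x) - (F.card : ℝ)⁻¹ • ∑ h ∈ F, β h x‖ ≤ δ := by
  refine (hG K (δ / (2 * (‖x‖ + 1))) (by positivity)).imp fun F ⟨h1, h2⟩ => ⟨h1, fun g hg => ?_⟩
  have : (0 : ℝ) < F.card := by exact_mod_cast h1.card_pos
  rw [map_rsmul, ← smul_sub, norm_smul, norm_inv, Real.norm_natCast, inv_mul_le_iff₀ this]
  refine (uni_avg β F g x).trans ?_
  have := h2 g hg
  rw [div_mul_eq_mul_div, le_div_iff₀ (by positivity)] at this
  nlinarith [Nat.cast_nonneg (α := ℝ) (@Finset.filter _ (fun h => g * h ∉ F)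
    (fun _ => Classical.propDecidable _) F).card]

theorem uni_lift {G B V F R : Type} [Group G] [CStarAlgebra B] [CStarAlgebra V] [CStarAlgebra F]
    [CStarAlgebra R] (hG : Fol G) (K : Finset G) {π : R →⋆ₐ[ℂ] V} (hπ : Function.Surjective π)
    {j : B →⋆ₐ[ℂ] V} {q : Cm j →⋆ₐ[ℂ] F} (hq : Function.Surjective q) {β : Act G V} {γ : Act G F}
    (h1 : ∀ g, ∀ x ∈ Cm j, β g x ∈ Cm j) (h2 : ∀ g (x y : Cm j), (y : V) = β g x → q y = γ g (q x))
    (l : List (selfAdjoint (Fix γ))) {δ : ℝ} (hδ : 0 < δ) : ∃ w ∈ unitary R, ∃ W : Cm j,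
      π w = W ∧ q W = exps l ∧ ∀ g ∈ K, ‖β g W - W‖ ≤ δ := by
  induction l generalizing δ with
  | nil => exact ⟨1, one_mem _, 1, map_one _, by simp [exps], fun g _ => by simpa using hδ.le⟩
  | cons H l ih =>
    obtain ⟨w, hw, W, e1, e2, e3⟩ := ih (half_pos hδ)
    obtain ⟨x, sx, ex, -⟩ := lift_sa hq (H.2.map (Fix γ).subtype)
    obtain ⟨T, T0, hT⟩ := uni_fol hG β K x (half_pos hδ)
    let y : Cm j := (T.card : ℝ)⁻¹ • ∑ h ∈ T, ⟨β h x, h1 h _ x.2⟩
    have ey : (y : V) = (T.card : ℝ)⁻¹ • ∑ h ∈ T, β h x :=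
      (map_rsmul (Cm j).subtype _ _).trans (by rw [map_sum]; rfl)
    have sy' : IsSelfAdjoint (y : V) := ey ▸ (IsSelfAdjoint.all _).smul
      (isSelfAdjoint_sum _ fun h _ => (sx.map (Cm j).subtype).map (β h))
    have sy : IsSelfAdjoint y := Subtype.ext sy'
    have qy : q y = (Fix γ).subtype H := by
      rw [map_rsmul, map_sum, Finset.sum_congr rfl fun h _ => (h2 h x _ rfl).trans
        ((congrArg _ ex).trans (H.1.2 h)), Finset.sum_const, ← Nat.cast_smul_eq_nsmul ℝ, smul_smul,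
        inv_mul_cancel₀ (by exact_mod_cast T0.card_pos.ne'), one_smul]; rfl
    obtain ⟨s, ss, es, -⟩ := lift_sa hπ sy'
    have e4 := uni_map (Cm j).subtype (x := ⟨y, sy⟩) (y := (⟨y, sy'⟩ : selfAdjoint V)) rfl
    refine ⟨_, mul_mem (expUnitary ⟨s, ss⟩).2 hw, expUnitary ⟨y, sy⟩ * W, ?_, ?_, fun g hg => ?_⟩
    · rw [map_mul, e1, uni_map π (y := ⟨(y : V), sy'⟩) es, ← e4]; rfl
    · rw [map_mul, e2, uni_map q (y := ⟨_, H.2.map (Fix γ).subtype⟩) qy,
        ← uni_map (Fix γ).subtype (x := H) rfl]; rfl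
    · have t := uni_lip ⟨_, sy'.map (β g)⟩ ⟨_, sy'⟩
      rw [← uni_map (β g) (x := ⟨(y : V), sy'⟩) rfl, ← e4] at t
      have t2 : ‖β g y - y‖ ≤ δ / 2 := ey ▸ hT g hg
      have u1 : (W : V) ∈ unitary V := e1 ▸ map_unitary π hw
      have u2 := map_unitary ((β g : V →⋆ₐ[ℂ] V).comp (Cm j).subtype) (expUnitary ⟨y, sy⟩).2
      rw [MulMemClass.coe_mul, map_mul]
      refine (norm_sub_le_norm_sub_add_norm_sub _ (β g (expUnitary ⟨y, sy⟩ : Cm j) * W) _).trans ?_
      rw [← mul_sub, ← sub_mul, CStarRing.norm_mul_mem_unitary _ u1]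
      exact (add_le_add ((CStarRing.norm_mem_unitary_mul _ u2).trans_le (e3 g hg))
        (t.trans t2)).trans_eq (add_halves δ)

theorem uniS (h1 : IsFS) (h2 : HfS) : UniS := by
  intro G B _ _ I α c Z P _ _ ι κ β hG hZ hF hF' hι hc hβ hκ S T K ε hε hT
  classical
  obtain ⟨V, _, mk, hV, -⟩ := exists_ultra P c.ω
  have nc : ∀ x, ‖mk (const ℕ x)‖ = ‖x‖ := fun x =>
    tendsto_nhds_unique (hV.lim _) tendsto_const_nhds
  obtain ⟨β', hβ'⟩ := exists_act hV.surj (postAct β) fun g x hx => norm_eq_zero.1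
    ((tendsto_nhds_unique (hV.lim _) ((hV.lim x).congr fun n => (act_norm β g _).symm)).trans
      (norm_eq_zero.2 hx))
  let j := (mk.comp cst).comp ι
  have nι := NonUnitalStarAlgHom.norm_map ι hι
  have hj : ∀ g b, β' g (j b) = j (α g b) := fun g b =>
    (hβ' g _).trans (congrArg mk (BoundedContinuousFunction.ext fun n => hβ g b))
  obtain ⟨F, _, q, γ, hq, hγ⟩ := h1 G B V I j α β' c.sys c.inv (fun a _ => (nc _).trans (nι a)) hj
  obtain ⟨Φ, hΦ⟩ := exists_of_graph c.ul (mk.comp (post ι)) c.ultra.surj.denseRange fun x =>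
    le_of_tendsto_of_tendsto' (hV.lim _) (c.ultra.lim x) fun n => hom_le ι _
  have Φj : ∀ b, Φ (c.j b) = j b := fun b => hΦ _
  have Φβ : ∀ g x, Φ (c.β g x) = β' g (Φ x) := fun g x => by
    obtain ⟨x, rfl⟩ := c.ultra.surj x
    rw [c.eqU, hΦ, hΦ]
    exact (congrArg mk (BoundedContinuousFunction.ext fun n => (hβ g _).symm)).trans (hβ' g _).symm
  let Φ' : Cm c.j →⋆ₐ[ℂ] Cm j := (Φ.comp (Cm c.j).subtype).codRestrict _ fun x =>
    mem_Cm.2 fun b => Φj b ▸ (mem_Cm.1 x.2 b).map Φ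
  obtain ⟨a₀, ha₀, a0⟩ := c.sys.ne
  obtain ⟨Ψ, hΨ⟩ := exists_desc c.isF.surj (q.comp Φ') fun x hx =>
    (hq.eq_of (x := Φ' x) (y := 0) ha₀ a0 (by
      have := congrArg Φ (c.isF.ann' (hx.trans (map_zero _).symm) ha₀)
      rwa [map_mul, map_mul, Φj, ZeroMemClass.coe_zero, map_zero] at this)).trans (map_zero _)
  let Ψ' : Fix c.γ →⋆ₐ[ℂ] Fix γ := (Ψ.comp (Fix c.γ).subtype).codRestrict _ fun x g => by
    obtain ⟨y, hy⟩ := c.isF.surj x
    change γ g (Ψ x) = Ψ x
    conv_rhs => rw [← x.2 g, ← hy, ← c.q_β, hΨ]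
    rw [← hy, hΨ]
    exact (hγ g _ _ (Φβ g y)).symm
  let κ₀ : Z →⋆ₐ[ℂ] Cm j := ((mk.comp cst).comp κ).codRestrict _ fun z =>
    mem_Cm.2 fun b => (hc b z).symm.map (mk.comp cst)
  let κ' : Z →⋆ₐ[ℂ] Fix γ := (q.comp κ₀).codRestrict _ fun z g => (hγ g _ _
    ((hβ' g _).trans (congrArg mk (BoundedContinuousFunction.ext fun n => hκ g z))).symm).symm
  choose _ hx hd using fun x : T => Metric.mem_closure_iff.1 (hT x x.2) (ε / 2) (half_pos hε)
  choose n a z ha e using hx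
  set M := ∑ x, ∑ k, ‖a x k‖ with hM
  have M0 : 0 ≤ M := by positivity
  obtain ⟨l, hl⟩ := h2 Z _ _ κ' Ψ' hZ hF hF' (fun x z => Subtype.ext (by
      obtain ⟨y, hy⟩ := c.isF.surj x
      obtain ⟨s, hs⟩ := c.ultra.surj y
      change Ψ x * q (κ₀ z) = q (κ₀ z) * Ψ x
      rw [← hy, hΨ]
      refine Commute.map (Subtype.ext ?_ : Commute (Φ' y) (κ₀ z)) q
      change Φ y * _ = _ * Φ y
      rw [← hs, hΦ]
      exact Commute.map (x := post ι s) (y := const ℕ (κ z))
        (BoundedContinuousFunction.ext fun n => hc (s n) z) mk))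
    (Finset.univ.biUnion fun x => Finset.univ.image (z x)) (ε / 2 / (M + 1)) (by positivity)
  obtain ⟨w, hw, W, e1, e2, e3⟩ := uni_lift hG K hV.surj hq.surj (fun g x hx => mem_Cm.2 fun b => by
    rw [← act_inv α g b, ← hj]; exact (mem_Cm.1 hx _).map _) hγ l (half_pos hε)
  have k1 := (eventually_all_finset S).2 fun b _ =>
    hV.lt (x := w * const ℕ (ι b) - const ℕ (ι b) * w) (r := ε) (by
      rw [map_sub, map_mul, map_mul, e1]
      exact (norm_eq_zero.2 (sub_eq_zero.2 (mem_Cm.1 W.2 b).eq)).trans_lt hε)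
  have k2 := (eventually_all_finset K).2 fun g hg => hV.lt (x := postAct β g w - w) (r := ε) (by
    rw [map_sub, ← hβ', e1]; exact (e3 g hg).trans_lt (half_lt_self hε))
  have k3 : ∀ᶠ m in c.ω, ∀ x : T, ∃ b ∈ I,
      ‖star (w m) * (∑ k, ι (a x k) * κ (z x k)) * w m - ι b‖ < ε / 2 :=
    eventually_all.2 fun x => by
      choose f hf using fun k => hl (z x k) (Finset.mem_biUnion.2 ⟨x, Finset.mem_univ _,
        Finset.mem_image_of_mem _ (Finset.mem_univ k)⟩)
      choose y hy using fun k => c.isF.surj (f k)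
      choose s hs using fun k => c.ultra.surj (y k)
      refine (hV.lt (x := star w * const ℕ (∑ k, ι (a x k) * κ (z x k)) * w -
        post ι (∑ k, s k * const ℕ (a x k))) (r := ε / 2) ?_).mono fun m hm =>
          ⟨_, sum_mem fun k _ => I.mul_mem_left (s k m) _ (ha x k), by simpa using hm⟩
      have t : ∀ k, ‖((star W * κ₀ (z x k) * W - Φ' (y k) : Cm j) : V) * j (a x k)‖ ≤
          ε / 2 / (M + 1) * ‖a x k‖ := fun k => by
        rw [hq.norm _ _ (ha x k), map_sub, map_mul, map_mul, map_star, e2]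
        refine mul_le_mul_of_nonneg_right (le_of_eq_of_le ?_ (hf k)) (norm_nonneg _)
        change _ = ‖_ - Ψ (f k)‖
        rw [← hy, hΨ]; rfl
      have t2 := (norm_sum_le _ _).trans (Finset.sum_le_sum fun k (_ : k ∈ Finset.univ) => t k)
      have t3 : ∑ k, ‖a x k‖ ≤ M := Finset.single_le_sum (f := fun x => ∑ k, ‖a x k‖)
        (fun _ _ => by positivity) (Finset.mem_univ x)
      rw [← Finset.mul_sum] at t2
      refine lt_of_eq_of_lt ?_ (t2.trans_lt (by
        rw [div_mul_eq_mul_div, div_lt_iff₀ (by positivity)]; nlinarith))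
      rw [map_sub, map_mul, map_mul, map_star, e1, map_sum, map_sum, show mk (const ℕ _) =
        (mk.comp cst) _ from rfl, map_sum, Finset.mul_sum, Finset.sum_mul, ← Finset.sum_sub_distrib]
      refine congrArg _ (Finset.sum_congr rfl fun k _ => ?_)
      change _ = (star W * (mk.comp cst) (κ _) * W - Φ (y k)) * _
      rw [(hc _ _).eq, map_mul, map_mul, map_mul, sub_mul, ← hs, hΦ, mul_assoc _ (W : V),
        (mem_Cm.1 W.2 _).eq]
      simp only [mul_assoc]; rfl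
  obtain ⟨m, m1, m2, m3⟩ := (k1.and (k2.and k3)).exists
  have hw' : w m ∈ unitary P := ⟨congrArg (· m) hw.1, congrArg (· m) hw.2⟩
  refine ⟨w m, hw', fun b hb => (m1 b hb).le, fun g hg => (m2 g hg).le, fun x hx => ?_⟩
  obtain ⟨b, hb, h⟩ := m3 ⟨x, hx⟩
  have := hd ⟨x, hx⟩
  rw [e, dist_eq_norm, ← norm_ad (Unitary.star_mem hw'), star_star] at this
  exact ⟨b, hb, (norm_sub_le_norm_sub_add_norm_sub _ _ _).trans
    ((add_le_add this.le h.le).trans_eq (add_halves ε))⟩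

end Vale.Agent.P095
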