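import Vale.Agent.P095.Basic

/-! The Jiang-Su algebra with asymptotically central dimension drop algebras. -/

open Filter Topology TopologicalSpace
open scoped Matrix.Norms.L2Operator Kronecker unitInterval

namespace Vale.Agent.P095

open Vale.Agent.P101

variable {p q : ℕ}

theorem zz_step (hp : 2 ≤ p) (hq : 2 ≤ q) (hpq : p.Coprime q) (F : Finset (DD p q)) {η : ℝ}
    (hη : 0 < η) : ∃ p' q' : ℕ, p ∣ p' ∧ q ∣ q' ∧ 2 ≤ p' ∧ 2 ≤ q' ∧ p'.Coprime q' ∧ ∃ φ : DD p q →⋆ₐ[ℂ] DD p' q',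
      Function.Injective φ ∧ ∀ (C : Type) [CStarAlgebra C] (α β : DD p' q' →⋆ₐ[ℂ] C),
        (∀ f g, Commute (α f) (β g)) →
        ∃ V ∈ unitary C, ∀ f ∈ F, ‖V * α (φ f) * star V - β (φ f)‖ ≤ 6 * η := by
  classical
  obtain ⟨g, g0, hg⟩ := exists_unif F hη
  set k := g * q + 1 with hk
  set l := k * p + 1 with hl
  have k0 : 0 < k := Nat.succ_pos _
  have l0 : 0 < l := Nat.succ_pos _
  obtain ⟨c, hc⟩ := exists_enum (r := q) (L := l) (N := k * l) g0 (by omega) rfl
  obtain ⟨c', hc'⟩ := exists_enum (r := p) (L := k) (N := k * l) k0 (by omega) (mul_comm _ _)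
  obtain ⟨e, he⟩ := exists_left (p := p) (p' := p * k) (q' := q * l) c
    (Fintype.equivOfCardEq (by simp [hk])) finProdFinEquiv.symm
  obtain ⟨e', he'⟩ := exists_right (q := q) (p' := p * k) (q' := q * l) (Fin.revPerm.trans c')
    (Fintype.equivOfCardEq (by simp [hl])) finProdFinEquiv.symm
  have δ0 : (0 : ℝ) ≤ 1 / g := by positivity
  have hm : ∀ n, |(pt (c n).1 : ℝ) - unitInterval.symm (pt (c' n.rev).1)| ≤ 3 * (1 / g) := fun n => by
    have gk : g ≤ k := by nlinarith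
    have a1 : (1 : ℝ) / k ≤ 1 / g := one_div_le_one_div_of_le (by positivity) (by exact_mod_cast gk)
    have a2 : (1 : ℝ) / (k * l : ℕ) ≤ 1 / g := one_div_le_one_div_of_le (by positivity)
      (by exact_mod_cast gk.trans (Nat.le_mul_of_pos_right _ l0))
    have a3 : ((n.rev : ℕ) : ℝ) / (k * l : ℕ) = 1 - n / (k * l : ℕ) - 1 / (k * l : ℕ) := by
      rw [Fin.val_rev, Nat.cast_sub n.2]; field_simp; push_cast; ring
    have a4 : (0 : ℝ) ≤ 1 / (k * l : ℕ) := by positivity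
    obtain ⟨b1, b2⟩ := abs_le.1 (hc n)
    obtain ⟨b3, b4⟩ := abs_le.1 (hc' n.rev)
    rw [unitInterval.coe_symm_eq, abs_le]
    constructor <;> linarith
  choose ξ ξ0 ξ1 ξd ξs using fun n => exists_path δ0 (hm n)
  obtain ⟨w, hw, w0, w1⟩ := exists_upath (e'.trans e.symm)
  have h0 : ∀ f : DD p q, ∃ a : Matrix (Fin (p * k)) (Fin (p * k)) ℂ,
      blk e (fun n => DD.val f (pt (c n).1)) = a ⊗ₖ 1 := fun f => by
    obtain ⟨a, ha⟩ := f.2.1
    convert he a fun i => DD.val f (pt (some (i, (⟨0, by omega⟩ : Fin q)))) using 5 with A n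
    rcases (c n).1 with _ | i
    exacts [ha, rfl]
  obtain ⟨φ, hφ⟩ := exists_conn e ξ w hw (fun f => by simpa [w0, ξ0] using h0 f) fun f => by
    obtain ⟨a, ha⟩ := f.2.2
    rw [w1, blk_conj]
    convert he' a fun i => DD.val f (unitInterval.symm (pt (some (i, (⟨0, by omega⟩ : Fin p)))))
      using 5 with A n
    rw [ξ1, Equiv.trans_apply, Fin.revPerm_apply]
    rcases (c' n.rev).1 with _ | i
    exacts [(congrArg _ unitInterval.symm_zero).trans ha, rfl]
  refine ⟨p * k, q * l, Dvd.intro _ rfl, Dvd.intro _ rfl, by nlinarith, by nlinarith, ?_, φ, (injective_iff_map_eq_zero φ).2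
    fun f hf => DD.ext' fun t => ?_, fun C _ α β hαβ => ?_⟩
  · refine Nat.Coprime.mul_right (Nat.Coprime.mul_left hpq ?_) (Nat.Coprime.mul_left ?_ ?_)
    · simp [hk]
    · simp [hl]
    · rw [hl]; simp
  · obtain ⟨κ, h1, h2⟩ := pt_dense g0 (show 0 < q by omega) t
    obtain ⟨s, hs⟩ := ξs (c.symm (κ, ⟨0, l0⟩)) t (by simpa) (by simpa using h2)
    have h3 := hφ f s
    rw [hf, ← sub_zero (_ * _ * _)] at h3
    have h4 := norm_ad (hw s) (blk e fun n => DD.val f (ξ n s)) 0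
    rw [mul_zero, zero_mul, ← h3, sub_zero] at h4
    have := congrFun (blk_inj e ((norm_eq_zero.1 (h4.symm.trans (by simp))).trans
      (map_zero _).symm)) (c.symm (κ, ⟨0, l0⟩))
    rw [hs] at this
    simpa using this
  · obtain ⟨V, hV, h⟩ := exists_flip w hw w0 α β hαβ (F.image φ) hη (by
      simp only [Finset.mem_image, forall_exists_index, and_imp, forall_apply_eq_imp_iff₂]
      intro f hf
      obtain ⟨a, ha⟩ := h0 f
      refine ⟨a, fun s => ?_⟩
      rw [hφ, norm_ad (hw s), ← ha, ← map_sub]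
      exact (hom_le _ _).trans ((pi_norm_le_iff_of_nonneg hη.le).2 fun n => hg f hf _ _ (ξd n s)))
    exact ⟨V, hV, fun f hf => h _ (Finset.mem_image_of_mem _ hf)⟩

theorem zz_diag (p q a b : ℕ) [NeZero a] [NeZero b] :
    ∃ (φ : DD p q →⋆ₐ[ℂ] DD (p * a) (q * b)) (θ : DD a b →⋆ₐ[ℂ] DD (p * a) (q * b)),
      Function.Injective φ ∧ ∀ f g, Commute (φ f) (θ g) := by
  let e : Fin (p * a) × Fin (q * b) ≃ (Fin p × Fin q) × (Fin a × Fin b) :=
    (finProdFinEquiv.symm.prodCongr finProdFinEquiv.symm).trans (Equiv.prodProdProdComm _ _ _ _)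
  let s₁ : Fin (p * a) → Fin p × Fin a := finProdFinEquiv.symm
  let s₂ : Fin (q * b) → Fin q × Fin b := finProdFinEquiv.symm
  have i₁ : ∀ x y, x = y ↔ (s₁ x).1 = (s₁ y).1 ∧ (s₁ x).2 = (s₁ y).2 := fun x y =>
    finProdFinEquiv.symm.injective.eq_iff.symm.trans Prod.ext_iff
  have i₂ : ∀ x y, x = y ↔ (s₂ x).1 = (s₂ y).1 ∧ (s₂ x).2 = (s₂ y).2 := fun x y =>
    finProdFinEquiv.symm.injective.eq_iff.symm.trans Prod.ext_iff
  have he : ∀ x, e x = (((s₁ x.1).1, (s₂ x.2).1), ((s₁ x.1).2, (s₂ x.2).2)) := fun _ => rfl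
  obtain ⟨φ, hφ⟩ := exists_conn e (fun _ => .id _) 1 (fun _ => one_mem _)
    (fun f => f.2.1.elim fun A hA => ⟨(A ⊗ₖ 1).submatrix s₁ s₁, by
      ext x y
      simp only [ContinuousMap.one_apply, one_mul, star_one, mul_one, blk_apply, he,
        ContinuousMap.id_apply, show DD.val f 0 = _ from hA, Matrix.kroneckerMap_apply,
        Matrix.submatrix_apply, Matrix.one_apply, i₂ x.2, Prod.mk.injEq]
      split_ifs <;> simp_all⟩)
    (fun f => f.2.2.elim fun A hA => ⟨(A ⊗ₖ 1).submatrix s₂ s₂, by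
      ext x y
      simp only [ContinuousMap.one_apply, one_mul, star_one, mul_one, blk_apply, he,
        ContinuousMap.id_apply, show DD.val f 1 = _ from hA, Matrix.kroneckerMap_apply,
        Matrix.submatrix_apply, Matrix.one_apply, i₁ x.1, Prod.mk.injEq]
      split_ifs <;> simp_all⟩)
  obtain ⟨θ, hθ⟩ := exists_conn (e.trans (Equiv.prodComm _ _)) (fun _ => .id _) 1 (fun _ => one_mem _)
    (fun f => f.2.1.elim fun A hA => ⟨(1 ⊗ₖ A).submatrix s₁ s₁, by
      ext x y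
      simp only [ContinuousMap.one_apply, one_mul, star_one, mul_one, blk_apply, he,
        Equiv.trans_apply, Equiv.prodComm_apply, Prod.swap_prod_mk,
        ContinuousMap.id_apply, show DD.val f 0 = _ from hA, Matrix.kroneckerMap_apply,
        Matrix.submatrix_apply, Matrix.one_apply, i₂ x.2, Prod.mk.injEq]
      split_ifs <;> simp_all⟩)
    (fun f => f.2.2.elim fun A hA => ⟨(1 ⊗ₖ A).submatrix s₂ s₂, by
      ext x y
      simp only [ContinuousMap.one_apply, one_mul, star_one, mul_one, blk_apply, he,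
        Equiv.trans_apply, Equiv.prodComm_apply, Prod.swap_prod_mk,
        ContinuousMap.id_apply, show DD.val f 1 = _ from hA, Matrix.kroneckerMap_apply,
        Matrix.submatrix_apply, Matrix.one_apply, i₁ x.1, Prod.mk.injEq]
      split_ifs <;> simp_all⟩)
  simp only [ContinuousMap.one_apply, one_mul, star_one, mul_one, ContinuousMap.id_apply] at hφ hθ
  refine ⟨φ, θ, fun f g h => DD.ext' fun t => congrFun (blk_inj e
    (((hφ f t).symm.trans (by rw [h])).trans (hφ g t))) (0, 0), fun f g => DD.ext' fun t => ?_⟩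
  have e1 : ∀ x, blk e (fun _ => x) = (x ⊗ₖ 1).submatrix e e := fun x => by
    ext u v; simp [blk_apply, Matrix.one_apply]
  have e2 : ∀ x, blk (e.trans (Equiv.prodComm _ _)) (fun _ => x) = (1 ⊗ₖ x).submatrix e e :=
    fun x => by ext u v; simp [blk_apply, Matrix.one_apply]; congr
  simp only [map_mul, ContinuousMap.mul_apply, hφ, hθ, e1, e2, Matrix.submatrix_mul_equiv,
    ← Matrix.mul_kronecker_mul, one_mul, mul_one]

theorem zz_step' (m : ℕ) (s : {s : St // 2 ∣ s.p ∧ 3 ∣ s.q}) :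
    ∃ (s' : {s : St // 2 ∣ s.p ∧ 3 ∣ s.q}) (φ : DD s.1.p s.1.q →⋆ₐ[ℂ] DD s'.1.p s'.1.q)
      (θ : DD 2 3 →⋆ₐ[ℂ] DD s'.1.p s'.1.q), Function.Injective φ ∧ (∀ f g, Commute (φ f) (θ g)) ∧
    (∀ i, s'.1.D i = if i.unpair.1 ≤ m then φ (s.1.D i) else denseSeq _ i.unpair.2) ∧
    ∀ (C : Type) [CStarAlgebra C] (α β : DD s'.1.p s'.1.q →⋆ₐ[ℂ] C), (∀ f g, Commute (α f) (β g)) →
      ∃ V ∈ unitary C, ∀ i ≤ m, ‖V * α (φ (s.1.D i)) * star V - β (φ (s.1.D i))‖ ≤ 1 / (m + 1) := by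
  classical
  obtain ⟨p, q, d1, d2, hp, hq, hpq, φ, h1, h2⟩ := zz_step s.1.hp s.1.hq s.1.hpq
    ((Finset.range (m + 1)).image s.1.D) (show (0 : ℝ) < 1 / (m + 1) / 6 by positivity)
  obtain ⟨ψ, θ, h3, h4⟩ := zz_diag p q 2 3
  have c1 := hpq.coprime_dvd_left (s.2.1.trans d1)
  have c2 := hpq.coprime_dvd_right (s.2.2.trans d2)
  refine ⟨⟨⟨p * 2, q * 3, by omega, by omega, (hpq.mul_right c2).mul_left
    (c1.mul_right (by norm_num)),
    fun i => if i.unpair.1 ≤ m then ψ (φ (s.1.D i)) else denseSeq _ i.unpair.2⟩, by simp, by simp⟩,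
    ψ.comp φ, θ, h3.comp h1, fun _ _ => h4 _ _, fun _ => rfl, fun C _ α β hc => ?_⟩
  obtain ⟨V, hV, h⟩ := h2 C (α.comp ψ) (β.comp ψ) fun _ _ => hc _ _
  exact ⟨V, hV, fun i hi => (h _ (Finset.mem_image_of_mem _ (Finset.mem_range.2
    (Nat.lt_succ_of_le hi)))).trans_eq (by ring)⟩

theorem zzS : ZzS := by
  choose nx φ θ h1 h0 h2 h3 using zz_step'
  let S : ℕ → {s : St // 2 ∣ s.p ∧ 3 ∣ s.q} := fun n => Nat.rec ⟨⟨2, 3, le_rfl, by norm_num,
    by norm_num, fun i => denseSeq _ i.unpair.2⟩, dvd_rfl, dvd_rfl⟩ nx n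
  obtain ⟨Z, _, J, J1, J2, J3⟩ := @exists_lim.{0} (fun n => DD (S n).1.p (S n).1.q) _
    (fun n => (S n).1.nontrivial) (fun n => φ n (S n)) fun n => h1 n (S n)
  have := (S 0).1.nontrivial
  have := (J1 0).nontrivial
  have mono : Monotone fun n => Set.range (J n) := monotone_nat_of_le_succ fun n => by
    rintro _ ⟨x, rfl⟩; exact ⟨_, J2 n x⟩
  have zp : ZP Z := fun F ε hε => by
    have k1 : ∀ i m, i.unpair.1 ≤ m → J m ((S m).1.D i) = J i.unpair.1 (denseSeq _ i.unpair.2) :=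
      fun i m h => by
        induction m, h using Nat.le_induction with
        | base =>
          generalize hn : i.unpair.1 = n
          rcases n with _ | n
          · rfl
          · exact congrArg _ ((h2 n (S n) i).trans (if_neg (by omega)))
        | succ m h ih =>
          exact (congrArg _ ((h2 m (S m) i).trans (if_pos h))).trans ((J2 m _).trans ih)
    have k2 : ∀ d : Z, ∃ i : ℕ, ‖d - J i.unpair.1 (denseSeq _ i.unpair.2)‖ < ε := fun d => by
      obtain ⟨y, hy, h⟩ := Metric.mem_closure_iff.1 (J3 d) (ε / 2) (by positivity)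
      obtain ⟨n, x, rfl⟩ := Set.mem_iUnion.1 hy
      obtain ⟨k, hk⟩ := (denseRange_denseSeq _).exists_dist_lt x (show 0 < ε / 2 by positivity)
      refine ⟨Nat.pair n k, ?_⟩
      rw [Nat.unpair_pair]
      rw [dist_eq_norm] at h hk
      have := (hom_le (J n) _).trans_lt hk
      rw [map_sub] at this
      exact ((norm_sub_le_norm_sub_add_norm_sub _ _ _).trans_lt (add_lt_add h this)).trans_eq
        (by ring)
    choose i hi using k2
    obtain ⟨m, hm1, hm2⟩ := ((eventually_ge_atTop (F.sup i)).and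
      (tendsto_one_div_add_atTop_nhds_zero_nat.eventually_lt_const hε)).exists
    refine ⟨_, _, (S (m + 1)).1.hp, (S (m + 1)).1.hq, (S (m + 1)).1.hpq, J (m + 1),
      fun d => φ m (S m) ((S m).1.D (i d)), fun d hd => ?_, fun C _ a b hc => ?_⟩
    · rw [J2, k1 _ _ ((Nat.unpair_left_le _).trans ((Finset.le_sup hd).trans hm1)), norm_sub_rev]
      exact (hi d).le
    · obtain ⟨V, hV, h⟩ := h3 m (S m) C a b hc
      exact ⟨V, hV, fun d hd => (h _ ((Finset.le_sup hd).trans hm1)).trans hm2.le⟩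
  obtain ⟨C, _, ι, κ, hC⟩ := exists_minTensor Z Z
  refine ⟨Z, _, ⟨⟨fun n => Set.range (J n), fun n => ⟨_, _, (S n).1.hp, (S n).1.hq, (S n).1.hpq, J n,
    J1 n, rfl⟩, mono, J3⟩, C, _, ι, κ, hC, fun F ε hε => ?_⟩, zp,
    fun n => (J (n + 1)).comp (θ n (S n)), fun f z => Metric.tendsto_nhds.2 fun ε hε => ?_⟩
  · obtain ⟨p, q, -, -, -, j, f, k1, k2⟩ := zp F (ε / 4) (by positivity)
    obtain ⟨V, hV, h⟩ := k2 C (ι.comp j) (κ.comp j) fun f g => hC.1 _ _
    refine ⟨V, hV, fun d hd => ?_⟩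
    have a1 := (norm_ad hV _ _).trans_le ((map_sub ι _ _ ▸ hom_le ι _).trans (k1 d hd))
    have a2 := (map_sub κ _ _ ▸ hom_le κ _).trans (k1 d hd)
    rw [norm_sub_rev] at a1
    exact ((norm_sub_le_norm_sub_add_norm_sub _ _ _).trans (add_le_add a1
      ((norm_sub_le_norm_sub_add_norm_sub _ _ _).trans (add_le_add (h d hd) a2)))).trans_lt
      (by linarith)
  · obtain ⟨y, hy, h⟩ := Metric.mem_closure_iff.1 (J3 z) (ε / (2 * ‖f‖ + 1)) (by positivity)
    obtain ⟨n, hn⟩ := Set.mem_iUnion.1 hy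
    filter_upwards [eventually_ge_atTop n] with m hm
    obtain ⟨x, rfl⟩ := mono hm hn
    set w := (J (m + 1)).comp (θ m (S m)) f
    have c : J m x * w = w * J m x := by rw [← J2]; exact ((h0 m (S m) x f).map (J (m + 1))).eq
    have n1 : ‖w‖ ≤ ‖f‖ := hom_le _ _
    rw [dist_zero_right, norm_norm, show w * z - z * w = w * (z - J m x) - (z - J m x) * w by
      rw [mul_sub, sub_mul, c]; abel]
    rw [dist_eq_norm, lt_div_iff₀ (by positivity)] at h
    have t1 := (norm_mul_le w (z - J m x)).trans (mul_le_mul_of_nonneg_right n1 (norm_nonneg _))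
    have t2 := (norm_mul_le (z - J m x) w).trans (mul_le_mul_of_nonneg_left n1 (norm_nonneg _))
    nlinarith [norm_sub_le (w * (z - J m x)) ((z - J m x) * w), norm_nonneg (z - J m x)]

end Vale.Agent.P095
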