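import Vale.Agent.P095.Amen
import Vale.Agent.P095.Bl
import Vale.Agent.P095.Blk
import Vale.Agent.P095.Com
import Vale.Agent.P095.ConRes
import Vale.Agent.P095.Copy
import Vale.Agent.P095.Cpa
import Vale.Agent.P095.Dom
import Vale.Agent.P095.Exc
import Vale.Agent.P095.Fam
import Vale.Agent.P095.Free
import Vale.Agent.P095.Glue
import Vale.Agent.P095.Hbt
import Vale.Agent.P095.Hf
import Vale.Agent.P095.Inc
import Vale.Agent.P095.Loc
import Vale.Agent.P095.Mix
import Vale.Agent.P095.Out
import Vale.Agent.P095.Qa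
import Vale.Agent.P095.Qb
import Vale.Agent.P095.Quot
import Vale.Agent.P095.Sel
import Vale.Agent.P095.Si1
import Vale.Agent.P095.Si2
import Vale.Agent.P095.Si3
import Vale.Agent.P095.Ssa
import Vale.Agent.P095.Tu
import Vale.Agent.P095.Uni
import Vale.Agent.P095.Zz

/-! All steps put together. -/

namespace Vale.Agent.P095

open Vale.Agent.P101

theorem all_mid : MidG :=
  midG (copyS satS) excS (cpaS domS locS) pcsS (qbS simpS (qaS simpS cesS freeS))
    (tuS (ttS (blS conS blkS famS (mixS (selS (incS conS blkS famS) resS) resS)) resS) quotS) goodS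
    (si1S satS (outS (satFS satS) (copyS satS)) locS hbtS) (si2S satS) (si3S (satFS satS))

theorem all_uni : UniS := uniS isFS (hfS comS)

theorem all_ex : ∃ (Z : Type) (_ : CStarAlgebra Z), IsJS Z ∧ IsSSA Z :=
  exists_ssa zzS ctxS (copyS satS) all_uni

theorem all_main (Z : Type) [CStarAlgebra Z] (h1 : IsJS Z) (h2 : IsSSA Z)
    (A : Type) [NonUnitalCStarAlgebra A] [TopologicalSpace.SeparableSpace A] (hs : IsSimple A)
    (hn : IsNuclear A) (hz : IsStable A Z) (G : Type) [Group G] [Countable G] (hG : IsAmenable G)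
    (α : G →* (A ≃⋆ₐ[ℂ] A)) (C : Type) [NonUnitalCStarAlgebra C] (t : A → Z → C)
    (ht : IsTensor t) : ∃ β : G →* (C ≃⋆ₐ[ℂ] C), (∀ g a z, β g (t a z) = t (α g a) z) ∧
      CocycleConj α β := by
  obtain ⟨_, _, zp, zc⟩ := ssa_data locS h1 h2
  exact gen_core amenS ctxS all_mid all_uni intS zp zc A hs hn hz G hG α C t ht

end Vale.Agent.P095
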