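import Vale.Agent.P095.Basic
import Vale.Agent.P196.Folner

/-! An invariant mean gives Folner sets. -/

open Set Metric
open scoped Pointwise symmDiff

namespace Vale.Agent.P095

theorem amen_reiter {G : Type} [Group G] (h : IsAmenable G) (K : Finset G) {δ : ℝ} (hδ : 0 < δ) :
    ∃ μ : G →₀ ℝ, (∀ s, 0 ≤ μ s) ∧ μ.sum (fun _ r => r) = 1 ∧
      ∀ g ∈ K, (μ.mapDomain (g • ·) - μ).sum (fun _ r => |r|) ≤ δ := by
  classical
  obtain ⟨m, m1, m0, mi⟩ := h
  let e : G → lp (fun _ : G => ℝ) 1 := fun x => lp.single 1 x 1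
  let ι : (G →₀ ℝ) →ₗ[ℝ] lp (fun _ : G => ℝ) 1 := Finsupp.linearCombination ℝ e
  have hι : ∀ ν x, ι ν x = ν x := fun ν x => by
    induction ν using Finsupp.induction_linear with
    | zero => simp
    | add a b ha hb => simp [ha, hb]
    | single y r => simp [ι, e, lp.single_apply, Pi.single_apply, Finsupp.single_apply, eq_comm]
  let T : (G →₀ ℝ) →ₗ[ℝ] (K → lp (fun _ : G => ℝ) 1) :=
    LinearMap.pi fun g => ι ∘ₗ (Finsupp.lmapDomain ℝ ℝ (g.1 • ·) - LinearMap.id)
  let P : Set (G →₀ ℝ) := {μ | (∀ s, 0 ≤ μ s) ∧ μ.sum (fun _ r => r) = 1}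
  have hP : Convex ℝ P := fun μ hμ ν hν a b ha hb hab =>
    ⟨fun s => add_nonneg (mul_nonneg ha (hμ.1 s)) (mul_nonneg hb (hν.1 s)), by
      rw [Finsupp.sum_add_index' (fun _ => rfl) (fun _ _ _ => rfl), Finsupp.sum_smul_index' fun _ => rfl,
        Finsupp.sum_smul_index' fun _ => rfl, ← Finsupp.smul_sum, ← Finsupp.smul_sum, hμ.2, hν.2]
      simpa using hab⟩
  by_contra hc
  obtain ⟨f, u, h1, h2⟩ := geometric_hahn_banach_open (convex_ball (0 : K → _) δ) isOpen_ball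
    (hP.linear_image T) (disjoint_left.2 (by
      rintro _ hv ⟨μ, hμ, rfl⟩
      refine hc ⟨μ, hμ.1, hμ.2, fun g hg => le_trans ?_
        ((norm_le_pi_norm _ ⟨g, hg⟩).trans (mem_ball_zero_iff.1 hv).le)⟩
      simpa [T, hι, Finsupp.sum] using lp.sum_rpow_le_norm_rpow (p := 1) (by simp) (T μ ⟨g, hg⟩)
        (μ.mapDomain (g • ·) - μ).support))
  have hb : ∀ (g : K) (t : G), Memℓp (fun x => f (Pi.single g (e (t * x)))) ⊤ := fun g t =>
    memℓp_infty ⟨‖f‖, by
      rintro _ ⟨x, rfl⟩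
      simpa [e, Pi.norm_single] using f.le_opNorm (Pi.single g (e (t * x)))⟩
  let φ : K → G → lp (fun _ : G => ℝ) ⊤ := fun g t => ⟨_, hb g t⟩
  have k := m0 (∑ g : K, (φ g g - φ g 1) - u • 1) fun x => by
    have := h2 _ ⟨Finsupp.single x 1, ⟨fun s => Finsupp.single_nonneg.2 zero_le_one s, by simp⟩, rfl⟩
    rw [← Finset.univ_sum_single (T _), map_sum] at this
    simp only [lp.coeFn_sub, lp.coeFn_sum, lp.coeFn_smul, Pi.sub_apply, Finset.sum_apply]
    simpa [φ, T, ι, Pi.single_sub] using this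
  have k' : ∀ g : K, m (φ g g) = m (φ g 1) := fun g => mi g _ _ fun x => by simp [φ]
  have := h1 0 (mem_ball_self hδ)
  simp [k', m1] at k this
  linarith

theorem amenS : AmenS := by
  classical
  intro G _ h K ε hε
  have hδ : 0 < ε / (K.card + 1) := by positivity
  obtain ⟨μ, h0, h1, h2⟩ := amen_reiter h K hδ
  obtain ⟨D, hD, hne, h3⟩ := P196.folner_of_reiter K hε (by
    rw [div_mul_eq_mul_div, div_lt_iff₀ (by positivity)]
    nlinarith) μ h0 h1 (fun s _ T hT => (finite_singleton 1).subset (by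
      rw [← Subgroup.coe_bot, SetLike.coe_subset_coe, Subgroup.closure_le]
      exact fun g hg => by simpa using hT g hg)) h2
  refine ⟨hD.toFinset, hD.toFinset_nonempty.2 hne, fun t ht => le_trans ?_
    ((h3 t ht).le.trans_eq (by rw [ncard_eq_toFinset_card _ hD]))⟩
  rw [← ncard_coe_finset, Nat.cast_le]
  refine ncard_le_ncard_of_injOn (t * ·) (fun g hg => ?_) (mul_right_injective t).injOn
    (hD.smul_set.symmDiff hD)
  simp only [Finset.coe_filter, Finite.mem_toFinset, mem_ofPred_eq] at hg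
  exact Or.inl ⟨⟨g, hg.1, rfl⟩, hg.2⟩

end Vale.Agent.P095
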