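import Vale.Agent.P095.Stmt

/-! Basic tools for P095. -/

open Filter Topology TopologicalSpace BoundedContinuousFunction
open scoped BoundedContinuousFunction

namespace Vale.Agent.P095

open Vale.Agent.P101

section pos

variable {M M' : Type*} [CStarAlgebra M] [CStarAlgebra M'] {x y : M}

theorem pos_iff [PartialOrder M] [StarOrderedRing M] : Pos x ↔ 0 ≤ x :=
  CStarAlgebra.nonneg_iff_eq_star_mul_self.symm

theorem Pos.sq (x : M) : Pos (star x * x) := ⟨x, rfl⟩

theorem Pos.zero : Pos (0 : M) := ⟨0, by simp⟩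

theorem Pos.one : Pos (1 : M) := ⟨1, by simp⟩

theorem Pos.sa (h : Pos x) : IsSelfAdjoint x := by
  obtain ⟨y, rfl⟩ := h; exact IsSelfAdjoint.star_mul_self y

theorem Pos.map {F : Type*} [FunLike F M M'] [MulHomClass F M M'] [StarHomClass F M M'] (h : Pos x)
    (π : F) : Pos (π x) := by
  obtain ⟨y, rfl⟩ := h; exact ⟨π y, by rw [map_mul, map_star]⟩

theorem Pos.conj (h : Pos x) (c : M) : Pos (star c * x * c) := by
  obtain ⟨y, rfl⟩ := h; exact ⟨y * c, by rw [star_mul]; simp only [mul_assoc]⟩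

theorem Pos.add (hx : Pos x) (hy : Pos y) : Pos (x + y) := by
  let _ := CStarAlgebra.spectralOrder M
  have := CStarAlgebra.spectralOrderedRing M
  exact pos_iff.2 (add_nonneg (pos_iff.1 hx) (pos_iff.1 hy))

theorem Pos.sum {ι : Type*} {s : Finset ι} {f : ι → M} (h : ∀ i ∈ s, Pos (f i)) :
    Pos (∑ i ∈ s, f i) :=
  Finset.sum_induction f Pos (fun _ _ => Pos.add) Pos.zero h

theorem Pos.smul (hx : Pos x) {r : ℝ} (hr : 0 ≤ r) : Pos (r • x) := by
  let _ := CStarAlgebra.spectralOrder M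
  have := CStarAlgebra.spectralOrderedRing M
  exact pos_iff.2 (smul_nonneg hr (pos_iff.1 hx))

theorem Pos.mul (hx : Pos x) (hy : Pos y) (h : Commute x y) : Pos (x * y) := by
  let _ := CStarAlgebra.spectralOrder M
  have := CStarAlgebra.spectralOrderedRing M
  exact pos_iff.2 (h.mul_nonneg (pos_iff.1 hx) (pos_iff.1 hy))

theorem Pos.of_norm (hx : IsSelfAdjoint x) {r : ℝ} (h : ‖x‖ ≤ r) : Pos (r • (1 : M) - x) := by
  let _ := CStarAlgebra.spectralOrder M
  have := CStarAlgebra.spectralOrderedRing M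
  exact pos_iff.2 (sub_nonneg.2 ((le_norm_smul hx).trans
    (smul_le_smul_of_nonneg_right h zero_le_one)))

theorem Pos.of_norm' (hx : IsSelfAdjoint x) {r : ℝ} (h : ‖x‖ ≤ r) : Pos (r • (1 : M) + x) := by
  simpa using Pos.of_norm hx.neg (by rwa [norm_neg])

theorem Pos.norm_le (hx : Pos x) (h : Pos (y - x)) : ‖x‖ ≤ ‖y‖ := by
  let _ := CStarAlgebra.spectralOrder M
  have := CStarAlgebra.spectralOrderedRing M
  exact CStarAlgebra.norm_le_norm_of_nonneg_of_le (pos_iff.1 hx) (sub_nonneg.1 (pos_iff.1 h))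

theorem norm_one_le' : ‖(1 : M)‖ ≤ 1 := by nontriviality M; exact norm_one.le

theorem norm_le_of_pos {r : ℝ} (hr : 0 ≤ r) (h1 : Pos (r • (1 : M) - x)) (h2 : Pos (r • (1 : M) + x)) :
    ‖x‖ ≤ r := by
  let _ := CStarAlgebra.spectralOrder M
  have := CStarAlgebra.spectralOrderedRing M
  have s1 : IsSelfAdjoint (r • (1 : M)) := (IsSelfAdjoint.all r).smul (IsSelfAdjoint.one M)
  have sx : IsSelfAdjoint x := by simpa using h2.sa.sub s1
  have e1 := sub_nonneg.1 (pos_iff.1 h1)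
  have e2 := neg_le_iff_add_nonneg'.2 (pos_iff.1 h2)
  rw [← cfc_id' ℝ x]
  refine norm_cfc_le hr fun t ht => abs_le.2 ⟨?_, ?_⟩
  · rw [← neg_smul, ← Algebra.algebraMap_eq_smul_one] at e2
    exact (algebraMap_le_iff_le_spectrum sx).1 e2 t ht
  · rw [← Algebra.algebraMap_eq_smul_one] at e1
    exact (le_algebraMap_iff_spectrum_le sx).1 e1 t ht

theorem Pos.cfc {f : ℝ → ℝ} (h : ∀ t ∈ spectrum ℝ x, 0 ≤ f t) : Pos (cfc f x) := by
  let _ := CStarAlgebra.spectralOrder M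
  have := CStarAlgebra.spectralOrderedRing M
  exact pos_iff.2 (cfc_nonneg h)

theorem Pos.spec (hx : Pos x) : ∀ t ∈ spectrum ℝ x, 0 ≤ t := by
  let _ := CStarAlgebra.spectralOrder M
  have := CStarAlgebra.spectralOrderedRing M
  exact fun t ht => spectrum_nonneg_of_nonneg (pos_iff.1 hx) ht

theorem Pos.sqrt (hx : Pos x) : ∃ r, Pos r ∧ r * r = x ∧ ∀ z, Commute x z → Commute r z := by
  refine ⟨_root_.cfc Real.sqrt x, Pos.cfc fun t _ => Real.sqrt_nonneg t, ?_,
    fun z hz => hz.cfc_real _⟩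
  have := hx.sa
  rw [← cfc_mul ..]
  nth_rw 2 [← cfc_id' ℝ x]
  exact cfc_congr fun t ht => Real.mul_self_sqrt (hx.spec t ht)

theorem Prj.pos (h : Prj x) : Pos x := ⟨x, by rw [h.sa.star_eq, h.sq]⟩

theorem Prj.norm_le (h : Prj x) : ‖x‖ ≤ 1 := by
  have := CStarRing.norm_star_mul_self (x := x)
  rw [h.sa.star_eq, h.sq] at this
  nlinarith [norm_nonneg x]

theorem SC.map {F : Type*} [FunLike F M M'] [AlgHomClass F ℂ M M'] [StarHomClass F M M'] (h : SC x)
    (π : F) : SC (π x) := ⟨h.sa.map π, (NonUnitalStarAlgHom.norm_apply_le π x).trans h.le⟩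

theorem Prj.map {F : Type*} [FunLike F M M'] [MulHomClass F M M'] [StarHomClass F M M'] (h : Prj x)
    (π : F) : Prj (π x) := ⟨h.sa.map π, by rw [← map_mul, h.sq]⟩

theorem Pauli.map {F : Type*} [FunLike F M M'] [RingHomClass F M M'] [StarHomClass F M M']
    (h : Pauli x y) (π : F) : Pauli (π x) (π y) :=
  ⟨h.sx.map π, h.sz.map π, by rw [← map_mul, h.xx, map_one], by rw [← map_mul, h.zz, map_one],
    by rw [← map_mul, h.xz, map_neg, map_mul]⟩

theorem Pauli.symm (h : Pauli x y) : Pauli y x :=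
  ⟨h.sz, h.sx, h.zz, h.xx, by rw [h.xz, neg_neg]⟩

theorem Pauli.norm_le (h : Pauli x y) : ‖x‖ ≤ 1 := by
  have := CStarRing.norm_star_mul_self (x := x)
  rw [h.sx.star_eq, h.xx] at this
  nlinarith [norm_nonneg x, norm_one_le' (M := M)]

theorem map_Yc {F : Type*} [FunLike F M M'] [AlgHomClass F ℂ M M'] (π : F) (x y : M) :
    π (Yc x y) = Yc (π x) (π y) := by
  simp only [Yc, ← Complex.coe_smul, map_smul, map_sub, map_mul]

theorem map_Df {F : Type*} [FunLike F M M'] [AlgHomClass F ℂ M M'] [StarHomClass F M M'] (π : F)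
    (x y : M) : π (Df x y) = Df (π x) (π y) := by
  simp only [Df, map_sub, map_one, map_mul, map_star, map_Yc]

theorem map_rsmul {F : Type*} [FunLike F M M'] [AlgHomClass F ℂ M M'] (π : F) (r : ℝ) (x : M) :
    π (r • x) = r • π x := by
  simp only [← Complex.coe_smul, map_smul]

theorem map_cfc' {F : Type*} [FunLike F M M'] [AlgHomClass F ℂ M M'] [StarHomClass F M M'] (π : F)
    {f : ℝ → ℝ} (hf : ContinuousOn f (spectrum ℝ x)) (hx : IsSelfAdjoint x) :
    π (cfc f x) = cfc f (π x) :=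
  StarAlgHomClass.map_cfc (S := ℂ) π f x hf (hom_cont (π : M →⋆ₐ[ℂ] M')) hx (hx.map π)

theorem norm_Yc_le (hx : ‖x‖ ≤ 1) (hy : ‖y‖ ≤ 1) : ‖Yc x y‖ ≤ 1 := by
  have h1 := (norm_mul_le x y).trans (mul_le_one₀ hx (norm_nonneg _) hy)
  have h2 := (norm_mul_le y x).trans (mul_le_one₀ hy (norm_nonneg _) hx)
  have := norm_sub_le (x * y) (y * x)
  rw [Yc, norm_smul, Real.norm_of_nonneg (by norm_num)]
  linarith

theorem pos_Df (hx : ‖x‖ ≤ 1) (hy : ‖y‖ ≤ 1) : Pos (Df x y) := by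
  have := norm_Yc_le hx hy
  simpa [Df] using Pos.of_norm (IsSelfAdjoint.star_mul_self (Yc x y)) (r := 1) (by
    rw [CStarRing.norm_star_mul_self]; exact mul_le_one₀ this (norm_nonneg _) this)

theorem norm_Df_le (hx : ‖x‖ ≤ 1) (hy : ‖y‖ ≤ 1) : ‖Df x y‖ ≤ 1 :=
  ((pos_Df hx hy).norm_le (y := 1) (by simpa [Df] using Pos.sq _)).trans norm_one_le'

end pos

section lift

variable {R M : Type*} [CStarAlgebra R] [CStarAlgebra M] {π : R →⋆ₐ[ℂ] M}

theorem lift_norm (hπ : Function.Surjective π) (y : M) : ∃ x, π x = y ∧ ‖x‖ ≤ ‖y‖ := by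
  obtain ⟨x, rfl⟩ := hπ y
  rcases eq_or_ne (π x) 0 with h0 | h0
  · exact ⟨0, by simp [h0], by simp⟩
  set c := ‖π x‖ with hc
  have c0 : 0 < c := norm_pos_iff.2 h0
  let f : ℝ → ℝ := fun t => c / max c √t
  have cf : Continuous f := continuous_const.div (by fun_prop) fun t =>
    (c0.trans_le (le_max_left _ _)).ne'
  have sa := IsSelfAdjoint.star_mul_self x
  refine ⟨x * cfc f (star x * x), ?_, ?_⟩
  · rw [map_mul, map_cfc' π cf.continuousOn sa, map_mul, map_star,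
      cfc_congr (g := fun _ => 1) fun t ht => ?_, cfc_const_one ℝ _, mul_one]
    have := spectrum.norm_le_norm_mul_of_mem ht
    rw [CStarRing.norm_star_mul_self, ← hc] at this
    have h2 : √t ≤ c := Real.sqrt_le_iff.2 ⟨c0.le, (le_abs_self t).trans (this.trans (by
      nlinarith [norm_one_le' (M := M), mul_pos c0 c0]))⟩
    simp only [f, max_eq_left h2, div_self c0.ne']
  · refine abs_le_of_sq_le_sq' ?_ c0.le |>.2
    rw [sq, ← CStarRing.norm_star_mul_self, star_mul, IsSelfAdjoint.cfc.star_eq, mul_assoc,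
      ← mul_assoc (star x)]
    nth_rw 2 [← cfc_id' ℝ (star x * x)]
    rw [← cfc_mul _ _ _ (continuousOn_id' _) cf.continuousOn,
      ← cfc_mul f (fun t => t * f t) _ cf.continuousOn ((continuousOn_id' _).mul cf.continuousOn)]
    refine norm_cfc_le (sq_nonneg _) fun t ht => ?_
    have t0 := (Pos.sq x).spec t ht
    have m0 : 0 < max c √t := c0.trans_le (le_max_left _ _)
    have e : f t * (t * f t) = c ^ 2 * (√t / max c √t) ^ 2 := by
      simp only [f]; rw [div_pow, Real.sq_sqrt t0]; field_simp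
    rw [e, Real.norm_of_nonneg (by positivity)]
    exact mul_le_of_le_one_right (sq_nonneg _) (pow_le_one₀ (by positivity)
      ((div_le_one m0).2 (le_max_right _ _)))

theorem lift_sa (hπ : Function.Surjective π) {y : M} (hy : IsSelfAdjoint y) :
    ∃ x, IsSelfAdjoint x ∧ π x = y ∧ ‖x‖ ≤ ‖y‖ := by
  obtain ⟨x, rfl, h⟩ := lift_norm hπ y
  refine ⟨(1 / 2 : ℝ) • (x + star x), (IsSelfAdjoint.all _).smul (IsSelfAdjoint.add_star_self x),
    ?_, ?_⟩
  · rw [map_rsmul, map_add, map_star, hy.star_eq, ← two_smul ℝ, smul_smul]; simp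
  · have := norm_add_le x (star x)
    rw [norm_smul, Real.norm_of_nonneg (by norm_num)]
    rw [norm_star] at this
    linarith

theorem lift_sc (hπ : Function.Surjective π) {y : M} (hy : SC y) : ∃ x, SC x ∧ π x = y :=
  (lift_sa hπ hy.sa).imp fun _ h => ⟨⟨h.1, h.2.2.trans hy.le⟩, h.2.1⟩

theorem lift_pos (hπ : Function.Surjective π) {y : M} (hy : Pos y) :
    ∃ x, Pos x ∧ π x = y ∧ ‖x‖ ≤ ‖y‖ := by
  obtain ⟨z, rfl⟩ := hy
  obtain ⟨x, rfl, h⟩ := lift_norm hπ z
  exact ⟨star x * x, Pos.sq x, by rw [map_mul, map_star], by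
    simp only [CStarRing.norm_star_mul_self]; exact mul_self_le_mul_self (norm_nonneg _) h⟩

theorem exists_desc {M' : Type*} [CStarAlgebra M'] (hπ : Function.Surjective π) (ρ : R →⋆ₐ[ℂ] M')
    (h : ∀ x, π x = 0 → ρ x = 0) : ∃ θ : M →⋆ₐ[ℂ] M', ∀ x, θ (π x) = ρ x :=
  exists_of_graph π ρ hπ.denseRange fun x => by
    obtain ⟨x', e, hx⟩ := lift_norm hπ (π x)
    rw [← sub_eq_zero.1 ((map_sub ρ _ _).symm.trans (h (x' - x) (by rw [map_sub, e, sub_self])))]
    exact (hom_le ρ _).trans hx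

end lift

theorem act_mul {G M : Type} [Group G] [CStarAlgebra M] (α : Act G M) (g g' : G) (x : M) :
    α g (α g' x) = α (g * g') x := by simp

theorem act_inv {G M : Type} [Group G] [CStarAlgebra M] (α : Act G M) (g : G) (x : M) :
    α g (α g⁻¹ x) = x := by rw [act_mul]; simp

theorem act_inv' {G M : Type} [Group G] [CStarAlgebra M] (α : Act G M) (g : G) (x : M) :
    α g⁻¹ (α g x) = x := by rw [act_mul]; simp

/-- An action from a multiplicative family of homomorphisms. -/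
noncomputable def mkAct {G M : Type} [Group G] [CStarAlgebra M] (θ : G → M →⋆ₐ[ℂ] M) (e1 : ∀ y, θ 1 y = y)
    (e : ∀ g g' y, θ g (θ g' y) = θ (g * g') y) : Act G M where
  toFun g := StarAlgEquiv.ofStarAlgHom (θ g) (θ g⁻¹) (by ext y; simp [e, e1]) (by ext y; simp [e, e1])
  map_one' := by ext y; exact e1 y
  map_mul' g g' := by ext y; exact (e g g' y).symm

@[simp] theorem mkAct_apply {G M : Type} [Group G] [CStarAlgebra M] (θ : G → M →⋆ₐ[ℂ] M) (e1 e g y) :
    mkAct θ e1 e g y = θ g y := rfl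

theorem exists_act {G R M : Type} [Group G] [CStarAlgebra R] [CStarAlgebra M] {π : R →⋆ₐ[ℂ] M}
    (hπ : Function.Surjective π) (α : Act G R) (h : ∀ g x, π x = 0 → π (α g x) = 0) :
    ∃ γ : Act G M, ∀ g x, γ g (π x) = π (α g x) := by
  choose θ hθ using fun g => exists_desc hπ (π.comp (α g : R →⋆ₐ[ℂ] R)) (h g)
  have hθ' : ∀ g x, θ g (π x) = π (α g x) := hθ
  exact ⟨mkAct θ (fun y => by obtain ⟨x, rfl⟩ := hπ y; simp [hθ'])
    fun g g' y => by obtain ⟨x, rfl⟩ := hπ y; simp [hθ'], hθ'⟩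

/-- The action on bounded sequences. -/
noncomputable def postAct {G M : Type} [Group G] [CStarAlgebra M] (α : Act G M) :
    Act G (ℕ →ᵇ M) :=
  mkAct (fun g => post (α g : M →⋆ₐ[ℂ] M)) (fun x => by ext n; simp [post])
    fun g g' x => by ext n; exact act_mul α g g' (x n)

@[simp] theorem post_apply {A C : Type*} [CStarAlgebra A] [CStarAlgebra C] (ι : A →⋆ₐ[ℂ] C)
    (x : ℕ →ᵇ A) (n : ℕ) : post ι x n = ι (x n) := rfl

theorem postAct_apply {G M : Type} [Group G] [CStarAlgebra M] (α : Act G M) (g : G) (x : ℕ →ᵇ M) :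
    postAct α g x = post (α g : M →⋆ₐ[ℂ] M) x := rfl

theorem act_norm {G M : Type} [Group G] [CStarAlgebra M] (α : Act G M) (g : G) (x : M) :
    ‖α g x‖ = ‖x‖ := StarAlgEquiv.norm_map (α g) x

theorem mem_Cm {B V : Type} [CStarAlgebra B] [CStarAlgebra V] {j : B →⋆ₐ[ℂ] V} {x : V} :
    x ∈ Cm j ↔ ∀ b, Commute x (j b) := by
  rw [Cm, StarSubalgebra.mem_centralizer_iff]
  constructor
  · intro h a; exact (h _ ⟨a, rfl⟩).1.symm
  · rintro h _ ⟨a, rfl⟩
    exact ⟨(h a).symm, by rw [← map_star]; exact (h (star a)).symm⟩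

theorem mem_Fix {G M : Type} [Group G] [CStarAlgebra M] {α : Act G M} {x : M} :
    x ∈ Fix α ↔ ∀ g, α g x = x := Iff.rfl

namespace IsF

variable {B V F : Type} [CStarAlgebra B] [CStarAlgebra V] [CStarAlgebra F] {I : TwoSidedIdeal B}
  {j : B →⋆ₐ[ℂ] V} {q : Cm j →⋆ₐ[ℂ] F}

theorem ann' (h : IsF I j q) {x y : Cm j} (e : q x = q y) {a : B} (ha : a ∈ I) :
    (x : V) * j a = y * j a := by
  have := h.norm (x - y) a ha
  rwa [map_sub, e, sub_self, norm_zero, zero_mul, norm_eq_zero, AddSubgroupClass.coe_sub, sub_mul,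
    sub_eq_zero] at this

theorem ann (h : IsF I j q) {x y : Cm j} (e : q x = q y) {a : B} (ha : a ∈ I) :
    j a * x = j a * y := by
  rw [← (mem_Cm.1 x.2 a).eq, ← (mem_Cm.1 y.2 a).eq, h.ann' e ha]

theorem eq_of (h : IsF I j q) {x y : Cm j} {a : B} (ha : a ∈ I) (h0 : a ≠ 0)
    (e : (x : V) * j a = y * j a) : q x = q y := by
  have := h.norm (x - y) a ha
  rw [AddSubgroupClass.coe_sub, sub_mul, e, sub_self, norm_zero, eq_comm, mul_eq_zero] at this
  rwa [norm_eq_zero, norm_eq_zero, or_iff_left h0, map_sub, sub_eq_zero] at this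

end IsF

namespace Ctx

variable {G B : Type} [Group G] [CStarAlgebra B] {I : TwoSidedIdeal B} {α : Act G B} (c : Ctx I α)

theorem j_apply (b : B) : c.j b = c.ul (const ℕ b) := rfl

theorem norm_j (b : B) : ‖c.j b‖ = ‖b‖ :=
  tendsto_nhds_unique (c.ultra.lim (const ℕ b)) tendsto_const_nhds

theorem β_j (g : G) (b : B) : c.β g (c.j b) = c.j (α g b) := c.eqU g _

theorem β_mem (g : G) {x : c.U} (hx : x ∈ Cm c.j) : c.β g x ∈ Cm c.j :=
  mem_Cm.2 fun b => by
    rw [← act_inv α g b, ← c.β_j]; exact (mem_Cm.1 hx _).map _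

theorem q_β (g : G) (x : Cm c.j) : c.q ⟨c.β g x, c.β_mem g x.2⟩ = c.γ g (c.q x) := c.eqF g _ _ rfl

theorem ann {x y : Cm c.j} (e : c.q x = c.q y) {a : B} (ha : a ∈ I) : c.j a * x = c.j a * y :=
  c.isF.ann e ha

theorem nontrivial : Nontrivial c.F := by
  obtain ⟨a, ha, h0⟩ := c.sys.ne
  refine ⟨1, 0, fun e => h0 ?_⟩
  have := c.isF.norm 1 a ha
  rwa [map_one, e, norm_zero, zero_mul, OneMemClass.coe_one, one_mul, c.norm_j, norm_eq_zero] at this

theorem atTop : (c.ω : Filter ℕ) ≤ atTop := Nat.cofinite_eq_atTop ▸ c.free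

theorem ul_eq_zero {x : ℕ →ᵇ B} : c.ul x = 0 ↔ Tendsto (fun n => ‖x n‖) c.ω (𝓝 0) :=
  ⟨fun h => by simpa [h] using c.ultra.lim x,
    fun h => norm_eq_zero.1 (tendsto_nhds_unique (c.ultra.lim x) h)⟩

theorem mem_N {x : c.U} (h : ∀ a ∈ I, Commute x (c.j a)) : x ∈ Cm c.j :=
  mem_Cm.2 fun b => by
    obtain ⟨z, hz⟩ := c.sys.span b
    have := (h _ hz).add_right (Algebra.commutes z x).symm
    rwa [map_sub, AlgHomClass.commutes, sub_add_cancel] at this

end Ctx

theorem nu_nonneg {M : Type*} [CStarAlgebra M] (τ : M →ₗ[ℝ] ℝ) (x : M) : 0 ≤ nu τ x :=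
  Real.sqrt_nonneg _

theorem nu_neg {M : Type*} [CStarAlgebra M] (τ : M →ₗ[ℝ] ℝ) (x : M) : nu τ (-x) = nu τ x := by
  simp [nu]

theorem nu_sub_comm {M : Type*} [CStarAlgebra M] (τ : M →ₗ[ℝ] ℝ) (x y : M) :
    nu τ (x - y) = nu τ (y - x) := by rw [← nu_neg, neg_sub]

theorem nu_zero {M : Type*} [CStarAlgebra M] (τ : M →ₗ[ℝ] ℝ) : nu τ 0 = 0 := by simp [nu]

theorem nu_smul {M : Type*} [CStarAlgebra M] (τ : M →ₗ[ℝ] ℝ) (r : ℝ) (x : M) :
    nu τ (r • x) = |r| * nu τ x := by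
  rw [nu, nu, star_smul, star_trivial, smul_mul_smul_comm, map_smul, smul_eq_mul,
    Real.sqrt_mul (mul_self_nonneg r), Real.sqrt_mul_self_eq_abs]

/-- The restriction of scalars of a homomorphism. -/
def rl {M M' F : Type*} [CStarAlgebra M] [CStarAlgebra M'] [FunLike F M M'] [AlgHomClass F ℂ M M']
    (π : F) : M →ₗ[ℝ] M' where
  toFun := π
  map_add' := map_add π
  map_smul' := map_rsmul π

@[simp] theorem rl_apply {M M' F : Type*} [CStarAlgebra M] [CStarAlgebra M'] [FunLike F M M']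
    [AlgHomClass F ℂ M M'] (π : F) (x : M) : rl π x = π x := rfl

theorem nu_comp {M M' F : Type*} [CStarAlgebra M] [CStarAlgebra M'] [FunLike F M M']
    [AlgHomClass F ℂ M M'] [StarHomClass F M M'] (π : F) (τ : M' →ₗ[ℝ] ℝ) (x : M) :
    nu (τ ∘ₗ rl π) x = nu τ (π x) := by simp [nu, map_star]

namespace IsRT

variable {M M' : Type*} [CStarAlgebra M] [CStarAlgebra M'] {τ : M →ₗ[ℝ] ℝ} (h : IsRT τ)
  {x y p : M}
include h

theorem nonneg (hx : Pos x) : 0 ≤ τ x := by obtain ⟨y, rfl⟩ := hx; exact h.pos y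

theorem mono (hx : Pos (y - x)) : τ x ≤ τ y := by
  have := h.nonneg hx; rwa [map_sub, sub_nonneg] at this

theorem one_nonneg : 0 ≤ τ 1 := h.nonneg Pos.one

theorem mul_nonneg (hx : Pos x) (hy : Pos y) : 0 ≤ τ (x * y) := by
  obtain ⟨z, rfl⟩ := hy
  rw [← mul_assoc, h.comm, ← mul_assoc]
  simpa using h.nonneg (hx.conj (Star.star z))

theorem nu_sq (x : M) : nu τ x ^ 2 = τ (Star.star x * x) := Real.sq_sqrt (h.pos x)

theorem nu_sq_sa (hx : IsSelfAdjoint x) : nu τ x ^ 2 = τ (x * x) := by rw [h.nu_sq, hx.star_eq]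

theorem nu_star (x : M) : nu τ (Star.star x) = nu τ x := by rw [nu, nu, star_star, h.comm]

theorem nu_one : nu τ 1 = √(τ 1) := by simp [nu]

theorem symm (x y : M) : τ (Star.star y * x) = τ (Star.star x * y) := by
  rw [← h.star, star_mul, star_star]

theorem cs (x y : M) : |τ (Star.star x * y)| ≤ nu τ x * nu τ y := by
  have key : ∀ t : ℝ, 0 ≤ τ (Star.star y * y) * (t * t) + 2 * τ (Star.star x * y) * t +
      τ (Star.star x * x) := fun t => by
    have := h.pos (x + t • y)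
    simp only [star_add, star_smul, star_trivial, add_mul, mul_add, map_add, smul_mul_assoc,
      mul_smul_comm, map_smul, smul_eq_mul, h.symm x y] at this
    linarith
  have := discrim_le_zero key
  rw [discrim] at this
  rw [nu, nu, ← Real.sqrt_mul (h.pos x)]
  exact Real.abs_le_sqrt (by nlinarith)

theorem cs' (x y : M) : |τ (x * y)| ≤ nu τ x * nu τ y := by
  simpa [h.nu_star] using h.cs (Star.star x) y

theorem nu_add_le (x y : M) : nu τ (x + y) ≤ nu τ x + nu τ y := by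
  refine abs_le_of_sq_le_sq' ?_ (add_nonneg (nu_nonneg _ _) (nu_nonneg _ _)) |>.2
  have := (abs_le.1 (h.cs x y)).2
  rw [add_sq, h.nu_sq, h.nu_sq, h.nu_sq]
  simp only [star_add, add_mul, mul_add, map_add, h.symm x y]
  linarith

theorem nu_sub_le (x y : M) : nu τ (x - y) ≤ nu τ x + nu τ y := by
  simpa [sub_eq_add_neg, nu_neg] using h.nu_add_le x (-y)

theorem nu_sum_le {ι : Type*} (s : Finset ι) (f : ι → M) :
    nu τ (∑ i ∈ s, f i) ≤ ∑ i ∈ s, nu τ (f i) :=
  Finset.le_sum_of_subadditive (nu τ) (nu_zero τ).le h.nu_add_le s f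

theorem nu_mul_le (b x : M) : nu τ (b * x) ≤ ‖b‖ * nu τ x := by
  refine abs_le_of_sq_le_sq' ?_ (_root_.mul_nonneg (norm_nonneg _) (nu_nonneg _ _)) |>.2
  have := h.nonneg ((Pos.of_norm (IsSelfAdjoint.star_mul_self b) le_rfl).conj x)
  rw [mul_pow, h.nu_sq, h.nu_sq, star_mul]
  simp only [mul_sub, sub_mul, map_sub, CStarRing.norm_star_mul_self, mul_smul_comm, smul_mul_assoc,
    map_smul, smul_eq_mul, mul_one, mul_assoc] at this ⊢
  linarith

theorem nu_mul_le' (x b : M) : nu τ (x * b) ≤ nu τ x * ‖b‖ := by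
  rw [← h.nu_star, star_mul, mul_comm, ← h.nu_star x, ← norm_star b]; exact h.nu_mul_le _ _

theorem nu_le (x : M) : nu τ x ≤ ‖x‖ * √(τ 1) := by
  simpa [h.nu_one] using h.nu_mul_le x 1

theorem abs_mul_le (hp : Pos p) (b : M) : |τ (b * p)| ≤ ‖b‖ * τ p := by
  obtain ⟨z, rfl⟩ := hp
  rw [← mul_assoc]
  refine (h.cs' _ _).trans ?_
  rw [← h.nu_sq, sq, ← mul_assoc]
  exact mul_le_mul_of_nonneg_right (by simpa [h.nu_star] using h.nu_mul_le b (Star.star z))
    (nu_nonneg _ _)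

theorem abs_le (x : M) : |τ x| ≤ ‖x‖ * τ 1 := by simpa using h.abs_mul_le Pos.one x

theorem comp {F : Type*} [FunLike F M' M] [AlgHomClass F ℂ M' M] [StarHomClass F M' M] (π : F) :
    IsRT (τ ∘ₗ rl π) :=
  ⟨fun x => by simp [map_star, h.star], fun x y => by simp [h.comm (π x)],
    fun x => by simpa [map_star] using h.pos (π x)⟩

theorem mulc {b : M} (hb : Pos b) (i : M' →⋆ₐ[ℂ] M) (hc : ∀ x, Commute (i x) b) :
    IsRT (τ ∘ₗ LinearMap.mulLeft ℝ b ∘ₗ rl i) :=
  ⟨fun x => by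
    simp only [LinearMap.comp_apply, rl_apply, LinearMap.mulLeft_apply]
    rw [← h.star (b * i x), star_mul, hb.sa.star_eq, map_star, h.comm],
  fun x y => by
    simp only [LinearMap.comp_apply, rl_apply, LinearMap.mulLeft_apply, map_mul]
    rw [← mul_assoc, h.comm, ← mul_assoc, (hc y).eq, mul_assoc],
  fun x => h.mul_nonneg hb ((Pos.sq x).map i)⟩

theorem pauli {X Z b : M} (hp : Pauli X Z) (hz : Commute b Z) : τ (b * X) = 0 := by
  have : τ (b * X) = -τ (b * X) := by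
    conv_lhs => rw [← mul_one (b * X), ← hp.zz, ← mul_assoc, h.comm, ← mul_assoc, ← mul_assoc,
      ← hz.eq, mul_assoc, mul_assoc, ← mul_assoc Z, hp.symm.xz, neg_mul, mul_assoc, hp.zz,
      mul_one, mul_neg, map_neg]
  linarith

theorem sq_le {q u : M} (h1 : Pos (q - u)) (h2 : Pos (q + u)) : τ (u * u) ≤ τ (q * q) := by
  have := h.mul_nonneg h1 h2
  simp only [sub_mul, mul_add, map_sub, map_add, h.comm q u] at this
  linarith

theorem eq_zero_of_comm (i : M' →⋆ₐ[ℂ] M) {y : M'} (hy : IsSelfAdjoint y)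
    (h0 : ∀ σ, IsRT σ → σ y = 0) {w : M} (hw : ∀ x, Commute (i x) w) : τ (w * i y) = 0 := by
  have k : ∀ b, Pos b → (∀ x, Commute (i x) b) → τ (b * i y) = 0 := fun b hb hc =>
    h0 _ (h.mulc hb i hc)
  have hw' : ∀ x, Commute (i x) (Star.star w) := fun x => by
    simpa [← map_star] using (hw (Star.star x)).star_star
  have s := IsSelfAdjoint.add_star_self w
  have e1 := k _ (Pos.of_norm' s le_rfl) fun x =>
    ((Commute.one_right _).smul_right _).add_right ((hw x).add_right (hw' x))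
  have e2 := k 1 Pos.one fun x => Commute.one_right _
  have e3 : τ (Star.star w * i y) = τ (w * i y) := by
    rw [← h.star, star_mul, star_star, (hy.map i).star_eq, h.comm]
  simp only [add_mul, map_add, smul_mul_assoc, map_smul, e2, e3, smul_zero] at e1
  linarith

end IsRT

end Vale.Agent.P095
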