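import Vale.Agent.P095.Basic

/-! Calculus of small elements in a family of tracial algebras. -/

open Filter Topology TopologicalSpace

namespace Vale.Agent.P095

open Vale.Agent.P101

/-- A family of traces with two scales. -/
structure Bk {J : Type*} (M : J → Type) [∀ j, CStarAlgebra (M j)] where
  τ : ∀ j, M j →ₗ[ℝ] ℝ
  ρ : J → ℝ
  s : J → ℝ
  rt : ∀ j, IsRT (τ j)
  ρ0 : ∀ j, 0 ≤ ρ j
  s0 : ∀ j, 0 ≤ s j

namespace Bk

variable {J : Type*} {M : J → Type} [∀ j, CStarAlgebra (M j)] (c : Bk M) {x y b : ∀ j, M j}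

/-- Bounded families. -/
def Bd (x : ∀ j, M j) : Prop := ∃ C : ℝ, 0 ≤ C ∧ ∀ j, ‖x j‖ ≤ C

/-- Moderate families. -/
def Md (x : ∀ j, M j) : Prop := ∃ C : ℝ, 0 ≤ C ∧ ∀ j, nu (c.τ j) (x j) ≤ C * c.s j

/-- Small families. -/
def Sm (x : ∀ j, M j) : Prop :=
  ∀ ε : ℝ, 0 < ε → ∃ C : ℝ, 0 ≤ C ∧ ∀ j, nu (c.τ j) (x j) ≤ C * c.ρ j + ε * c.s j

/-- Families with small trace. -/
def Tz (x : ∀ j, M j) : Prop :=
  ∀ ε : ℝ, 0 < ε → ∃ C : ℝ, 0 ≤ C ∧ ∀ j, |c.τ j (x j)| ≤ (C * c.ρ j + ε * c.s j) * c.s j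

variable {c}

theorem Bd.add (hx : Bd x) (hy : Bd y) : Bd (x + y) := by
  obtain ⟨C, h0, h⟩ := hx
  obtain ⟨C', h0', h'⟩ := hy
  exact ⟨C + C', by positivity, fun j => (norm_add_le _ _).trans (add_le_add (h j) (h' j))⟩

theorem Bd.mul (hx : Bd x) (hy : Bd y) : Bd (x * y) := by
  obtain ⟨C, h0, h⟩ := hx
  obtain ⟨C', h0', h'⟩ := hy
  exact ⟨C * C', by positivity, fun j => (norm_mul_le _ _).trans
    (mul_le_mul (h j) (h' j) (norm_nonneg _) h0)⟩

theorem Bd.one : Bd (1 : ∀ j, M j) := ⟨1, zero_le_one, fun _ => norm_one_le'⟩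

theorem Bd.smul (hx : Bd x) (r : ℝ) : Bd (r • x) := by
  obtain ⟨C, h0, h⟩ := hx
  refine ⟨|r| * C, by positivity, fun j => ?_⟩
  rw [Pi.smul_apply, norm_smul]
  exact mul_le_mul_of_nonneg_left (h j) (abs_nonneg _)

theorem Bd.neg (hx : Bd x) : Bd (-x) := by simpa using hx.smul (-1)

theorem Bd.star (hx : Bd x) : Bd (star x) := by
  obtain ⟨C, h0, h⟩ := hx
  exact ⟨C, h0, fun j => by rw [Pi.star_apply, norm_star]; exact h j⟩

theorem Bd.sum {ι : Type*} {t : Finset ι} {f : ι → ∀ j, M j} (h : ∀ i ∈ t, Bd (f i)) :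
    Bd (∑ i ∈ t, f i) :=
  Finset.sum_induction f Bd (fun _ _ => Bd.add) ⟨0, le_rfl, fun _ => by simp⟩ h

theorem Bd.pow (hx : Bd x) (n : ℕ) : Bd (x ^ n) := by
  induction n with
  | zero => simpa using Bd.one
  | succ n ih => simpa only [pow_succ] using ih.mul hx

theorem Md.add (hx : c.Md x) (hy : c.Md y) : c.Md (x + y) := by
  obtain ⟨C, h0, h⟩ := hx
  obtain ⟨C', h0', h'⟩ := hy
  exact ⟨C + C', by positivity, fun j => ((c.rt j).nu_add_le _ _).trans (by
    linarith [h j, h' j])⟩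

theorem Md.mul_left (hx : c.Md x) (hb : Bd b) : c.Md (b * x) := by
  obtain ⟨C, h0, h⟩ := hx
  obtain ⟨C', h0', h'⟩ := hb
  refine ⟨C' * C, by positivity, fun j => ((c.rt j).nu_mul_le _ _).trans ?_⟩
  rw [mul_assoc]
  exact mul_le_mul (h' j) (h j) (nu_nonneg _ _) h0'

theorem Md.star (hx : c.Md x) : c.Md (star x) := by
  obtain ⟨C, h0, h⟩ := hx
  exact ⟨C, h0, fun j => by rw [Pi.star_apply, (c.rt j).nu_star]; exact h j⟩

theorem Md.mul_right (hx : c.Md x) (hb : Bd b) : c.Md (x * b) := by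
  simpa using (hx.star.mul_left hb.star).star

theorem Md.smul (hx : c.Md x) (r : ℝ) : c.Md (r • x) := by
  simpa using hx.mul_left (Bd.one.smul r)

theorem Md.sub (hx : c.Md x) (hy : c.Md y) : c.Md (x - y) := by
  simpa [sub_eq_add_neg] using hx.add (hy.smul (-1))

theorem Md.sum {ι : Type*} {t : Finset ι} {f : ι → ∀ j, M j} (h : ∀ i ∈ t, c.Md (f i)) :
    c.Md (∑ i ∈ t, f i) :=
  Finset.sum_induction f c.Md (fun _ _ => Md.add) ⟨0, le_rfl, fun _ => by simp [nu_zero]⟩ h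

theorem Sm.zero : c.Sm 0 := fun ε hε => ⟨0, le_rfl, fun j => by
  simpa [nu_zero] using mul_nonneg hε.le (c.s0 j)⟩

theorem Sm.add (hx : c.Sm x) (hy : c.Sm y) : c.Sm (x + y) := fun ε hε => by
  obtain ⟨C, h0, h⟩ := hx (ε / 2) (by positivity)
  obtain ⟨C', h0', h'⟩ := hy (ε / 2) (by positivity)
  exact ⟨C + C', by positivity, fun j => ((c.rt j).nu_add_le _ _).trans (by
    linarith [h j, h' j])⟩

theorem Sm.mul_left (hx : c.Sm x) (hb : Bd b) : c.Sm (b * x) := fun ε hε => by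
  obtain ⟨C', h0', h'⟩ := hb
  obtain ⟨C, h0, h⟩ := hx (ε / (C' + 1)) (by positivity)
  refine ⟨(C' + 1) * C, by positivity, fun j => ((c.rt j).nu_mul_le _ _).trans ?_⟩
  refine (mul_le_mul ((h' j).trans (le_add_of_nonneg_right zero_le_one)) (h j) (nu_nonneg _ _)
    (by positivity)).trans_eq ?_
  field_simp

theorem Sm.star (hx : c.Sm x) : c.Sm (star x) := fun ε hε => by
  obtain ⟨C, h0, h⟩ := hx ε hε
  exact ⟨C, h0, fun j => by rw [Pi.star_apply, (c.rt j).nu_star]; exact h j⟩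

theorem Sm.mul_right (hx : c.Sm x) (hb : Bd b) : c.Sm (x * b) := by
  simpa using (hx.star.mul_left hb.star).star

theorem Sm.smul (hx : c.Sm x) (r : ℝ) : c.Sm (r • x) := by
  simpa using hx.mul_left (Bd.one.smul r)

theorem Sm.neg (hx : c.Sm x) : c.Sm (-x) := by simpa using hx.smul (-1)

theorem Sm.sub (hx : c.Sm x) (hy : c.Sm y) : c.Sm (x - y) := by
  simpa only [sub_eq_add_neg] using hx.add hy.neg

theorem Sm.sum {ι : Type*} {t : Finset ι} {f : ι → ∀ j, M j} (h : ∀ i ∈ t, c.Sm (f i)) :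
    c.Sm (∑ i ∈ t, f i) :=
  Finset.sum_induction f c.Sm (fun _ _ => Sm.add) Sm.zero h

theorem Sm.of_eq (hx : c.Sm x) (e : y = x) : c.Sm y := e ▸ hx

theorem Tz.add (hx : c.Tz x) (hy : c.Tz y) : c.Tz (x + y) := fun ε hε => by
  obtain ⟨C, h0, h⟩ := hx (ε / 2) (by positivity)
  obtain ⟨C', h0', h'⟩ := hy (ε / 2) (by positivity)
  refine ⟨C + C', by positivity, fun j => ?_⟩
  rw [Pi.add_apply, map_add]
  exact (abs_add_le _ _).trans (by linarith [h j, h' j])

theorem Tz.sum {ι : Type*} {t : Finset ι} {f : ι → ∀ j, M j} (h : ∀ i ∈ t, c.Tz (f i)) :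
    c.Tz (∑ i ∈ t, f i) :=
  Finset.sum_induction f c.Tz (fun _ _ => Tz.add) (fun ε hε => ⟨0, le_rfl, fun j => by
    simpa using mul_nonneg (mul_nonneg hε.le (c.s0 j)) (c.s0 j)⟩) h

theorem Tz.comm (h : c.Tz (x * y)) : c.Tz (y * x) := fun ε hε => by
  obtain ⟨C, h0, h⟩ := h ε hε
  exact ⟨C, h0, fun j => by rw [Pi.mul_apply, (c.rt j).comm]; exact h j⟩

theorem Tz.of_eq (hx : c.Tz x) (e : y = x) : c.Tz y := e ▸ hx

theorem Sm.tz (hx : c.Sm x) (hy : c.Md y) : c.Tz (x * y) := fun ε hε => by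
  obtain ⟨C', h0', h'⟩ := hy
  obtain ⟨C, h0, h⟩ := hx (ε / (C' + 1)) (by positivity)
  refine ⟨(C' + 1) * C, by positivity, fun j => ((c.rt j).cs' _ _).trans ?_⟩
  have h1 := c.s0 j
  have h2 := c.ρ0 j
  refine (mul_le_mul (h j) ((h' j).trans (mul_le_mul_of_nonneg_right
    (le_add_of_nonneg_right zero_le_one) h1)) (nu_nonneg _ _) (by positivity)).trans_eq ?_
  field_simp

theorem Md.tz (hy : c.Md y) (hx : c.Sm x) : c.Tz (y * x) := (hx.tz hy).comm

/-- Pointwise functional calculus. -/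
noncomputable def cf (f : ℝ → ℝ) (x : ∀ j, M j) : ∀ j, M j := fun j => cfc f (x j)

theorem spec_mem {A : Type} [CStarAlgebra A] {a : A} {R : ℝ} (h : ‖a‖ ≤ R) {t : ℝ}
    (ht : t ∈ spectrum ℝ a) : t ∈ Set.Icc (-R) R := by
  have h1 := spectrum.norm_le_norm_mul_of_mem ht
  have h2 : ‖a‖ * ‖(1 : A)‖ ≤ ‖a‖ * 1 := mul_le_mul_of_nonneg_left norm_one_le' (norm_nonneg _)
  exact abs_le.1 (h1.trans (by linarith))

theorem Bd.cf {f : ℝ → ℝ} (hf : Continuous f) (hx : Bd x) : Bd (cf f x) := by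
  obtain ⟨R, -, h⟩ := hx
  obtain ⟨C, hC⟩ := (isCompact_Icc (a := -R) (b := R)).exists_bound_of_continuousOn hf.continuousOn
  exact ⟨max C 0, le_max_right _ _, fun j => norm_cfc_le (le_max_right _ _) fun t ht =>
    (hC t (spec_mem (h j) ht)).trans (le_max_left _ _)⟩

theorem cf_mul {f g : ℝ → ℝ} (hf : Continuous f) (hg : Continuous g) (x : ∀ j, M j) :
    cf (fun t => f t * g t) x = cf f x * cf g x :=
  funext fun j => cfc_mul f g (x j) hf.continuousOn hg.continuousOn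

theorem cf_id (hx : IsSelfAdjoint x) : cf (fun t => t) x = x :=
  funext fun j => cfc_id' ℝ (x j) (congrFun hx j)

theorem cf_star (f : ℝ → ℝ) (x : ∀ j, M j) : star (cf f x) = cf f x :=
  funext fun j => (IsSelfAdjoint.cfc (f := f) (a := x j)).star_eq

theorem iw_poly {h a : ∀ j, M j} (hh : Bd h) (ha : Bd a) (e : c.Sm (h * x - x * a))
    (p : Polynomial ℝ) : c.Sm (Polynomial.aeval h p * x - x * Polynomial.aeval a p) := by
  have key : ∀ n : ℕ, c.Sm (h ^ n * x - x * a ^ n) := fun n => by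
    induction n with
    | zero => simpa using Sm.zero
    | succ n ih =>
      refine ((ih.mul_left hh).add (e.mul_right (ha.pow n))).of_eq ?_
      rw [pow_succ' h, pow_succ' a]
      noncomm_ring
  induction p using Polynomial.induction_on' with
  | add p q hp hq =>
    refine (hp.add hq).of_eq ?_
    rw [map_add, map_add]
    noncomm_ring
  | monomial n r =>
    refine ((key n).smul r).of_eq ?_
    rw [Polynomial.aeval_monomial, Polynomial.aeval_monomial, ← Algebra.smul_def,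
      ← Algebra.smul_def, smul_sub, smul_mul_assoc, mul_smul_comm]

theorem cf_poly (hx : IsSelfAdjoint x) (p : Polynomial ℝ) :
    cf p.eval x = Polynomial.aeval x p := funext fun j => by
  rw [cf, cfc_polynomial p (x j) (show IsSelfAdjoint (x j) from congrFun hx j)]
  exact Polynomial.aeval_algHom_apply (Pi.evalAlgHom ℝ M j) x p

theorem iw {h a : ∀ j, M j} (hh : Bd h) (ha : Bd a) (sh : IsSelfAdjoint h) (sa : IsSelfAdjoint a)
    (hx : c.Md x) (e : c.Sm (h * x - x * a)) {f : ℝ → ℝ} (hf : Continuous f) :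
    c.Sm (cf f h * x - x * cf f a) := fun ε hε => by
  obtain ⟨R, R0, hR⟩ := id hh
  obtain ⟨R', R0', hR'⟩ := id ha
  obtain ⟨C', h0', h'⟩ := hx
  obtain ⟨p, hp⟩ := exists_polynomial_near_of_continuousOn (-(R + R')) (R + R') f hf.continuousOn
    (ε / (4 * (C' + 1))) (by positivity)
  obtain ⟨C, h0, h1⟩ := iw_poly hh ha e p (ε / 2) (by positivity)
  rw [← cf_poly sh, ← cf_poly sa] at h1
  refine ⟨C, h0, fun j => ?_⟩
  have k : ∀ y : M j, ‖y‖ ≤ R + R' → ‖cfc p.eval y - cfc f y‖ ≤ ε / (4 * (C' + 1)) := fun y hy => by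
    rw [← cfc_sub _ _ y p.continuous.continuousOn hf.continuousOn]
    exact norm_cfc_le (by positivity) fun t ht => (hp t (spec_mem hy ht)).le
  have k1 := k (h j) (by linarith [hR j])
  have k2 := k (a j) (by linarith [hR' j])
  have e1 : (cf f h * x - x * cf f a) j = (cf p.eval h * x - x * cf p.eval a) j +
      (x j * (cfc p.eval (a j) - cfc f (a j)) - (cfc p.eval (h j) - cfc f (h j)) * x j) := by
    simp only [cf, Pi.sub_apply, Pi.mul_apply]
    noncomm_ring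
  have hs := c.s0 j
  have k3 : nu (c.τ j) (x j) ≤ (C' + 1) * c.s j := (h' j).trans (by linarith)
  have k4 := ((c.rt j).nu_mul_le' _ _).trans (mul_le_mul k3 k2 (norm_nonneg _) (by positivity))
  have k5 := ((c.rt j).nu_mul_le _ _).trans (mul_le_mul k1 k3 (nu_nonneg _ _) (by positivity))
  have k6 : (C' + 1) * c.s j * (ε / (4 * (C' + 1))) = ε / 4 * c.s j := by field_simp
  rw [e1]
  refine ((c.rt j).nu_add_le _ _).trans ((add_le_add (h1 j) ((c.rt j).nu_sub_le _ _)).trans ?_)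
  rw [mul_comm (ε / (4 * (C' + 1)))] at k5
  linarith

end Bk

end Vale.Agent.P095
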