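import Mathlib

/-! The definitions used in the statement of the result for P095. -/

open scoped TensorProduct Kronecker MultiplierAlgebra

namespace Vale.Agent.P095.S

/-- The operator norm of a finite sum of bounded operators. -/
noncomputable def normSum {E : Type} [NormedAddCommGroup E] [InnerProductSpace ℂ E] {n : ℕ}
    (T : Fin n → E →L[ℂ] E) : ℝ := ‖∑ i, T i‖

/-- The operator norm of `∑ S i ⊗ T i` on the Hilbertian tensor product `H ⊗ K`. -/
noncomputable def tensorNorm {H K : Type} [NormedAddCommGroup H] [InnerProductSpace ℂ H]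
    [NormedAddCommGroup K] [InnerProductSpace ℂ K] {n : ℕ}
    (S : Fin n → H →L[ℂ] H) (T : Fin n → K →L[ℂ] K) : ℝ :=
  normSum (E := H ⊗[ℂ] K) fun i => TensorProduct.mapL (S i) (T i)

/-- `π` is a unital star representation of `A` on the Hilbert space `H`. -/
def IsRep {A H : Type} [CStarAlgebra A] [NormedAddCommGroup H] [InnerProductSpace ℂ H]
    [CompleteSpace H] (π : A → H →L[ℂ] H) : Prop :=
  ∃ ρ : A →⋆ₐ[ℂ] (H →L[ℂ] H), ∀ a, π a = ρ a

/-- The minimal (spatial) C*-norm of `∑ a i ⊗ b i`. -/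
noncomputable def minNorm {A B : Type} [CStarAlgebra A] [CStarAlgebra B] {n : ℕ}
    (a : Fin n → A) (b : Fin n → B) : ℝ :=
  sSup {r | ∃ (H : Type) (_ : NormedAddCommGroup H) (_ : InnerProductSpace ℂ H)
    (_ : CompleteSpace H) (K : Type) (_ : NormedAddCommGroup K) (_ : InnerProductSpace ℂ K)
    (_ : CompleteSpace K) (π : A → H →L[ℂ] H) (σ : B → K →L[ℂ] K), IsRep π ∧ IsRep σ ∧
    r = tensorNorm (fun i => π (a i)) (fun i => σ (b i))}

/-- `C`, with the maps `ι = (a ↦ a ⊗ 1)` and `κ = (b ↦ 1 ⊗ b)`, is the minimal tensor product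
of the unital algebras `A` and `B`. -/
def IsMinTensor {A B C : Type} [CStarAlgebra A] [CStarAlgebra B] [CStarAlgebra C]
    (ι : A →⋆ₐ[ℂ] C) (κ : B →⋆ₐ[ℂ] C) : Prop :=
  (∀ a b, ι a * κ b = κ b * ι a) ∧
  Dense {x : C | ∃ (n : ℕ) (a : Fin n → A) (b : Fin n → B), x = ∑ i, ι (a i) * κ (b i)} ∧
  ∀ (n : ℕ) (a : Fin n → A) (b : Fin n → B), ‖∑ i, ι (a i) * κ (b i)‖ = minNorm a b

/-- The matrix algebra `M_p ⊗ M_q`. -/
abbrev Mat (p q : ℕ) : Type := Matrix (Fin p × Fin q) (Fin p × Fin q) ℂ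

/-- The dimension-drop algebra `I(p, q)`. -/
def DimDrop (p q : ℕ) : StarSubalgebra ℂ C(unitInterval, Mat p q) where
  carrier := {f | (∃ a : Matrix (Fin p) (Fin p) ℂ, f 0 = a ⊗ₖ (1 : Matrix (Fin q) (Fin q) ℂ)) ∧
    ∃ b : Matrix (Fin q) (Fin q) ℂ, f 1 = (1 : Matrix (Fin p) (Fin p) ℂ) ⊗ₖ b}
  mul_mem' := by
    rintro f g ⟨⟨a, ha⟩, b, hb⟩ ⟨⟨a', ha'⟩, b', hb'⟩
    exact ⟨⟨a * a', by simp [ha, ha', ← Matrix.mul_kronecker_mul]⟩,
      b * b', by simp [hb, hb', ← Matrix.mul_kronecker_mul]⟩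
  add_mem' := by
    rintro f g ⟨⟨a, ha⟩, b, hb⟩ ⟨⟨a', ha'⟩, b', hb'⟩
    exact ⟨⟨a + a', by simp [ha, ha', Matrix.add_kronecker]⟩,
      b + b', by simp [hb, hb', Matrix.kronecker_add]⟩
  algebraMap_mem' c :=
    ⟨⟨c • 1, by simp [Algebra.algebraMap_eq_smul_one, Matrix.smul_kronecker]⟩,
      c • 1, by simp [Algebra.algebraMap_eq_smul_one, Matrix.kronecker_smul]⟩
  star_mem' := by
    rintro f ⟨⟨a, ha⟩, b, hb⟩
    exact ⟨⟨star a, by simp [ha, Matrix.star_eq_conjTranspose, Matrix.conjTranspose_kronecker]⟩,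
      star b, by simp [hb, Matrix.star_eq_conjTranspose, Matrix.conjTranspose_kronecker]⟩

/-- `S` is the image of the star subalgebra `D` under an injective unital star homomorphism. -/
def IsCopy {B : Type} [Ring B] [StarRing B] [Algebra ℂ B] [StarModule ℂ B]
    (D : StarSubalgebra ℂ B) {Z : Type} [CStarAlgebra Z] (S : Set Z) : Prop :=
  ∃ j : D →⋆ₐ[ℂ] Z, Function.Injective j ∧ Set.range j = S

/-- `S` is a unital copy of a prime dimension-drop algebra. -/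
def IsPrimeDimDrop {Z : Type} [CStarAlgebra Z] (S : Set Z) : Prop :=
  ∃ p q : ℕ, 2 ≤ p ∧ 2 ≤ q ∧ Nat.Coprime p q ∧ IsCopy (DimDrop p q) S

/-- A tracial state. -/
def IsTracialState {Z : Type} [CStarAlgebra Z] (τ : Z →ₗ[ℂ] ℂ) : Prop :=
  τ 1 = 1 ∧ (∀ x, ∃ r : ℝ, 0 ≤ r ∧ τ (star x * x) = r) ∧ ∀ x y, τ (x * y) = τ (y * x)

/-- The Jiang-Su algebra: a simple unital inductive limit of prime dimension-drop algebras with
a unique tracial state. -/
def IsJS (Z : Type) [CStarAlgebra Z] : Prop :=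
  (∃ S : ℕ → Set Z, (∀ n, IsPrimeDimDrop (S n)) ∧ Monotone S ∧ Dense (⋃ n, S n)) ∧
  IsSimpleRing Z ∧ ∃! τ : Z →ₗ[ℂ] ℂ, IsTracialState τ

/-- `C` is `Z ⊗ Z`, and some isomorphism `Z → C` is approximately unitarily equivalent to
`d ↦ d ⊗ 1`. -/
def SSAVia (Z C : Type) [CStarAlgebra Z] [CStarAlgebra C] : Prop :=
  ∃ ι κ : Z →⋆ₐ[ℂ] C, IsMinTensor ι κ ∧ ∃ φ : Z ≃⋆ₐ[ℂ] C, ∀ (F : Finset Z) (ε : ℝ), 0 < ε →
    ∃ v ∈ unitary C, ∀ d ∈ F, ‖v * ι d * star v - φ d‖ < ε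

/-- Strongly self-absorbing algebras. -/
def IsSSA (Z : Type) [CStarAlgebra Z] : Prop := ∃ (C : Type) (_ : CStarAlgebra C), SSAVia Z C

/-- A simple C*-algebra: nonzero, without nontrivial closed two-sided ideals. -/
def IsSimple (A : Type) [NonUnitalCStarAlgebra A] : Prop :=
  Nontrivial A ∧ ∀ J : TwoSidedIdeal A, IsClosed (J : Set A) → J = ⊥ ∨ J = ⊤

/-- The norm on `A ⊙ D` given by a commuting pair of star homomorphisms to `E` is at most the
spatial norm given by faithful representations on `H` and `K`. -/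
def MaxLeMin (A D E H K : Type) [NonUnitalCStarAlgebra A] [CStarAlgebra D] [CStarAlgebra E]
    [NormedAddCommGroup H] [InnerProductSpace ℂ H] [CompleteSpace H] [NormedAddCommGroup K]
    [InnerProductSpace ℂ K] [CompleteSpace K] : Prop :=
  ∀ (π : A →⋆ₙₐ[ℂ] (H →L[ℂ] H)) (ρ : D →⋆ₐ[ℂ] (K →L[ℂ] K)),
    Function.Injective π → Function.Injective ρ →
    ∀ (μ : A →⋆ₙₐ[ℂ] E) (ν : D →⋆ₐ[ℂ] E), (∀ a d, μ a * ν d = ν d * μ a) →
    ∀ (n : ℕ) (a : Fin n → A) (d : Fin n → D),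
      ‖∑ i, μ (a i) * ν (d i)‖ ≤ tensorNorm (fun i => π (a i)) (fun i => ρ (d i))

/-- A nuclear C*-algebra: the maximal C*-norm on `A ⊙ D` is at most the minimal one. -/
def IsNuclear (A : Type) [NonUnitalCStarAlgebra A] : Prop :=
  ∀ (D E H K : Type) [CStarAlgebra D] [CStarAlgebra E] [NormedAddCommGroup H]
    [InnerProductSpace ℂ H] [CompleteSpace H] [NormedAddCommGroup K] [InnerProductSpace ℂ K]
    [CompleteSpace K], MaxLeMin A D E H K

/-- `P` is the minimal tensor product of the unitization of `A` and `Z`, and `C` is the closed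
span of the elements `t a z = a ⊗ z` in `P`. -/
def TensorIn {A Z C : Type} [NonUnitalCStarAlgebra A] [CStarAlgebra Z] [NonUnitalCStarAlgebra C]
    (t : A → Z → C) (P : Type) [CStarAlgebra P] : Prop :=
  ∃ (ι : Unitization ℂ A →⋆ₐ[ℂ] P) (κ : Z →⋆ₐ[ℂ] P) (j : C →⋆ₙₐ[ℂ] P), IsMinTensor ι κ ∧
    Function.Injective j ∧ (∀ a z, j (t a z) = ι (a : Unitization ℂ A) * κ z) ∧
    Dense {x : C | ∃ (n : ℕ) (a : Fin n → A) (z : Fin n → Z), x = ∑ i, t (a i) (z i)}

/-- `C`, with `t a z = a ⊗ z`, is the minimal tensor product of `A` and `Z`. -/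
def IsTensor {A Z C : Type} [NonUnitalCStarAlgebra A] [CStarAlgebra Z] [NonUnitalCStarAlgebra C]
    (t : A → Z → C) : Prop :=
  ∃ (P : Type) (_ : CStarAlgebra P), TensorIn t P

/-- The algebras are isomorphic. -/
def IsIso (A C : Type) [NonUnitalCStarAlgebra A] [NonUnitalCStarAlgebra C] : Prop :=
  Nonempty (A ≃⋆ₐ[ℂ] C)

/-- `A` is isomorphic to the minimal tensor product `A ⊗ Z`. -/
def IsStable (A Z : Type) [NonUnitalCStarAlgebra A] [CStarAlgebra Z] : Prop :=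
  ∃ (C : Type) (_ : NonUnitalCStarAlgebra C) (t : A → Z → C), IsTensor t ∧ IsIso A C

/-- Bounded real functions. -/
def Bdd {G : Type} (f : G → ℝ) : Prop := ∃ c : ℝ, ∀ x, |f x| ≤ c

/-- There is a left invariant mean on the bounded real functions on `G`. -/
def IsAmenable (G : Type) [Group G] : Prop :=
  ∃ m : (G → ℝ) → ℝ, m (fun _ => 1) = 1 ∧
    (∀ f f', Bdd f → Bdd f' → m (fun x => f x + f' x) = m f + m f') ∧
    (∀ (c : ℝ) f, Bdd f → m (fun x => c * f x) = c * m f) ∧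
    (∀ f, Bdd f → (∀ x, 0 ≤ f x) → 0 ≤ m f) ∧
    ∀ (g : G) f, Bdd f → m (fun x => f (g * x)) = m f

/-- Actions of `G` on `A` by automorphisms. -/
abbrev Actions (G A : Type) [Group G] [NonUnitalCStarAlgebra A] : Type := G →* (A ≃⋆ₐ[ℂ] A)

/-- The actions `α` and `β` are cocycle conjugate. The cocycle identity
`u (g h) = u g * β g (u h)` is written with the multipliers acting on elements of `C`; the
extension of `β g` sends a multiplier `m` to `c ↦ β g (m ((β g)⁻¹ c))`. -/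
def CocycleConj {G A C : Type} [Group G] [NonUnitalCStarAlgebra A] [NonUnitalCStarAlgebra C]
    (α : Actions G A) (β : Actions G C) : Prop :=
  ∃ (Φ : A ≃⋆ₐ[ℂ] C) (u : G → 𝓜(ℂ, C)), (∀ g, u g ∈ unitary 𝓜(ℂ, C)) ∧
    (∀ g h c, (u (g * h)).fst c = (u g).fst (β g ((u h).fst ((β g).symm c)))) ∧
    ∀ g a, (Φ (α g a) : 𝓜(ℂ, C)) = u g * (β g (Φ a) : 𝓜(ℂ, C)) * star (u g)

/-- The action `α ⊗ id` on `C = A ⊗ Z` exists and is cocycle conjugate to `α`. -/
def ConjToTensor {G A Z C : Type} [Group G] [NonUnitalCStarAlgebra A] [NonUnitalCStarAlgebra C]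
    (α : Actions G A) (t : A → Z → C) : Prop :=
  ∃ β : Actions G C, (∀ g a z, β g (t a z) = t (α g a) z) ∧ CocycleConj α β

end Vale.Agent.P095.S
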