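import Vale.Agent.P095.All
import Vale.Agent.P095.Stm

/-! The result in terms of the definitions of the statement. -/

namespace Vale.Agent.P095

theorem br_amen {G : Type} [Group G] (h : S.IsAmenable G) : IsAmenable G := by
  obtain ⟨m, h1, h2, h3, h4, h5⟩ := h
  have b : ∀ f : lp (fun _ : G => ℝ) ⊤, S.Bdd (f : G → ℝ) := fun f =>
    ⟨‖f‖, fun x => lp.norm_apply_le_norm ENNReal.top_ne_zero f x⟩
  exact ⟨⟨⟨fun f => m f, fun f f' => h2 _ _ (b f) (b f')⟩, fun c f => h3 c _ (b f)⟩, h1,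
    fun f => h4 _ (b f), fun g f f' e => (congrArg m (funext e)).trans (h5 g _ (b f))⟩

theorem br_ex : ∃ (Z : Type) (_ : CStarAlgebra Z), S.IsJS Z ∧ S.IsSSA Z := all_ex

theorem br_main (Z : Type) [CStarAlgebra Z] (h1 : S.IsJS Z) (h2 : S.IsSSA Z)
    (A : Type) [NonUnitalCStarAlgebra A] [TopologicalSpace.SeparableSpace A] (hs : S.IsSimple A)
    (hn : S.IsNuclear A) (hz : S.IsStable A Z) (G : Type) [Group G] [Countable G]
    (hG : S.IsAmenable G) (α : S.Actions G A) (C : Type) [NonUnitalCStarAlgebra C]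
    (t : A → Z → C) (ht : S.IsTensor t) : S.ConjToTensor α t :=
  all_main Z h1 h2 A hs hn hz G (br_amen hG) α C t ht

end Vale.Agent.P095
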