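import Vale.Agent.P101.Defs2

/-! Definitions for P095. -/

open scoped MultiplierAlgebra

namespace Vale.Agent.P095

open Vale.Agent.P101

/-- A simple C*-algebra: nonzero, without nontrivial closed two-sided ideals. -/
def IsSimple (A : Type) [NonUnitalCStarAlgebra A] : Prop :=
  Nontrivial A ∧ ∀ J : TwoSidedIdeal A, IsClosed (J : Set A) → J = ⊥ ∨ J = ⊤

/-- A nuclear C*-algebra: the maximal C*-norm on `A ⊙ D` (given by commuting pairs of star
homomorphisms) is at most the spatial one (given by faithful representations). -/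
def IsNuclear (A : Type) [NonUnitalCStarAlgebra A] : Prop :=
  ∀ (D E H K : Type) [CStarAlgebra D] [CStarAlgebra E] [NormedAddCommGroup H]
    [InnerProductSpace ℂ H] [CompleteSpace H] [NormedAddCommGroup K] [InnerProductSpace ℂ K]
    [CompleteSpace K] (π : A →⋆ₙₐ[ℂ] (H →L[ℂ] H)) (ρ : D →⋆ₐ[ℂ] (K →L[ℂ] K)),
    Function.Injective π → Function.Injective ρ →
    ∀ (μ : A →⋆ₙₐ[ℂ] E) (ν : D →⋆ₐ[ℂ] E), (∀ a d, μ a * ν d = ν d * μ a) →
    ∀ (n : ℕ) (a : Fin n → A) (d : Fin n → D),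
      ‖∑ i, μ (a i) * ν (d i)‖ ≤ tensorNorm (fun i => π (a i)) (fun i => ρ (d i))

/-- `C`, with `t a z = a ⊗ z`, is the minimal tensor product of `A` and `Z`: the closed span of
the elements `a ⊗ z` in the minimal tensor product of the unitization of `A` and `Z`. -/
def IsTensor {A Z C : Type} [NonUnitalCStarAlgebra A] [CStarAlgebra Z] [NonUnitalCStarAlgebra C]
    (t : A → Z → C) : Prop :=
  ∃ (P : Type) (_ : CStarAlgebra P) (ι : Unitization ℂ A →⋆ₐ[ℂ] P) (κ : Z →⋆ₐ[ℂ] P)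
    (j : C →⋆ₙₐ[ℂ] P), IsMinTensor ι κ ∧ Function.Injective j ∧
    (∀ a z, j (t a z) = ι (a : Unitization ℂ A) * κ z) ∧
    Dense {x : C | ∃ (n : ℕ) (a : Fin n → A) (z : Fin n → Z), x = ∑ i, t (a i) (z i)}

/-- `A` is isomorphic to the minimal tensor product `A ⊗ Z`. -/
def IsStable (A Z : Type) [NonUnitalCStarAlgebra A] [CStarAlgebra Z] : Prop :=
  ∃ (C : Type) (_ : NonUnitalCStarAlgebra C) (t : A → Z → C), IsTensor t ∧ Nonempty (A ≃⋆ₐ[ℂ] C)

/-- There is a left invariant mean on the bounded real functions on `G`. -/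
def IsAmenable (G : Type) [Group G] : Prop :=
  ∃ m : lp (fun _ : G => ℝ) ⊤ →ₗ[ℝ] ℝ, m 1 = 1 ∧ (∀ f, (∀ x, 0 ≤ f x) → 0 ≤ m f) ∧
    ∀ (g : G) (f f' : lp (fun _ : G => ℝ) ⊤), (∀ x, f' x = f (g * x)) → m f' = m f

/-- The actions `α` and `β` are cocycle conjugate. The cocycle identity
`u (g h) = u g * β g (u h)` is written with the multipliers acting on elements of `C`; the
extension of `β g` sends a multiplier `m` to `c ↦ β g (m ((β g)⁻¹ c))`. -/
def CocycleConj {G A C : Type} [Group G] [NonUnitalCStarAlgebra A] [NonUnitalCStarAlgebra C]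
    (α : G →* (A ≃⋆ₐ[ℂ] A)) (β : G →* (C ≃⋆ₐ[ℂ] C)) : Prop :=
  ∃ (Φ : A ≃⋆ₐ[ℂ] C) (u : G → 𝓜(ℂ, C)), (∀ g, u g ∈ unitary 𝓜(ℂ, C)) ∧
    (∀ g h c, (u (g * h)).fst c = (u g).fst (β g ((u h).fst ((β g).symm c)))) ∧
    ∀ g a, (Φ (α g a) : 𝓜(ℂ, C)) = u g * (β g (Φ a) : 𝓜(ℂ, C)) * star (u g)

end Vale.Agent.P095
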