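import Vale.Agent.P095.Defs

/-! Strongly self-absorbing algebras. -/

namespace Vale.Agent.P095

open Vale.Agent.P101

/-- There is an isomorphism `Z → Z ⊗ Z` that is approximately unitarily equivalent to
`d ↦ d ⊗ 1`. -/
def IsSSA (Z : Type) [CStarAlgebra Z] : Prop :=
  ∃ (C : Type) (_ : CStarAlgebra C) (ι κ : Z →⋆ₐ[ℂ] C), IsMinTensor ι κ ∧
    ∃ φ : Z ≃⋆ₐ[ℂ] C, ∀ (F : Finset Z) (ε : ℝ), 0 < ε →
      ∃ v ∈ unitary C, ∀ d ∈ F, ‖v * ι d * star v - φ d‖ < ε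

end Vale.Agent.P095
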