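import Vale.Agent.P095.Basic

/-! The main theorem from the steps. -/

open Filter Topology TopologicalSpace

namespace Vale.Agent.P095

open Vale.Agent.P101

theorem fin_ind {A Z C : Type} [AddCommMonoid C] [TopologicalSpace C] {t : A → Z → C}
    (hd : Dense {x : C | ∃ (n : ℕ) (a : Fin n → A) (z : Fin n → Z), x = ∑ i, t (a i) (z i)})
    (S : AddSubmonoid C) (hS : IsClosed (S : Set C)) (h : ∀ a z, t a z ∈ S) (x : C) : x ∈ S :=
  hd.induction (P := (· ∈ S)) (by rintro _ ⟨n, a, z, rfl⟩; exact sum_mem fun i _ => h _ _) hS x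

section

variable {B Z P : Type} [CStarAlgebra B] [CStarAlgebra Z] [CStarAlgebra P] {ι : B →⋆ₐ[ℂ] P}
  {κ : Z →⋆ₐ[ℂ] P}

theorem fin_ext (h : IsMinTensor ι κ) (θ : B →⋆ₐ[ℂ] B) :
    ∃ Θ : P →⋆ₐ[ℂ] P, (∀ b, Θ (ι b) = ι (θ b)) ∧ ∀ z, Θ (κ z) = κ z := by
  let E := StarAlgebra.adjoin ℂ (Set.range (ι.prod (ι.comp θ)) ∪ Set.range (κ.prod κ))
  have m1 : ∀ b, (ι b, ι (θ b)) ∈ E := fun b => StarAlgebra.subset_adjoin ℂ _ (.inl ⟨b, rfl⟩)
  have m2 : ∀ z, (κ z, κ z) ∈ E := fun b => StarAlgebra.subset_adjoin ℂ _ (.inr ⟨b, rfl⟩)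
  obtain ⟨Θ, hΘ⟩ := exists_of_graph ((StarAlgHom.fst ℂ P P).comp E.subtype)
    ((StarAlgHom.snd ℂ P P).comp E.subtype) (h.2.1.mono (by
      rintro _ ⟨n, a, z, rfl⟩
      exact ⟨∑ i, ⟨_, m1 (a i)⟩ * ⟨_, m2 (z i)⟩, by rw [map_sum]; rfl⟩)) fun t => by
      obtain ⟨n, a, z, e⟩ := exists_sum_of_adjoin _ _
        (fun a b => Prod.ext (h.1 a b) (h.1 (θ a) b)) t.2
      change ‖t.1.2‖ ≤ ‖t.1.1‖
      rw [e]
      simp only [Prod.snd_sum, Prod.fst_sum]
      refine (h.2.2 n (fun i => θ (a i)) z).trans_le (le_of_le_of_eq (Real.sSup_le ?_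
        (minNorm_nonneg _ _)) (h.2.2 n a z).symm)
      rintro _ ⟨H, _, _, _, K, _, _, _, π, σ, ⟨π', hπ⟩, ⟨σ', hσ⟩, rfl⟩
      simp only [hπ, hσ]
      exact le_minNorm (π'.comp θ) σ' a z
  exact ⟨Θ, fun b => hΘ ⟨_, m1 b⟩, fun z => hΘ ⟨_, m2 z⟩⟩

theorem fin_act {G : Type} [Group G] (h : IsMinTensor ι κ) (α : Act G B) :
    ∃ β : Act G P, (∀ g b, β g (ι b) = ι (α g b)) ∧ ∀ g z, β g (κ z) = κ z := by
  choose Θ h1 h2 using fun g => fin_ext h (α g : B →⋆ₐ[ℂ] B)
  have u : ∀ f f' : P →⋆ₐ[ℂ] P, (∀ b, f (ι b) = f' (ι b)) → (∀ z, f (κ z) = f' (κ z)) →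
      ∀ x, f x = f' x := fun f f' e1 e2 x =>
    fin_ind (t := fun b z => ι b * κ z) h.2.1 (AddMonoidHom.eqLocusM (f : P →+ P) f') (isClosed_eq (hom_cont f) (hom_cont f'))
      (fun b z => show f _ = f' _ by rw [map_mul, map_mul, e1, e2]) x
  exact ⟨mkAct Θ (u _ (StarAlgHom.id ℂ P) (by simp [h1]) (by simp [h2]))
    fun g g' => u ((Θ g).comp (Θ g')) _ (by simp [h1]) (by simp [h2]), h1, h2⟩

end

theorem fin_res {G C P : Type} [Group G] [NonUnitalCStarAlgebra C] [CStarAlgebra P]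
    (j : C →⋆ₙₐ[ℂ] P) (hj : Function.Injective j) (β' : Act G P)
    (h : ∀ g c, ∃ c', j c' = β' g (j c)) :
    ∃ β : G →* (C ≃⋆ₐ[ℂ] C), ∀ g c, β' g (j c) = j (β g c) := by
  choose θ hθ using h
  exact ⟨{ toFun := fun g =>
            { toFun := θ g
              invFun := θ g⁻¹
              left_inv := fun c => hj (by rw [hθ, hθ, act_inv'])
              right_inv := fun c => hj (by rw [hθ, hθ, act_inv])
              map_mul' := fun c c' => hj (by simp [hθ])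
              map_add' := fun c c' => hj (by simp [hθ])
              map_star' := fun c => hj (by simp [hθ, map_star])
              map_smul' := fun r c => hj (by simp [hθ]) }
           map_one' := StarAlgEquiv.ext fun c => hj ((hθ _ _).trans (by simp))
           map_mul' := fun g g' => StarAlgEquiv.ext fun c => hj ((hθ _ _).trans
             ((act_mul β' _ _ _).symm.trans ((congrArg _ (hθ _ _).symm).trans (hθ _ _).symm))) },
    fun g c => (hθ g c).symm⟩

/-- The algebra as an ideal of its unitization. -/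
noncomputable def finI (A : Type) [NonUnitalCStarAlgebra A] : TwoSidedIdeal (Unitization ℂ A) :=
  TwoSidedIdeal.ker (Unitization.fstHom ℂ A)

variable {A : Type} [NonUnitalCStarAlgebra A]

theorem inr_mem (a : A) : (a : Unitization ℂ A) ∈ finI A := (TwoSidedIdeal.mem_ker _).2 rfl

theorem finI_ex {b : Unitization ℂ A} (h : b ∈ finI A) : ∃ a : A, a = b :=
  ⟨b.snd, Unitization.ext ((TwoSidedIdeal.mem_ker _).1 h).symm rfl⟩

theorem fin_sys [SeparableSpace A] (h : IsSimple A) : Sys (Unitization ℂ A) (finI A) where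
  sep := DenseRange.separableSpace
    (f := fun x : ℂ × A => algebraMap ℂ (Unitization ℂ A) x.1 + (x.2 : Unitization ℂ A))
    (Function.Surjective.denseRange fun b => ⟨(b.fst, b.snd), b.inl_fst_add_inr_snd_eq⟩)
    (by fun_prop)
  closed := by
    convert (Unitization.isometry_inr (𝕜 := ℂ) (A := A)).isClosedEmbedding.isClosed_range
    exact Set.ext fun b => ⟨finI_ex, by rintro ⟨a, rfl⟩; exact inr_mem a⟩
  star x hx := by obtain ⟨a, rfl⟩ := finI_ex hx; exact Unitization.inr_star (R := ℂ) a ▸ inr_mem _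
  ne := by
    obtain ⟨a, ha⟩ := @exists_ne _ h.1 0
    exact ⟨a, inr_mem a, fun e => ha (Unitization.inr_injective (R := ℂ) e)⟩
  span b := ⟨b.fst, (TwoSidedIdeal.mem_ker _).2 (by rw [map_sub, AlgHomClass.commutes]; exact sub_self _)⟩
  simple J hJ le := by
    refine (h.2 (J.comap (Unitization.inrNonUnitalStarAlgHom ℂ A)) ?_).imp (fun e => ?_) fun e => ?_
    · convert hJ.preimage (Unitization.continuous_inr (𝕜 := ℂ) (A := A))
      exact Set.ext fun a => TwoSidedIdeal.mem_comap _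
    · refine eq_bot_iff.2 fun x hx => ?_
      obtain ⟨a, rfl⟩ := finI_ex (le hx)
      have : a ∈ (⊥ : TwoSidedIdeal A) := e ▸ (TwoSidedIdeal.mem_comap _).2 hx
      rw [(TwoSidedIdeal.mem_bot _).1 this]
      exact zero_mem _
    · refine le_antisymm le fun x hx => ?_
      obtain ⟨a, rfl⟩ := finI_ex hx
      exact (TwoSidedIdeal.mem_comap (Unitization.inrNonUnitalStarAlgHom ℂ A)).1
        (e ▸ TwoSidedIdeal.mem_top A)

theorem fin_nuc (h : IsNuclear A) : Nuc (finI A) := by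
  intro D E H K _ _ _ _ _ _ _ _ π ρ hπ hρ μ ν hc n a d ha
  choose a' e using fun i => finI_ex (ha i)
  simp only [← e]
  exact h D E H K (π.toNonUnitalStarAlgHom.comp (Unitization.inrNonUnitalStarAlgHom ℂ A)) ρ
    ((injective_iff_map_eq_zero _).2 fun x hx =>
      Unitization.inr_injective (R := ℂ) (hπ _ (inr_mem x) hx)) hρ
    (μ.toNonUnitalStarAlgHom.comp (Unitization.inrNonUnitalStarAlgHom ℂ A)) ν (fun _ _ => hc _ _)
    n a' d

theorem mainS (h1 : AmenS) (h2 : CtxS) (h3 : ZzS) (h4 : MidS) (h5 : UniS) (h6 : IntS) : MainS := by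
  classical
  obtain ⟨Z, _, hZ, zp, zc⟩ := h3
  refine ⟨Z, _, hZ.isJS, fun A _ _ hs hn ⟨C, _, t, ht, ⟨Φ⟩⟩ G _ _ hG α => ⟨C, _, t, ht, ?_⟩⟩
  obtain ⟨P, _, ι, κ, j, hm, hj, e, hd⟩ := ht
  have := hZ.nontrivial
  let α' : Act G (Unitization ℂ A) := mkAct (fun g => Unitization.starMap (α g : A →⋆ₙₐ[ℂ] A))
    (fun y => DFunLike.congr_fun ((congrArg _ (by ext; simp)).trans Unitization.starMap_id) y)
    fun g g' y => DFunLike.congr_fun ((Unitization.starMap_comp (φ := (α g' : A →⋆ₙₐ[ℂ] A))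
      (ψ := (α g : A →⋆ₙₐ[ℂ] A))).symm.trans (congrArg _ (by ext; simp))) y
  have hα : ∀ g (a : A), α' g a = α g a := fun g a => Unitization.starMap_inr _ _
  obtain ⟨c⟩ := h2 G _ (finI A) α' (fin_sys hs) fun g b hb => by
    obtain ⟨a, rfl⟩ := finI_ex hb; exact hα g a ▸ inr_mem _
  have iso := NonUnitalStarAlgHom.isometry j hj
  have cl : IsClosed (AddMonoidHom.mrange (j : C →+ P) : Set P) :=
    iso.isClosedEmbedding.isClosed_range
  have ts : ∀ x, j x ∈ tsp (finI A) ι κ := fun x => map_mem_closure iso.continuous (hd x) (by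
    rintro _ ⟨n, a, z, rfl⟩
    exact ⟨n, fun i => a i, z, fun i => inr_mem _, by simp [e]⟩)
  have li : ∀ a : A, Unitization.starLift (j.comp (Φ : A →⋆ₙₐ[ℂ] C)) a = j (Φ a) := fun a =>
    DFunLike.congr_fun (Unitization.starLift.symm_apply_apply (j.comp (Φ : A →⋆ₙₐ[ℂ] C))) a
  obtain ⟨f1, f2⟩ := h4 G _ _ α' c Z (h1 G hG) zc ⟨P, _,
    Unitization.starLift (j.comp (Φ : A →⋆ₙₐ[ℂ] C)), ι, κ, hm.1, fun b hb => by
      obtain ⟨a, rfl⟩ := finI_ex hb
      rw [li, iso.norm_map_of_map_zero (map_zero j), Unitization.norm_inr, StarAlgEquiv.norm_map],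
    fun b hb z => by
      obtain ⟨a, rfl⟩ := finI_ex hb
      exact ⟨Φ.symm (t a z), inr_mem _, by rw [li, Φ.apply_symm_apply, e]⟩,
    fun b hb => by
      obtain ⟨a, rfl⟩ := finI_ex hb
      exact li a ▸ ts _⟩ (fin_nuc hn)
  obtain ⟨β', b1, b2⟩ := fin_act hm α'
  obtain ⟨β, hβ⟩ := fin_res j hj β' fun g => fin_ind hd
    ((AddMonoidHom.mrange (j : C →+ P)).comap ((β' g : P →+ P).comp j))
    (cl.preimage ((hom_cont (β' g : P →⋆ₐ[ℂ] P)).comp iso.continuous)) fun a z =>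
      ⟨t (α g a) z, show j _ = β' g (j _) by rw [e, e, map_mul, b1, b2, hα]⟩
  have hl : ∀ x y, ∃ y', j y' = x * j y := fun x y => fin_ind (t := fun b z => ι b * κ z) hm.2.1
    ((AddMonoidHom.mrange (j : C →+ P)).comap (AddMonoidHom.mulRight (j y)))
    (cl.preimage (continuous_mul_right _)) (fun b z => fin_ind hd
      ((AddMonoidHom.mrange (j : C →+ P)).comap ((AddMonoidHom.mulLeft (ι b * κ z)).comp (j : C →+ P)))
      (cl.preimage ((continuous_const_mul (ι b * κ z)).comp iso.continuous)) (fun a w => by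
        obtain ⟨a', ha⟩ := finI_ex ((finI A).mul_mem_left b _ (inr_mem a))
        exact ⟨t a' (z * w), show j _ = _ * j _ by rw [e, e, hm.mul, ha]⟩) y) x
  have : SeparableSpace C := Φ.surjective.denseRange.separableSpace
    (StarAlgEquiv.isometry Φ).continuous
  refine ⟨β, fun g a z => hj (by rw [← hβ, e, e, map_mul, b1, b2, hα]),
    h6 G A C P (ι.toNonUnitalStarAlgHom.comp (Unitization.inrNonUnitalStarAlgHom ℂ A)) j α β β'
      (hm.injective.comp Unitization.inr_injective) hj (fun a => ⟨t a 1, by simp [e]⟩)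
      (fun y x => ⟨hl x y, (hl (star x) (star y)).elim fun y' h => ⟨star y', by
        rw [map_star, h, star_mul, star_star, map_star, star_star]⟩⟩)
      (fun g a => (b1 g a).trans (congrArg ι (hα g a))) hβ fun S T K ε hε => ?_⟩
  obtain ⟨w, hw, w1, w2, w3⟩ := h5 G _ _ α' c Z P ι κ β' (h1 G hG) zp f1 f2 hm.injective hm.1 b1 b2
    (S.image (↑)) (T.image j) K ε hε (by
      simp only [Finset.mem_image]; rintro _ ⟨x, -, rfl⟩; exact ts x)
  refine ⟨w, hw, fun a ha => w1 _ (Finset.mem_image_of_mem _ ha), w2, fun x hx => ?_⟩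
  obtain ⟨b, hb, h⟩ := w3 _ (Finset.mem_image_of_mem _ hx)
  obtain ⟨a, rfl⟩ := finI_ex hb
  exact ⟨a, h⟩

end Vale.Agent.P095
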