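import Mathlib

/-! Finite models of the free group. -/

namespace Vale.Agent.P095.Free

open FreeGroup

variable {α : Type} [DecidableEq α]

theorem head_of_le (i : α) (b : Bool) (v : FreeGroup α)
    (h : norm (mk [(i, b)] * v) ≤ norm v) : v.toWord.head? = some (i, !b) := by
  have e : (mk [(i, b)] * v).toWord = reduce ((i, b) :: v.toWord) := by
    conv_lhs => rw [← mk_toWord (x := v), mul_mk, toWord_mk]
    rfl
  rw [FreeGroup.norm, FreeGroup.norm, e, reduce.cons, reduce_toWord] at h
  rcases hv : v.toWord with _ | ⟨hd, tl⟩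
  · rw [hv] at h; simp at h
  · rw [hv] at h
    by_cases c : i = hd.1 ∧ b = !hd.2
    · obtain ⟨h1, h2⟩ := c
      simp [h1, h2]
    · simp only [c, if_false, List.length_cons] at h
      omega

theorem eq_of_le {i j : α} {v : FreeGroup α} (hi : norm (of i * v) ≤ norm v)
    (hj : norm (of j * v) ≤ norm v) : i = j := by
  have := (head_of_le i true v hi).symm.trans (head_of_le j true v hj)
  simpa using this

theorem eq_of_le' {i j : α} {v : FreeGroup α} (hi : norm ((of i)⁻¹ * v) ≤ norm v)
    (hj : norm ((of j)⁻¹ * v) ≤ norm v) : i = j := by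
  have := (head_of_le i false v hi).symm.trans (head_of_le j false v hj)
  simpa using this

theorem norm_of_mul_le (i : α) (v : FreeGroup α) : norm (of i * v) ≤ norm v + 1 := by
  have := norm_mul_le (of i) v
  rw [norm_of] at this; omega

theorem norm_inv_mul_le (i : α) (v : FreeGroup α) : norm ((of i)⁻¹ * v) ≤ norm v + 1 := by
  have := norm_mul_le (of i)⁻¹ v
  rw [norm_inv_eq, norm_of] at this; omega

theorem exists_hom [Finite α] (L : ℕ) : ∃ (G : Type) (_ : Group G) (_ : Finite G)
    (σ : FreeGroup α →* G), ∀ w w' : FreeGroup α, w.norm ≤ L → w'.norm ≤ L → σ w = σ w' → w = w' := by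
  have fin : Finite {w : FreeGroup α // norm w ≤ L} :=
    Set.Finite.to_subtype (s := {w : FreeGroup α | norm w ≤ L})
      (Set.Finite.preimage (f := toWord) toWord_injective.injOn (List.finite_length_le _ L))
  have ex : ∀ i : α, ∃ s : Equiv.Perm {w : FreeGroup α // norm w ≤ L},
      ∀ (w : FreeGroup α) (h1 : norm w ≤ L) (h2 : norm (of i * w) ≤ L),
        s ⟨w, h1⟩ = ⟨of i * w, h2⟩ := fun i => by
    have : Finite {w : FreeGroup α // norm w ≤ L ∧ norm (of i * w) ≤ L} :=
      Finite.of_injective (fun w => (⟨w.1, w.2.1⟩ : {w : FreeGroup α // norm w ≤ L}))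
        fun a b h => Subtype.ext (by simpa using h)
    obtain ⟨s, hs⟩ := Equiv.Perm.exists_extending_pair
      (fun w : {w : FreeGroup α // norm w ≤ L ∧ norm (of i * w) ≤ L} =>
        (⟨w.1, w.2.1⟩ : {w : FreeGroup α // norm w ≤ L})) (fun w => ⟨of i * w.1, w.2.2⟩)
      (fun a b h => Subtype.ext (by simpa using h))
      fun a b h => Subtype.ext (mul_left_cancel (congrArg Subtype.val h))
    exact ⟨s, fun w h1 h2 => hs ⟨w, h1, h2⟩⟩
  choose s hs using ex
  have key : ∀ l : List (α × Bool), ∀ h : l.length ≤ L,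
      lift s (mk l) ⟨1, norm_one.trans_le (Nat.zero_le _)⟩ = ⟨mk l, norm_mk_le.trans h⟩ := by
    intro l
    induction l with
    | nil => intro _; rfl
    | cons x l ih =>
      intro h
      obtain ⟨i, b⟩ := x
      have h' : l.length ≤ L := by simp at h; omega
      have e : mk ((i, b) :: l) = mk [(i, b)] * mk l := rfl
      have h2 : norm (mk [(i, b)] * mk l) ≤ L := norm_mk_le.trans h
      simp only [e, _root_.map_mul, Equiv.Perm.mul_apply, ih h']
      cases b
      · have e2 : mk [(i, false)] = (of i)⁻¹ := rfl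
        simp only [e2, _root_.map_inv, lift_apply_of]
        rw [Equiv.Perm.inv_eq_iff_eq, hs i _ _ (by simpa using norm_mk_le.trans h')]
        simp
      · have e2 : mk [(i, true)] = of i := rfl
        simp only [e2, lift_apply_of]
        exact hs i _ _ _
  refine ⟨_, inferInstance, inferInstance, lift s, fun w w' h h' e => ?_⟩
  have k1 := key w.toWord h
  have k2 := key w'.toWord h'
  simp only [mk_toWord] at k1 k2
  rw [e, k2] at k1
  exact (congrArg Subtype.val k1).symm

theorem exists_model [Finite α] (L : ℕ) : ∃ (N : ℕ) (Φ : FreeGroup α →* Equiv.Perm (Fin (N + 2))),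
    ∀ h (w w' : FreeGroup α), w.norm ≤ L → w'.norm ≤ L → Φ w h = Φ w' h → w = w' := by
  obtain ⟨G, _, _, σ, hσ⟩ := exists_hom (α := α) L
  have c : 2 ≤ Nat.card (G × Equiv.Perm Bool) := Finite.one_lt_card
  obtain ⟨N, hN⟩ := Nat.exists_eq_add_of_le' c
  have e : G × Equiv.Perm Bool ≃ Fin (N + 2) := Finite.equivFinOfCardEq hN
  refine ⟨N, e.permCongrHom.toMonoidHom.comp ((MulAction.toPermHom _ _).comp
    ((MonoidHom.inl G (Equiv.Perm Bool)).comp σ)), fun h w w' h1 h2 h3 => hσ w w' h1 h2 ?_⟩
  simpa using h3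

end Vale.Agent.P095.Free
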