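import Vale.Agent.P095.Basic

/-! Matrix forms and the spectral argument. -/

namespace Vale.Agent.P095.Free

open Finset Matrix

variable {ι : Type} [Fintype ι] {E : Type} [CStarAlgebra E]

/-- The form of a matrix. -/
noncomputable def form (f : ι → E) : Matrix ι ι ℂ →ₗ[ℂ] E where
  toFun M := ∑ p, ∑ q, M p q • (star (f p) * f q)
  map_add' M M' := by simp [add_smul, sum_add_distrib]
  map_smul' c M := by simp [smul_sum, smul_smul]

theorem form_apply (f : ι → E) (M : Matrix ι ι ℂ) :
    form f M = ∑ p, ∑ q, M p q • (star (f p) * f q) := rfl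

variable [DecidableEq ι]

theorem form_single (f : ι → E) (p q : ι) (c : ℂ) :
    form f (single p q c) = c • (star (f p) * f q) := by
  rw [form_apply, sum_eq_single p, sum_eq_single q]
  · simp
  · intro b _ hb; simp [single_apply_of_col_ne _ _ hb.symm]
  · simp
  · intro b _ hb; simp [single_apply_of_row_ne hb.symm]
  · simp

theorem form_one (f : ι → E) : form f 1 = ∑ p, star (f p) * f p := by
  simp [form_apply, one_apply, ite_smul]

theorem form_conj (f : ι → E) (V : Matrix ι ι ℂ) (c : ι → ℂ) :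
    form f (Vᴴ * diagonal c * V) = ∑ s, c s • (star (∑ p, V s p • f p) * ∑ p, V s p • f p) := by
  simp only [form_apply, star_sum, sum_mul_sum, smul_sum, mul_apply (M := Vᴴ * diagonal c),
    mul_diagonal, sum_smul, conjTranspose_apply]
  rw [eq_comm, sum_comm]
  refine sum_congr rfl fun p _ => ?_
  rw [sum_comm]
  refine sum_congr rfl fun q _ => sum_congr rfl fun s _ => ?_
  rw [star_smul, smul_mul_smul_comm, smul_smul]
  congr 1; ring

omit [DecidableEq ι] in
theorem form_col (M Y : Matrix ι ι ℂ) (p : ι) : form (fun q => M q p) Y = (Mᴴ * Y * M) p p := by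
  simp only [form_apply, mul_apply, sum_mul, conjTranspose_apply, smul_eq_mul]
  rw [sum_comm]
  exact sum_congr rfl fun a _ => sum_congr rfl fun b _ => by ring

theorem spec {Y : Matrix ι ι ℂ} (hY : Y.IsHermitian) : ∃ (V : Matrix ι ι ℂ) (t : ι → ℝ),
    Vᴴ * V = 1 ∧ V * Vᴴ = 1 ∧ Y = Vᴴ * diagonal (fun s => (t s : ℂ)) * V := by
  refine ⟨star (hY.eigenvectorUnitary : Matrix ι ι ℂ), hY.eigenvalues, ?_, ?_, ?_⟩
  · simp [← star_eq_conjTranspose]
  · simp [← star_eq_conjTranspose]
  · conv_lhs => rw [hY.spectral_theorem]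
    simp [← star_eq_conjTranspose]
    rfl

theorem tr {Y V : Matrix ι ι ℂ} {t : ι → ℝ} (h1 : Vᴴ * V = 1) (h2 : V * Vᴴ = 1)
    (hY : Y = Vᴴ * diagonal (fun s => (t s : ℂ)) * V) (R : ℝ) (j : ℕ) :
    ∑ p, form (fun q => (((R : ℂ) • 1 - Y) ^ j) q p) Y = ((∑ s, t s * ((R - t s) ^ j) ^ 2 : ℝ) : ℂ) := by
  have e : ((R : ℂ) • 1 - Y) ^ j = Vᴴ * diagonal (fun s => (((R - t s) ^ j : ℝ) : ℂ)) * V := by
    have e1 : (R : ℂ) • 1 - Y = Vᴴ * diagonal (fun s => ((R - t s : ℝ) : ℂ)) * V := by
      have : diagonal (fun s => ((R - t s : ℝ) : ℂ)) = (R : ℂ) • 1 - diagonal fun s => (t s : ℂ) := by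
        ext a b; by_cases h : a = b <;> simp [h]
      rw [this, mul_sub, sub_mul, ← hY, mul_smul_comm, smul_mul_assoc, mul_one, h1]
    induction j with
    | zero => simp [h1]
    | succ j ih =>
      rw [pow_succ, ih, e1]
      simp only [mul_assoc]
      rw [← mul_assoc V, h2, one_mul, ← mul_assoc (diagonal _), diagonal_mul_diagonal]
      simp [pow_succ]
  simp only [form_col]
  change trace _ = _
  rw [e, conjTranspose_mul, conjTranspose_mul, conjTranspose_conjTranspose, diagonal_conjTranspose]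
  conv_lhs => rw [hY]
  simp only [mul_assoc]
  rw [trace_mul_comm]
  simp only [mul_assoc]
  rw [h2, mul_one, ← mul_assoc V, h2, one_mul, ← mul_assoc V, h2, one_mul, diagonal_mul_diagonal,
    diagonal_mul_diagonal, trace_diagonal]
  push_cast
  exact sum_congr rfl fun s _ => by simp; ring

omit [DecidableEq ι] in
theorem count {t : ι → ℝ} {R η : ℝ} {j : ℕ} (hη : 0 < η) (ht : ∀ s, |t s| ≤ R)
    (h : 0 ≤ ∑ s, t s * ((R - t s) ^ j) ^ 2) :
    ((univ.filter fun s => t s ≤ -η).card : ℝ) * (η * ((R + η) ^ j) ^ 2) ≤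
      Fintype.card ι * (R * (R ^ j) ^ 2) := by
  have key : ∀ s, t s * ((R - t s) ^ j) ^ 2 ≤
      R * (R ^ j) ^ 2 - if t s ≤ -η then η * ((R + η) ^ j) ^ 2 else 0 := fun s => by
    have := abs_le.1 (ht s)
    have R0 : 0 ≤ R := (abs_nonneg _).trans (ht s)
    have p0 : 0 ≤ R * (R ^ j) ^ 2 := by positivity
    split_ifs with c
    · have : η * ((R + η) ^ j) ^ 2 ≤ -t s * ((R - t s) ^ j) ^ 2 := by
        gcongr <;> linarith
      linarith
    · rcases le_total (t s) 0 with c' | c'
      · have := mul_nonpos_of_nonpos_of_nonneg c' (sq_nonneg ((R - t s) ^ j))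
        linarith
      · rw [sub_zero]
        have : 0 ≤ R - t s := by linarith
        gcongr <;> linarith
  have := h.trans (sum_le_sum fun s _ => key s)
  rw [sum_sub_distrib, ← sum_filter, sum_const, sum_const, card_univ, nsmul_eq_mul, nsmul_eq_mul] at this
  linarith

omit [DecidableEq ι] in
theorem cs_pos (z : ι → E) :
    Pos ((Fintype.card ι : ℝ) • ∑ a, star (z a) * z a - star (∑ a, z a) * ∑ a, z a) := by
  convert (Pos.sum fun a (_ : a ∈ univ) => Pos.sum fun b (_ : b ∈ univ) =>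
    Pos.sq (z a - z b)).smul (r := 1 / 2) (by norm_num) using 1
  simp only [star_sub, sub_mul, mul_sub, sum_sub_distrib, sum_const, card_univ, ← mul_sum, ← sum_mul,
    ← star_sum, ← smul_sum, ← Nat.cast_smul_eq_nsmul ℝ]
  module

end Vale.Agent.P095.Free
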