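import Vale.Agent.P095.Fin
import Vale.Agent.P095.Defs2

/-! The main theorem for all models of the tensor product. -/

open Filter Topology TopologicalSpace

namespace Vale.Agent.P095

open Vale.Agent.P101

/-- The middle part, from the absence of characters. -/
def MidG : Prop := ∀ (G B : Type) [Group G] [Countable G] [CStarAlgebra B] (I : TwoSidedIdeal B)
  (α : Act G B) (c : Ctx I α), Fol G → IsEmpty (c.F →⋆ₐ[ℂ] ℂ) → Nuc I →
  Fresh (Fix c.γ) ∧ IsEmpty (Fix c.γ →⋆ₐ[ℂ] ℂ)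

theorem midG (h1 : CopyS) (h3 : ExcS) (h4 : CpaS) (h5 : PcsS) (h6 : QbS) (h7 : TuS)
    (h8 : GoodS) (h9 : Si1S) (h10 : Si2S) (h11 : Si3S) : MidG := by
  intro G B _ _ _ I α c hG ch hN
  obtain ⟨-, f1, f2⟩ := h1 G B I α c
  obtain ⟨l, l1, l2, l3⟩ := h3 B I c.sys
  have cp := h4 B I c.sys hN l l1 l2
  have pc := h5 G B I α c ch
  exact ⟨f2, h11 G B I α c hG (h10 G B I α c l l1 cp (h9 G B I α c l l1 l3 pc
    (h6 G B I α c l l1 cp f1 ch pc) (h8 G hG _ _ (h7 G hG _ _ f1 ch))))⟩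

theorem gen_tsp {A Z C P : Type} [NonUnitalCStarAlgebra A] [CStarAlgebra Z]
    [NonUnitalCStarAlgebra C] [CStarAlgebra P] {t : A → Z → C} {ι : Unitization ℂ A →⋆ₐ[ℂ] P}
    {κ : Z →⋆ₐ[ℂ] P} {j : C →⋆ₙₐ[ℂ] P} (hj : Function.Injective j)
    (e : ∀ a z, j (t a z) = ι (a : Unitization ℂ A) * κ z)
    (hd : Dense {x : C | ∃ (n : ℕ) (a : Fin n → A) (z : Fin n → Z), x = ∑ i, t (a i) (z i)})
    (x : C) : j x ∈ tsp (finI A) ι κ :=
  map_mem_closure (NonUnitalStarAlgHom.isometry j hj).continuous (hd x) (by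
    rintro _ ⟨n, a, z, rfl⟩
    exact ⟨n, fun i => a i, z, fun i => inr_mem _, by simp [e]⟩)

theorem gen_az {A Z : Type} [NonUnitalCStarAlgebra A] [CStarAlgebra Z] (h : IsStable A Z) :
    AZ (finI A) Z := by
  obtain ⟨C, _, t, ⟨P, _, ι, κ, j, hm, hj, e, hd⟩, ⟨Φ⟩⟩ := h
  have li : ∀ a : A, Unitization.starLift (j.comp (Φ : A →⋆ₙₐ[ℂ] C)) a = j (Φ a) := fun a =>
    DFunLike.congr_fun (Unitization.starLift.symm_apply_apply (j.comp (Φ : A →⋆ₙₐ[ℂ] C))) a
  refine ⟨P, _, Unitization.starLift (j.comp (Φ : A →⋆ₙₐ[ℂ] C)), ι, κ, hm.1, fun b hb => ?_,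
    fun b hb z => ?_, fun b hb => ?_⟩ <;> obtain ⟨a, rfl⟩ := finI_ex hb
  · rw [li, NonUnitalStarAlgHom.norm_map j hj, Unitization.norm_inr, StarAlgEquiv.norm_map]
  · exact ⟨Φ.symm (t a z), inr_mem _, by rw [li, Φ.apply_symm_apply, e]⟩
  · exact li a ▸ gen_tsp hj e hd _

theorem gen_core (h1 : AmenS) (h2 : CtxS) (h4 : MidG) (h5 : UniS) (h6 : IntS) {Z : Type}
    [CStarAlgebra Z] [Nontrivial Z] [SeparableSpace Z] (zp : ZP Z)
    (zc : ∀ (G B : Type) [Group G] [CStarAlgebra B] (I : TwoSidedIdeal B) (α : Act G B)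
      (c : Ctx I α), AZ I Z → IsEmpty (c.F →⋆ₐ[ℂ] ℂ))
    (A : Type) [NonUnitalCStarAlgebra A] [SeparableSpace A] (hs : IsSimple A) (hn : IsNuclear A)
    (hz : IsStable A Z) (G : Type) [Group G] [Countable G] (hG : IsAmenable G)
    (α : G →* (A ≃⋆ₐ[ℂ] A)) (C : Type) [NonUnitalCStarAlgebra C] (t : A → Z → C)
    (ht : IsTensor t) : ∃ β : G →* (C ≃⋆ₐ[ℂ] C), (∀ g a z, β g (t a z) = t (α g a) z) ∧
      CocycleConj α β := by
  classical
  obtain ⟨P, _, ι, κ, j, hm, hj, e, hd⟩ := ht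
  let α' : Act G (Unitization ℂ A) := mkAct (fun g => Unitization.starMap (α g : A →⋆ₙₐ[ℂ] A))
    (fun y => DFunLike.congr_fun ((congrArg _ (by ext; simp)).trans Unitization.starMap_id) y)
    fun g g' y => DFunLike.congr_fun ((Unitization.starMap_comp (φ := (α g' : A →⋆ₙₐ[ℂ] A))
      (ψ := (α g : A →⋆ₙₐ[ℂ] A))).symm.trans (congrArg _ (by ext; simp))) y
  have hα : ∀ g (a : A), α' g a = α g a := fun g a => Unitization.starMap_inr _ _
  obtain ⟨c⟩ := h2 G _ (finI A) α' (fin_sys hs) fun g b hb => by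
    obtain ⟨a, rfl⟩ := finI_ex hb; exact hα g a ▸ inr_mem _
  have iso := NonUnitalStarAlgHom.isometry j hj
  have cl : IsClosed (AddMonoidHom.mrange (j : C →+ P) : Set P) :=
    iso.isClosedEmbedding.isClosed_range
  obtain ⟨f1, f2⟩ := h4 G _ _ α' c (h1 G hG) (zc _ _ _ _ c (gen_az hz)) (fin_nuc hn)
  obtain ⟨β', b1, b2⟩ := fin_act hm α'
  obtain ⟨β, hβ⟩ := fin_res j hj β' fun g => fin_ind hd
    ((AddMonoidHom.mrange (j : C →+ P)).comap ((β' g : P →+ P).comp j))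
    (cl.preimage ((hom_cont (β' g : P →⋆ₐ[ℂ] P)).comp iso.continuous)) fun a z =>
      ⟨t (α g a) z, show j _ = β' g (j _) by rw [e, e, map_mul, b1, b2, hα]⟩
  have hl : ∀ x y, ∃ y', j y' = x * j y := fun x y => fin_ind (t := fun b z => ι b * κ z) hm.2.1
    ((AddMonoidHom.mrange (j : C →+ P)).comap (AddMonoidHom.mulRight (j y)))
    (cl.preimage (continuous_mul_const _)) (fun b z => fin_ind hd
      ((AddMonoidHom.mrange (j : C →+ P)).comap
        ((AddMonoidHom.mulLeft (ι b * κ z)).comp (j : C →+ P)))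
      (cl.preimage ((continuous_const_mul (ι b * κ z)).comp iso.continuous)) (fun a w => by
        obtain ⟨a', ha⟩ := finI_ex ((finI A).mul_mem_left b _ (inr_mem a))
        exact ⟨t a' (z * w), show j _ = _ * j _ by rw [e, e, hm.mul, ha]⟩) y) x
  have := (fin_sys hs).sep
  have : SeparableSpace C := isSeparable_univ_iff.1
    ((iso.isEmbedding.isSeparable_preimage
      (isSeparable_adjoin ((isSeparable_hom ι).union (isSeparable_hom κ)))).mono fun x _ => closure_mono (by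
        rintro _ ⟨n, a, b, -, rfl⟩
        exact sum_mem fun i _ => mul_mem (StarAlgebra.subset_adjoin ℂ _ (Or.inl ⟨_, rfl⟩))
          (StarAlgebra.subset_adjoin ℂ _ (Or.inr ⟨_, rfl⟩))) (gen_tsp hj e hd x))
  refine ⟨β, fun g a z => hj (by rw [← hβ, e, e, map_mul, b1, b2, hα]),
    h6 G A C P (ι.toNonUnitalStarAlgHom.comp (Unitization.inrNonUnitalStarAlgHom ℂ A)) j α β β'
      (hm.injective.comp Unitization.inr_injective) hj (fun a => ⟨t a 1, by simp [e]⟩)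
      (fun y x => ⟨hl x y, (hl (star x) (star y)).elim fun y' h => ⟨star y', by
        rw [map_star, h, star_mul, star_star, map_star, star_star]⟩⟩)
      (fun g a => (b1 g a).trans (congrArg ι (hα g a))) hβ fun S T K ε hε => ?_⟩
  obtain ⟨w, hw, w1, w2, w3⟩ := h5 G _ _ α' c Z P ι κ β' (h1 G hG) zp f1 f2 hm.injective hm.1 b1 b2
    (S.image (↑)) (T.image j) K ε hε (by
      simp only [Finset.mem_image]; rintro _ ⟨x, -, rfl⟩; exact gen_tsp hj e hd x)
  refine ⟨w, hw, fun a ha => w1 _ (Finset.mem_image_of_mem _ ha), w2, fun x hx => ?_⟩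
  obtain ⟨b, hb, h⟩ := w3 _ (Finset.mem_image_of_mem _ hx)
  obtain ⟨a, rfl⟩ := finI_ex hb
  exact ⟨a, h⟩

end Vale.Agent.P095
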