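import Vale.Agent.P095.Basic

/-! The middle part from the steps. -/

namespace Vale.Agent.P095

open Vale.Agent.P101

theorem midS (h1 : CopyS) (h2 : CharS) (h3 : ExcS) (h4 : CpaS) (h5 : PcsS) (h6 : QbS) (h7 : TuS)
    (h8 : GoodS) (h9 : Si1S) (h10 : Si2S) (h11 : Si3S) : MidS := by
  intro G B _ _ _ I α c Z _ hG hZ hA hN
  obtain ⟨-, f1, f2⟩ := h1 G B I α c
  have ch := h2 G B I α c Z hZ hA
  obtain ⟨l, l1, l2, l3⟩ := h3 B I c.sys
  have cp := h4 B I c.sys hN l l1 l2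
  have pc := h5 G B I α c ch
  exact ⟨f2, h11 G B I α c hG (h10 G B I α c l l1 cp (h9 G B I α c l l1 l3 pc
    (h6 G B I α c l l1 cp f1 ch pc) (h8 G hG _ _ (h7 G hG _ _ f1 ch))))⟩

end Vale.Agent.P095
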