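import Vale.Agent.P095.Basic

/-! Order lemmas for proper outerness. -/

open Filter Topology TopologicalSpace BoundedContinuousFunction
open scoped BoundedContinuousFunction

namespace Vale.Agent.P095

open Vale.Agent.P101

section ord

variable {M : Type*} [CStarAlgebra M] [PartialOrder M] [StarOrderedRing M]

theorem outA_conj {a q : M} (ha : IsSelfAdjoint a) (h : a⁻ * q = 0) : 0 ≤ star q * a * q := by
  have e : star q * a * q = star q * (a⁺ - a⁻) * q := by rw [CFC.posPart_sub_negPart a ha]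
  rw [e, mul_sub, sub_mul, mul_assoc _ a⁻, h, mul_zero, sub_zero]
  exact star_left_conjugate_nonneg (CFC.posPart_nonneg a) q

theorem outA_zero {a q : M} {δ : ℝ} (hδ : 0 < δ) (h : 0 ≤ star q * a * q)
    (ha : a ≤ -(δ • (1 : M))) : q = 0 := by
  have h1 := h.trans (star_left_conjugate_le_conjugate ha q)
  rw [mul_neg, neg_mul, mul_smul_comm, smul_mul_assoc, mul_one, neg_nonneg] at h1
  have h2 := le_antisymm h1 (smul_nonneg hδ.le (star_mul_self_nonneg q))
  rw [smul_eq_zero, or_iff_right hδ.ne'] at h2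
  exact CStarRing.star_mul_self_eq_zero_iff q |>.1 h2

theorem outA_gap {a : M} (ha : IsSelfAdjoint a) (h : ¬a ≤ 0) :
    ∃ s : ℝ, 0 < s ∧ ¬a ≤ s • (1 : M) := by
  rw [← map_zero (algebraMap ℝ M), le_algebraMap_iff_spectrum_le ha] at h
  push Not at h
  obtain ⟨t, ht, t0⟩ := h
  refine ⟨t / 2, by positivity, fun h' => ?_⟩
  rw [← Algebra.algebraMap_eq_smul_one, le_algebraMap_iff_spectrum_le ha] at h'
  linarith [h' t ht]

omit [PartialOrder M] [StarOrderedRing M] in
theorem outA_sa (r : ℝ) : IsSelfAdjoint (r • (1 : M)) := (IsSelfAdjoint.all r).smul (.one M)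

theorem outA_cut {Y Z : M} (hY : IsSelfAdjoint Y) (hZ : IsSelfAdjoint Z) (hc : Commute Y Z)
    (h : ¬Y - Z ≤ 0) : ∃ m : ℝ, (Y - m • 1)⁺ * (Z - m • 1)⁻ ≠ 0 := by
  by_contra H
  push Not at H
  obtain ⟨s, s0, hs⟩ := outA_gap (hY.sub hZ) h
  have a1 := (hY.sub hZ).sub (outA_sa s)
  rw [← sub_nonpos, ← CFC.posPart_eq_zero_iff _ a1] at hs
  set p := (Y - Z - s • 1)⁺ with hp
  have c1 : ∀ m : ℝ, Commute p (Z - m • 1)⁻ := fun m =>
    ((((hc.sub_left (Commute.refl Z)).sub_left ((Commute.one_left Z).smul_left s)).sub_right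
      ((Commute.one_right _).smul_right m)).cfcₙ_real _).symm.cfcₙ_real _ |>.symm
  have key : ∀ j : ℕ, (Z - (-‖Z‖ + j * (s / 2)) • (1 : M))⁻ * p = 0 := by
    intro j
    induction j with
    | zero =>
      rw [(CFC.negPart_eq_zero_iff _ (hZ.sub (outA_sa _))).2, zero_mul]
      have := hZ.neg_algebraMap_norm_le_self
      rw [Algebra.algebraMap_eq_smul_one, ← neg_smul] at this
      simpa using sub_nonneg.2 this
    | succ j ih =>
      set m := -‖Z‖ + j * (s / 2) with hm
      have e : -‖Z‖ + ((j + 1 : ℕ) : ℝ) * (s / 2) = m + s / 2 := by rw [hm]; push_cast; ring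
      rw [e]
      set u := (Z - (m + s / 2) • (1 : M))⁻ with hu
      have b1 := outA_conj (q := u * p) a1 (by
        rw [← (c1 _).eq, ← mul_assoc, CFC.negPart_mul_posPart, zero_mul])
      have b2 := outA_conj (q := u * p) (hZ.sub (outA_sa m)) (by
        rw [← (c1 _).eq, ← mul_assoc, ih, zero_mul])
      have b3 := outA_conj (q := u * p) (hY.sub (outA_sa (m + s / 2))).neg (by
        rw [CFC.negPart_neg, ← mul_assoc, H, zero_mul])
      refine outA_zero (half_pos s0) (a := -((s / 2) • 1)) ?_ le_rfl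
      convert add_nonneg (add_nonneg b1 b2) b3 using 1
      rw [← add_mul, ← add_mul, ← mul_add, ← mul_add]
      congr 2
      module
  obtain ⟨j, hj⟩ := exists_nat_ge ((2 * ‖Z‖ + 1) / (s / 2))
  rw [div_le_iff₀ (half_pos s0)] at hj
  refine hs (outA_zero one_pos (outA_conj (hZ.sub (outA_sa _)) (key j)) ?_)
  have := hZ.le_algebraMap_norm_self
  rw [Algebra.algebraMap_eq_smul_one] at this
  rw [sub_le_iff_le_add, ← neg_smul, ← add_smul]
  exact this.trans (smul_le_smul_of_nonneg_right (by linarith) zero_le_one)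

theorem outA_scalar [Nontrivial M] (h : IsEmpty (M →⋆ₐ[ℂ] ℂ)) :
    ∃ x : M, IsSelfAdjoint x ∧ x⁺ ≠ 0 ∧ (-x)⁺ ≠ 0 := by
  by_contra H
  push Not at H
  have k1 : ∀ x : M, IsSelfAdjoint x → ∃ s : ℝ, x = s • 1 := fun x hx => by
    have k : ∀ s ∈ spectrum ℝ x, ∀ t ∈ spectrum ℝ x, s ≤ t := fun s hs t ht => by
      have a1 := hx.sub (outA_sa ((s + t) / 2))
      by_cases h0 : (x - ((s + t) / 2) • 1)⁺ = 0
      · rw [CFC.posPart_eq_zero_iff _ a1, sub_nonpos, ← Algebra.algebraMap_eq_smul_one,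
          le_algebraMap_iff_spectrum_le hx] at h0
        linarith [h0 s hs]
      · have h1 := H _ a1 h0
        rw [CFC.posPart_eq_zero_iff _ a1.neg, neg_nonpos, sub_nonneg,
          ← Algebra.algebraMap_eq_smul_one, algebraMap_le_iff_le_spectrum hx] at h1
        linarith [h1 t ht]
    obtain ⟨s, hs⟩ : ∃ s, s ∈ spectrum ℝ x :=
      (CStarAlgebra.norm_or_neg_norm_mem_spectrum hx).elim (⟨_, ·⟩) (⟨_, ·⟩)
    refine ⟨s, ?_⟩
    rw [← cfc_id' ℝ x, cfc_congr (g := fun _ => s) fun t ht =>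
      le_antisymm (k t ht s hs) (k s hs t ht), cfc_const s x, Algebra.algebraMap_eq_smul_one]
  have k2 : Function.Surjective (StarAlgHom.ofId ℂ M) := fun x => by
    obtain ⟨s, hs⟩ := k1 _ (realPart x).2
    obtain ⟨t, ht⟩ := k1 _ (imaginaryPart x).2
    refine ⟨s + Complex.I * t, ?_⟩
    rw [← realPart_add_I_smul_imaginaryPart x, hs, ht, StarAlgHom.ofId_apply,
      Algebra.algebraMap_eq_smul_one, add_smul, mul_smul, Complex.coe_smul, Complex.coe_smul]
  exact h.false (StarAlgEquiv.ofBijective (StarAlgHom.ofId ℂ M)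
    ⟨(algebraMap ℂ M).injective, k2⟩).symm

end ord

section seq

variable {B : Type} [CStarAlgebra B]

/-- Evaluation of sequences. -/
def outEv (n : ℕ) : (ℕ →ᵇ B) →⋆ₐ[ℂ] B where
  toFun x := x n
  map_one' := rfl
  map_mul' _ _ := rfl
  map_zero' := rfl
  map_add' _ _ := rfl
  commutes' c := by simp [Algebra.algebraMap_eq_smul_one]
  map_star' _ := rfl

theorem outA_small {a z : B} (σ : B ≃⋆ₐ[ℂ] B) (ha : Pos a) {r ε : ℝ} (hr : 0 < r)
    (h1 : 2 * r < ‖a‖) (h2 : ‖a * z * σ a‖ ≤ ε * r ^ 2) : ∃ h, a * h ≠ 0 ∧ ∀ b₁ b₂,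
      ‖star (a * h * b₁) * z * σ (a * h * b₂)‖ ≤ ε * (‖a * h * b₁‖ * ‖a * h * b₂‖) := by
  let _ := CStarAlgebra.spectralOrder B
  have := CStarAlgebra.spectralOrderedRing B
  have sa := ha.sa
  have : Nontrivial B := nontrivial_of_ne a 0 (norm_pos_iff.1 (by linarith))
  let f : ℝ → ℝ := fun t => (max t r)⁻¹
  have m0 : ∀ t, 0 < max t r := fun t => hr.trans_le (le_max_right _ _)
  have cf : Continuous f := (continuous_id.max continuous_const).inv₀ fun t => (m0 t).ne'
  have e1 : a * cfc (fun t => max (t - r) 0) a = cfc (fun t => t * max (t - r) 0) a := by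
    rw [cfc_mul .., cfc_id' ℝ a]
  have e2 : a * cfc f a = cfc (fun t => t * f t) a := by rw [cfc_mul .., cfc_id' ℝ a]
  have e3 : a * cfc f a * (a * cfc (fun t => max (t - r) 0) a) =
      a * cfc (fun t => max (t - r) 0) a := by
    rw [e1, e2, ← cfc_mul ..]
    refine cfc_congr fun t _ => ?_
    rcases le_total t r with h | h
    · simp [max_eq_right (sub_nonpos.2 h)]
    · simp only [f, max_eq_left h, mul_inv_cancel₀ (hr.trans_le h).ne', one_mul]
  have e4 : ‖cfc f a‖ ≤ r⁻¹ := norm_cfc_le (by positivity) fun t _ => by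
    rw [Real.norm_of_nonneg (inv_nonneg.2 (m0 t).le)]
    exact inv_anti₀ hr (le_max_right _ _)
  have e5 : a * cfc f a = cfc f a * a := ((Commute.refl a).cfc_real f).symm.eq
  refine ⟨cfc (fun t => max (t - r) 0) a, fun h0 => ?_, fun b₁ b₂ => ?_⟩
  · have := norm_apply_le_norm_cfc (fun t => t * max (t - r) 0) a
      (CStarAlgebra.norm_mem_spectrum_of_nonneg (pos_iff.1 ha))
    rw [← e1, h0, norm_zero, norm_le_zero_iff, max_eq_left (by linarith)] at this
    nlinarith
  · set v := a * cfc (fun t => max (t - r) 0) a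
    have e : star (v * b₁) * z * σ (v * b₂) =
        star (v * b₁) * (cfc f a * (a * z * σ a) * σ (cfc f a)) * σ (v * b₂) := by
      conv_lhs => rw [← e3]
      rw [mul_assoc (a * cfc f a) v b₁, mul_assoc (a * cfc f a) v b₂, star_mul, star_mul a,
        sa.star_eq, IsSelfAdjoint.cfc.star_eq, map_mul, map_mul]
      simp only [mul_assoc]
    have b1 : ‖cfc f a * (a * z * σ a) * σ (cfc f a)‖ ≤ ε := by
      refine (norm_mul₃_le).trans ?_
      rw [StarAlgEquiv.norm_map]
      calc _ ≤ r⁻¹ * (ε * r ^ 2) * r⁻¹ := by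
            gcongr
            exact mul_nonneg (by positivity) ((norm_nonneg _).trans h2)
        _ = ε := by field_simp
    rw [e]
    refine (norm_mul₃_le).trans ?_
    rw [StarAlgEquiv.norm_map, norm_star, mul_comm ‖v * b₁‖, mul_assoc]
    gcongr

end seq

end Vale.Agent.P095
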