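import Vale.Agent.P095.Basic

/-! Comparison at the matrix level. -/

namespace Vale.Agent.P095

open Vale.Agent.P101

theorem qa_err {E : Type*} [CStarAlgebra E] {u : E} {ε : ℝ} (hε : 0 < ε) (h : ‖u‖ ≤ ε) (a b : E) :
    Pos (ε • (star a * a + star b * b) - (star a * u * b + star (star a * u * b))) := by
  have h1 := (Pos.of_norm (IsSelfAdjoint.star_mul_self u) (r := ε * ε) (by
    rw [CStarRing.norm_star_mul_self]; exact mul_self_le_mul_self (norm_nonneg _) h)).conj b
  have := ((Pos.sq (ε • a - u * b)).add h1).smul (inv_pos.2 hε).le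
  rwa [show ε⁻¹ • (star (ε • a - u * b) * (ε • a - u * b) + star b * ((ε * ε) • 1 - star u * u) * b) =
    (ε⁻¹ * ε) • (ε • (star a * a + star b * b) - (star a * u * b + star (star a * u * b))) by
      simp only [star_sub, star_smul, star_trivial, star_mul, star_star, mul_sub, sub_mul,
        smul_mul_assoc, mul_smul_comm, mul_assoc, one_mul]; module,
    inv_mul_cancel₀ hε.ne', one_smul] at this

theorem qa_fin {E H κ ρ : Type} [CStarAlgebra E] [Fintype H] [Fintype κ] [Fintype ρ]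
    (π : κ → Equiv.Perm H) (f : H → E) (F : ρ → E) (x : κ → E) (p : κ → κ → E) {y q c s : E}
    {ε δ η' η : ℝ} (hε : 0 < ε) (hδ : 0 < δ) (h0 : 0 ≤ η')
    (hη : 2 * ε * (Fintype.card κ : ℝ) ^ 2 + δ + η' ≤ η) (hp : ∀ i j, ‖p i j - star (x i) * x j‖ ≤ ε)
    (hq : ‖∑ i, star (x i) * x i - q‖ ≤ δ) (hy : Pos (∑ i, star (x i) * x i - y))
    (hc : IsSelfAdjoint c) (hs : Pos (η' • 1 + s - c))
    (hF : Pos (∑ h, star (f h) * f h - ∑ t, star (F t) * F t))
    (hP : Pos ((2 : ℝ) • ∑ h, ∑ i, ∑ j, star (f (π i h)) * p i j * f (π j h) -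
      ∑ h, star (f h) * q * f h + ∑ t, star (F t) * c * F t)) :
    Pos ((2 : ℝ) • ∑ h, star (∑ i, x i * f (π i h)) * ∑ i, x i * f (π i h) +
      ∑ t, star (F t) * s * F t - ∑ h, star (f h) * y * f h + η • ∑ h, star (f h) * f h) := by
  set S := ∑ i, star (x i) * x i with hS
  have sS : IsSelfAdjoint S := (Pos.sum fun i _ => Pos.sq (x i)).sa
  have h1 := Pos.sum (s := Finset.univ) fun h _ => Pos.sum (s := Finset.univ) fun i _ =>
    Pos.sum (s := Finset.univ) fun j _ => qa_err hε (hp i j) (f (π i h)) (f (π j h))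
  have h2 := Pos.sum (s := Finset.univ) fun h _ => qa_err hδ hq (f h) (f h)
  have h3 := Pos.sum (s := Finset.univ) fun h _ => hy.conj (f h)
  have h4 := Pos.sum (s := Finset.univ) fun t _ => hs.conj (F t)
  have h5 : Pos (∑ h, star (f h) * f h) := Pos.sum fun h _ => Pos.sq _
  have e1 : ∀ i, ∑ h, star (f (π i h)) * f (π i h) = ∑ h, star (f h) * f h := fun i =>
    Equiv.sum_comp (π i) fun h => star (f h) * f h
  have e2 : ∑ h, ∑ i, star (f (π i h)) * f (π i h) = (Fintype.card κ : ℝ) • ∑ h, star (f h) * f h := by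
    rw [Finset.sum_comm]; simp only [e1, Finset.sum_const, Finset.card_univ, Nat.cast_smul_eq_nsmul]
  set T := ∑ h, star (∑ i, x i * f (π i h)) * ∑ i, x i * f (π i h) with hT
  have sT : star T = T := (Pos.sum fun h _ => Pos.sq _).sa
  have e3 : ∑ h, ∑ i, ∑ j, star (f (π i h)) * (star (x i) * x j) * f (π j h) = T := by
    simp only [hT, star_sum, Finset.sum_mul_sum, star_mul, mul_assoc]
  have e4 : star (∑ h, star (f h) * S * f h) = ∑ h, star (f h) * S * f h := by
    simp only [star_sum, star_mul, star_star, sS.star_eq, mul_assoc]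
  have e5 : star (∑ t, star (F t) * c * F t) = ∑ t, star (F t) * c * F t := by
    simp only [star_sum, star_mul, star_star, hc.star_eq, mul_assoc]
  have hP' : Pos (star _) := hP.sa.star_eq.symm ▸ hP
  simp only [mul_sub, sub_mul, mul_add, add_mul, Finset.sum_sub_distrib, Finset.sum_add_distrib,
    ← Finset.smul_sum, ← star_sum, Finset.sum_const, Finset.card_univ, ← Nat.cast_smul_eq_nsmul ℝ,
    e2, e3, star_sub, star_add, star_smul, star_trivial, sT, e4, e5, mul_smul_comm, smul_mul_assoc,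
    mul_one] at h1 h2 h3 h4 hP'
  have := (((((((hP.add hP').add (h1.smul zero_le_two)).add h2).smul (r := 1 / 2) (by norm_num)).add
    h3).add h4).add (hF.smul h0)).add (h5.smul (sub_nonneg.2 hη))
  refine (congrArg Pos ?_).mp this
  module

section

variable {B : Type} [CStarAlgebra B]

/-- The approximating map is real linear. -/
noncomputable def qaL (l : B →L[ℂ] ℂ) {n k : ℕ} (d : Fin n → B) (c : Fin k → Fin n → B) :
    B →ₗ[ℝ] B where
  toFun := cpm l d c
  map_add' x y := by simp only [cpm, mul_add, add_mul, map_add, add_smul, Finset.sum_add_distrib]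
  map_smul' r x := by
    simp only [cpm, ← Complex.coe_smul, mul_smul_comm, smul_mul_assoc, map_smul, smul_assoc,
      Finset.smul_sum, RingHom.id_apply]

theorem qa_plug {E : Type} [CStarAlgebra E] (μ : B →⋆ₐ[ℂ] E) (l : B →L[ℂ] ℂ) {n k : ℕ}
    {κ H ρ : Type} [Fintype κ] [Fintype H] [Fintype ρ] (d : Fin n → B) (c : Fin k → Fin n → B)
    (x : κ → κ → B) (π : κ → H → H) (Ξ : ρ → H → ℂ) (f : H → E) (z : B) (η C : ℝ) :
    ∑ m, (∑ h, ∑ a, ∑ b, (∑ i, ∑ j, (2 * l (star (d a) * x i j * d b)) •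
        (star (μ (c m a) * f (π i h)) * (μ (c m b) * f (π j h))) -
      l (star (d a) * z * d b) • (star (μ (c m a) * f h) * (μ (c m b) * f h))) +
      η • ∑ h, ∑ a, star (μ (c m a) * f h) * (μ (c m a) * f h) +
      C • ∑ a, ∑ s, star (∑ h, Ξ s h • (μ (c m a) * f h)) * ∑ h, Ξ s h • (μ (c m a) * f h)) =
    (2 : ℝ) • ∑ h, ∑ i, ∑ j, star (f (π i h)) * μ (cpm l d c (x i j)) * f (π j h) -
      ∑ h, star (f h) * μ (cpm l d c z - η • ∑ m, ∑ a, star (c m a) * c m a) * f h +
      ∑ s, star (∑ h, Ξ s h • f h) * μ (C • ∑ m, ∑ a, star (c m a) * c m a) * ∑ h, Ξ s h • f h := by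
  have c1 : ∀ (j : ℕ) (g : Fin j → κ → E), ∑ a, ∑ i, g a i = ∑ i, ∑ a, g a i :=
    fun _ _ => Finset.sum_comm
  have c2 : ∀ (j : ℕ) (g : Fin j → H → E), ∑ a, ∑ i, g a i = ∑ i, ∑ a, g a i :=
    fun _ _ => Finset.sum_comm
  have c3 : ∀ (j : ℕ) (g : Fin j → ρ → E), ∑ a, ∑ i, g a i = ∑ i, ∑ a, g a i :=
    fun _ _ => Finset.sum_comm
  have e1 : ∀ (w : B) (a b : E), star a * μ (cpm l d c w) * b = ∑ m, ∑ s, ∑ t,
      l (star (d s) * w * d t) • (star (μ (c m s) * a) * (μ (c m t) * b)) := fun w a b => by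
    simp only [cpm, map_sum, map_smul, map_mul, map_star, Finset.mul_sum, Finset.sum_mul, star_mul,
      mul_smul_comm, smul_mul_assoc, mul_assoc]
  have e2 : ∀ a : E, star a * μ (∑ m, ∑ s, star (c m s) * c m s) * a =
      ∑ m, ∑ s, star (μ (c m s) * a) * (μ (c m s) * a) := fun a => by
    simp only [map_sum, map_mul, map_star, Finset.mul_sum, Finset.sum_mul, star_mul, mul_assoc]
  have e3 : ∀ (w : E) s, ∑ h, Ξ s h • (w * f h) = w * ∑ h, Ξ s h • f h := fun w s => by
    simp only [Finset.mul_sum, mul_smul_comm]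
  have e4 : ∀ (t : ℂ) (w : E), (2 * t) • w = (2 : ℝ) • t • w := fun t w => by
    rw [mul_smul, two_smul, two_smul]
  simp only [e3, e4, map_sub, map_rsmul, mul_sub, sub_mul, mul_smul_comm, smul_mul_assoc, e1, e2,
    Finset.sum_sub_distrib, Finset.sum_add_distrib, ← Finset.smul_sum, c1, c2, c3]
  abel

theorem qa_x {I : TwoSidedIdeal B} (h1 : SimpS) (hI : Sys B I) {g e : B} (hg : g ∈ I) (g0 : g ≠ 0)
    (he : e ∈ I) (se : IsSelfAdjoint e) : ∃ C : ℝ, 0 ≤ C ∧ ∀ (k : ℕ) (z : Fin k → B),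
      (∀ i, e * z i = z i) → ∃ (k' : ℕ) (w : Fin k' → B),
        Pos (∑ i, star (g * w i) * (g * w i) - ∑ i, star (z i) * z i) ∧
        ‖∑ i, g * w i * star (g * w i)‖ ≤ C * ‖∑ i, z i * star (z i)‖ := by
  obtain ⟨m, v, hv⟩ := h1 B I hI g hg g0 (e * e) (I.mul_mem_left _ _ he)
    (by simpa [se.star_eq] using IsSelfAdjoint.star_mul_self e) (1 / 2) (by norm_num)
  have s2 : √2 * √2 = 2 := Real.mul_self_sqrt zero_le_two
  refine ⟨2 * ‖∑ j, g * v j * star (g * v j)‖, by positivity, fun k z hz => ⟨m * k,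
    fun i => √2 • (v (finProdFinEquiv.symm i).1 * z (finProdFinEquiv.symm i).2), ?_, ?_⟩⟩
  · rw [finProdFinEquiv.symm.sum_comp fun p : Fin m × Fin k =>
      star (g * √2 • (v p.1 * z p.2)) * (g * √2 • (v p.1 * z p.2)), Fintype.sum_prod_type,
      Finset.sum_comm, ← Finset.sum_sub_distrib]
    refine Pos.sum fun i _ => (congrArg Pos ?_).mp ((hv.conj (z i)).smul zero_le_two)
    have : star (z i) * e = star (z i) := by rw [← se.star_eq, ← star_mul, hz]
    simp only [mul_sub, sub_mul, mul_add, add_mul, Algebra.algebraMap_eq_smul_one, mul_smul_comm,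
      smul_mul_assoc, star_smul, star_trivial, smul_smul, s2, ← Finset.smul_sum, Finset.mul_sum,
      Finset.sum_mul, star_mul, mul_assoc, hz, one_mul]
    module
  · rw [finProdFinEquiv.symm.sum_comp fun p : Fin m × Fin k =>
      g * √2 • (v p.1 * z p.2) * star (g * √2 • (v p.1 * z p.2)), Fintype.sum_prod_type]
    have pz : Pos (∑ i, z i * star (z i)) := Pos.sum fun i _ => by simpa using Pos.sq (star (z i))
    have e1 : ∑ j, ∑ i, g * √2 • (v j * z i) * star (g * √2 • (v j * z i)) =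
        (2 : ℝ) • ∑ j, star (star (g * v j)) * (∑ i, z i * star (z i)) * star (g * v j) := by
      simp only [mul_smul_comm, smul_mul_assoc, star_smul, star_trivial, smul_smul, s2, star_star,
        ← Finset.smul_sum, Finset.mul_sum, Finset.sum_mul, star_mul, mul_assoc]
    have := (Pos.sum (s := Finset.univ) fun j _ => pz.conj (star (g * v j))).norm_le
      (y := ‖∑ i, z i * star (z i)‖ • ∑ j, g * v j * star (g * v j)) (by
        simpa only [mul_sub, sub_mul, mul_smul_comm, smul_mul_assoc, mul_one, star_star,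
          Finset.sum_sub_distrib, ← Finset.smul_sum] using Pos.sum (s := Finset.univ) fun j _ =>
            (Pos.of_norm pz.sa le_rfl).conj (star (g * v j)))
    rw [e1, norm_smul, Real.norm_two]
    rw [norm_smul, norm_norm] at this
    linarith

end

theorem qaS (h1 : SimpS) (h2 : CesS) (h3 : FreeS) : QaS := by
  classical
  intro B _ I l hI hl hc g₁ m₁ g₂ m₂ n₁ n₂ e me se η hη
  obtain ⟨C₁, c₁, hC⟩ := qa_x h1 hI m₁ n₁ me se.sa
  have hγ : 0 < η / (120 * C₁ + 1) := by positivity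
  refine ⟨_, hγ, fun y py ey cy => ?_⟩
  obtain ⟨k₀, z, hz, rfl, nz⟩ := h2 B e y _ se.sa py ey hγ cy
  obtain ⟨k, w, hw, nw⟩ := hC k₀ z fun i => (hz i).1
  have hε : 0 < η / (8 * k ^ 2 + 4 * k + η) := by positivity
  have hε1 : η / (8 * k ^ 2 + 4 * k + η) ≤ 1 := (div_le_one (by positivity)).2 (by
    rw [le_add_iff_nonneg_left]; positivity)
  have hε2 : η / (8 * k ^ 2 + 4 * k + η) * (8 * k ^ 2 + 4 * k) ≤ η := by
    rw [div_mul_eq_mul_div, div_le_iff₀ (by positivity)]; nlinarith
  generalize η / (8 * k ^ 2 + 4 * k + η) = ε at hε hε1 hε2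
  obtain ⟨n, k', d, c, mc, n1, hu⟩ := hc (Finset.univ.image fun p : Fin k × Fin k =>
    star (g₁ * w p.1) * (g₁ * w p.2)) (by
      simp only [Finset.mem_image]
      rintro _ ⟨p, -, rfl⟩
      exact I.mul_mem_left _ _ (I.mul_mem_right _ _ m₁)) ε hε
  replace hu := fun i j => hu _ (Finset.mem_image_of_mem _ (Finset.mem_univ (i, j)))
  set c₀ := ∑ m, ∑ a, star (c m a) * c m a with hc₀
  obtain ⟨C, c0, hF⟩ := h3 B l hl k n (fun i => g₁ * w i) d (η / 12) (η / (8 * (‖c₀‖ + 1)))
    (nw.trans ((mul_le_mul_of_nonneg_left nz c₁).trans (by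
      rw [← mul_assoc, ← mul_div_assoc, div_le_div_iff₀ (by positivity) (by positivity)]
      nlinarith))) (by positivity)
  have sc : IsSelfAdjoint (C • c₀) :=
    ((Pos.sum fun m _ => Pos.sum fun a _ => Pos.sq _).smul c0).sa
  obtain ⟨m, v, hv⟩ := h1 B I hI g₂ m₂ n₂ (C • c₀) (by
    rw [Algebra.smul_def]
    exact I.mul_mem_left _ _ (sum_mem fun m _ => sum_mem fun a _ => I.mul_mem_left _ _ (mc m a)))
    sc (η / 8) (by positivity)
  obtain ⟨N, r, π, Ξ, hr, hE⟩ := hF m
  let ι : Fin r × Fin m ↪ Fin (N + 2) := finProdFinEquiv.toEmbedding.trans (Fin.castLEEmb hr)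
  refine ⟨N, fun a b => ∑ i, if π i a = b then √2 • w i else 0,
    Function.extend ι (fun p b => Ξ p.1 b • v p.2) 0, fun E _ μ f => ?_⟩
  have hP := Pos.sum (s := Finset.univ) fun m _ => (hE E).2 fun a h => μ (c m a) * f h
  rw [qa_plug μ l d c (fun i j => star (g₁ * w i) * (g₁ * w j)) (fun i => π i) Ξ f] at hP
  have := qa_fin π f (fun s => ∑ h, Ξ s h • f h) (fun i => μ (g₁ * w i)) _
    (y := μ (∑ i, star (z i) * z i)) (s := μ (∑ j, star (g₂ * v j) * (g₂ * v j)))
    (δ := η / 2 + k * ε + η / 8) (η' := η / 8) (η := η) hε (by positivity) (by positivity)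
    (by rw [Fintype.card_fin]; linarith)
    (fun i j => by rw [← map_star, ← map_mul, ← map_sub]; exact (hom_le μ _).trans (hu i j)) ?_
    (by simpa only [map_sub, map_sum _ (fun i => star (g₁ * w i) * (g₁ * w i)),
      map_mul _ (star _), map_star] using hw.map μ) (sc.map μ)
    (by simpa only [map_sub, map_add, Algebra.algebraMap_eq_smul_one, map_rsmul _ (η / 8), map_one]
      using hv.map μ) ((hE E).1 f) hP
  · refine (congrArg Pos ?_).mp this
    congr 3
    · rw [Finset.smul_sum]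
      refine Finset.sum_congr rfl fun a _ => ?_
      have : ∑ b, μ (g₁ * ∑ i, if π i a = b then √2 • w i else 0) * f b =
          √2 • ∑ i, μ (g₁ * w i) * f (π i a) := by
        simp only [Finset.mul_sum, map_sum, Finset.sum_mul, mul_ite, mul_zero, apply_ite μ, map_zero,
          ite_mul, zero_mul]
        rw [Finset.sum_comm]
        simp only [Finset.sum_ite_eq, Finset.mem_univ, if_true, mul_smul_comm, map_rsmul,
          smul_mul_assoc, Finset.smul_sum]
      rw [this, star_smul, star_trivial √2, smul_mul_smul_comm, Real.mul_self_sqrt zero_le_two]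
    · refine Eq.trans ?_ (Fintype.sum_of_injective ι ι.injective (fun p =>
        star (μ (g₂ * v p.2) * ∑ h, Ξ p.1 h • f h) * (μ (g₂ * v p.2) * ∑ h, Ξ p.1 h • f h)) _
        (fun a ha => by simp [Function.extend_apply' _ _ _ ha]) fun p => ?_)
      · simp only [Fintype.sum_prod_type, map_sum, map_mul μ (star _), map_star,
          Finset.mul_sum _ fun j => star (μ (g₂ * v j)) * μ (g₂ * v j),
          Finset.sum_mul _ fun j => _ * (star (μ (g₂ * v j)) * μ (g₂ * v j)), star_mul _ (∑ h, _),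
          mul_assoc]
      · simp only [ι.injective.extend_apply, Finset.mul_sum, mul_smul_comm, map_smul, smul_mul_assoc]
  · have e1 : cpm l d c (∑ i, star (g₁ * w i) * (g₁ * w i) - algebraMap ℝ B (3 * (η / 12))) =
        ∑ i, cpm l d c (star (g₁ * w i) * (g₁ * w i)) - (3 * (η / 12)) • cpm l d c 1 := by
      rw [Algebra.algebraMap_eq_smul_one]
      exact (map_sub (qaL l d c) _ _).trans (congrArg₂ _ (map_sum _ _ _) (map_smul _ _ _))
    simp only [← map_star, ← map_mul μ (star _), ← map_sum, ← map_sub]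
    refine (hom_le μ _).trans ?_
    rw [e1, ← hc₀, sub_sub, ← sub_add, add_comm (_ • _)]
    refine (norm_add_le _ _).trans ?_
    rw [← Finset.sum_sub_distrib]
    have e2 := (norm_sum_le Finset.univ _).trans (Finset.sum_le_card_nsmul _ _ ε fun i _ =>
      (norm_sub_rev _ _).trans_le (hu i i))
    have e3 := norm_add_le ((η / (8 * (‖c₀‖ + 1))) • c₀) ((3 * (η / 12)) • cpm l d c 1)
    have e4 : η / (8 * (‖c₀‖ + 1)) * ‖c₀‖ ≤ η / 8 := by
      rw [div_mul_eq_mul_div, div_le_div_iff₀ (by positivity) (by positivity)]; nlinarith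
    rw [norm_smul, norm_smul, Real.norm_of_nonneg (by positivity),
      Real.norm_of_nonneg (by positivity)] at e3
    simp only [Finset.card_univ, Fintype.card_fin, nsmul_eq_mul] at e2
    nlinarith

end Vale.Agent.P095
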