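import Vale.Agent.P095.Basic

/-! Saturation of the ultrapower. -/

open Filter Topology TopologicalSpace BoundedContinuousFunction
open scoped BoundedContinuousFunction

namespace Vale.Agent.P095

open Vale.Agent.P101

theorem lift_seq {R M : Type*} [CStarAlgebra R] [CStarAlgebra M] {π : R →⋆ₐ[ℂ] M}
    (hπ : Function.Surjective π) : Function.Surjective (post π) := fun X => by
  choose x h1 h2 using fun n => lift_norm hπ (X n)
  exact ⟨ofNormedAddCommGroupDiscrete x ‖X‖ fun n => (h2 n).trans (X.norm_coe_le_norm n),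
    BoundedContinuousFunction.ext h1⟩

/-- Diagonal sequences. -/
noncomputable def diag {B : Type*} [CStarAlgebra B] (k : ℕ → ℕ) :
    (ℕ →ᵇ ℕ →ᵇ B) →⋆ₐ[ℂ] (ℕ →ᵇ B) where
  toFun y := ofNormedAddCommGroupDiscrete (fun n => y n (k n)) ‖y‖
    fun n => ((y n).norm_coe_le_norm _).trans (y.norm_coe_le_norm n)
  map_one' := rfl
  map_mul' _ _ := rfl
  map_zero' := rfl
  map_add' _ _ := rfl
  commutes' _ := rfl
  map_star' _ := rfl

theorem satS : SatS := by
  intro G B _ _ _ I α c ι κ _ _ X x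
  have := c.sys.sep
  choose X' hX using fun i => lift_seq c.ultra.surj (X i)
  let A := postAct (postAct α)
  let S : Set (ℕ →ᵇ ℕ →ᵇ B) := (Set.range fun p : G × ι => A p.1 (X' p.2)) ∪
    ((Set.range fun p : G × κ => A p.1 (post cst (x p.2))) ∪ Set.range ((post cst).comp cst))
  let T := StarAlgebra.adjoin ℂ S
  have hS : ∀ s ∈ S, s ∈ T := fun s hs => StarAlgebra.subset_adjoin ℂ _ hs
  have hA : ∀ g, ∀ t ∈ T, A g t ∈ T := fun g t ht =>
    (show T ≤ T.comap (A g : _ →⋆ₐ[ℂ] _) from StarAlgebra.adjoin_le (by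
      rintro _ (⟨p, rfl⟩ | ⟨p, rfl⟩ | ⟨b, rfl⟩)
      · exact hS _ (.inl ⟨(g * p.1, p.2), (act_mul A _ _ _).symm⟩)
      · exact hS _ (.inr (.inl ⟨(g * p.1, p.2), (act_mul A _ _ _).symm⟩))
      · exact hS _ (.inr (.inr ⟨α g b, rfl⟩)))) ht
  have : SeparableSpace T := ((isSeparable_adjoin ((Set.countable_range _).isSeparable.union
    ((Set.countable_range _).isSeparable.union (isSeparable_hom _)))).mono
    (StarSubalgebra.le_topologicalClosure _)).separableSpace
  let τ := denseSeq T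
  have ex : ∀ n, ∃ k, ∀ i ∈ Finset.range n, |‖(τ i).1 n k‖ - ‖c.ul ((τ i).1 n)‖| < 1 / (n + 1) :=
    fun n => Eventually.exists (f := (c.ω : Filter ℕ)) ((eventually_all_finset _).2 fun i _ =>
      Metric.tendsto_nhds.1 (c.ultra.lim _) _ (by positivity))
  choose k hk using ex
  refine ⟨fun i => c.ul (diag k (X' i)), T.map ((post c.ul).prod (c.ul.comp (diag k))),
    fun i => ⟨X' i, hS _ (.inl ⟨(1, i), by simp⟩), Prod.ext (hX i) rfl⟩,
    fun i => ⟨post cst (x i), hS _ (.inr (.inl ⟨(1, i), by simp⟩)), rfl⟩,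
    fun b => ⟨_, hS _ (.inr (.inr ⟨b, rfl⟩)), rfl⟩, ?_, ?_⟩
  · rintro _ ⟨t, ht, rfl⟩ g
    exact ⟨A g t, hA g t ht, Prod.ext (BoundedContinuousFunction.ext fun n => (c.eqU g _).symm)
      (c.eqU g (diag k t)).symm⟩
  · rintro _ ⟨t, ht, rfl⟩
    refine (c.ultra.lim (diag k t)).congr_dist (Metric.tendsto_nhds.2 fun ε hε => ?_)
    obtain ⟨i, hi⟩ := (denseRange_denseSeq T).exists_dist_lt ⟨t, ht⟩ (show 0 < ε / 3 by positivity)
    filter_upwards [c.atTop (eventually_gt_atTop i), c.atTop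
      (tendsto_one_div_add_atTop_nhds_zero_nat.eventually_lt_const (show 0 < ε / 3 by positivity))]
      with n h1 h2
    have e0 : ‖t n - (τ i).1 n‖ < ε / 3 := ((t - (τ i).1).norm_coe_le_norm n).trans_lt (by
      rw [← dist_eq_norm]; exact hi)
    have e1 := (abs_norm_sub_norm_le _ _).trans_lt
      (((t n - (τ i).1 n).norm_coe_le_norm (k n)).trans_lt e0)
    have e2 := (abs_norm_sub_norm_le _ _).trans_lt
      ((map_sub c.ul _ _ ▸ hom_le c.ul (t n - (τ i).1 n)).trans_lt e0)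
    have e3 := hk n i (Finset.mem_range.2 h1)
    rw [dist_zero_right, Real.norm_of_nonneg dist_nonneg, Real.dist_eq]
    change |‖t n (k n)‖ - ‖c.ul (t n)‖| < ε
    rw [abs_lt] at *
    constructor <;> linarith

end Vale.Agent.P095
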