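import Vale.Agent.P095.Basic

/-! Common tools for the three stages of property SI. -/

open Filter Topology TopologicalSpace BoundedContinuousFunction
open scoped BoundedContinuousFunction

namespace Vale.Agent.P095.Si

open Vale.Agent.P101

theorem sat_le {U : Type*} [CStarAlgebra U] {ω : Ultrafilter ℕ} {t : (ℕ →ᵇ U) × U}
    (h : Tendsto (fun m => ‖t.1 m‖) ω (𝓝 ‖t.2‖)) {C : ℝ} (h0 : ∀ᶠ m in (ω : Filter ℕ), ‖t.1 m‖ ≤ C) :
    ‖t.2‖ ≤ C := le_of_tendsto h h0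

theorem tend_div (C : ℝ) : Tendsto (fun m : ℕ => C * (1 / ((m : ℝ) + 1))) atTop (𝓝 0) := by
  simpa using tendsto_one_div_add_atTop_nhds_zero_nat.const_mul C

theorem sat_le' {U : Type*} [CStarAlgebra U] {ω : Ultrafilter ℕ} (hω : (ω : Filter ℕ) ≤ atTop)
    {t : (ℕ →ᵇ U) × U} (h : Tendsto (fun m => ‖t.1 m‖) ω (𝓝 ‖t.2‖)) {R C : ℝ}
    (h0 : ∀ᶠ m : ℕ in atTop, ‖t.1 m‖ ≤ R + C * (1 / ((m : ℝ) + 1))) : ‖t.2‖ ≤ R := by
  have := ((tend_div C).const_add R).mono_left hω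
  rw [add_zero] at this
  exact le_of_tendsto_of_tendsto h this (hω h0)

theorem sat_zero {U : Type*} [CStarAlgebra U] {ω : Ultrafilter ℕ} (hω : (ω : Filter ℕ) ≤ atTop)
    {t : (ℕ →ᵇ U) × U} (h : Tendsto (fun m => ‖t.1 m‖) ω (𝓝 ‖t.2‖)) {C : ℝ}
    (h0 : ∀ᶠ m : ℕ in atTop, ‖t.1 m‖ ≤ C * (1 / ((m : ℝ) + 1))) : t.2 = 0 :=
  norm_le_zero_iff.1 (sat_le' hω h (C := C) (by simpa using h0))

theorem sat_eq {U : Type*} [CStarAlgebra U] {ω : Ultrafilter ℕ} {t : (ℕ →ᵇ U) × U}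
    (h : Tendsto (fun m => ‖t.1 m‖) ω (𝓝 ‖t.2‖)) (h0 : ∀ m, t.1 m = 0) : t.2 = 0 :=
  norm_eq_zero.1 (tendsto_nhds_unique h (by simp [h0]))

theorem rsmul_mem {M : Type*} [CStarAlgebra M] (T : StarSubalgebra ℂ M) (r : ℝ) {x : M}
    (hx : x ∈ T) : r • x ∈ T := by
  rw [← Complex.coe_smul]; exact T.smul_mem hx _

theorem Df_mem {M : Type*} [CStarAlgebra M] (T : StarSubalgebra ℂ M) {x y : M} (hx : x ∈ T)
    (hy : y ∈ T) : Df x y ∈ T := by
  have : Yc x y ∈ T := rsmul_mem T _ (sub_mem (mul_mem hx hy) (mul_mem hy hx))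
  exact sub_mem (one_mem T) (mul_mem (star_mem this) this)

theorem Df_pair {U : Type*} [CStarAlgebra U] (x y : ℕ →ᵇ U) (a b : U) :
    Df (x, a) (y, b) = (Df x y, Df a b) := rfl

theorem Df_apply {U : Type*} [CStarAlgebra U] (x y : ℕ →ᵇ U) (m : ℕ) :
    Df x y m = Df (x m) (y m) := rfl

theorem exists_enum (G : Type) [Nonempty G] [Countable G] :
    ∃ K : ℕ → Finset G, ∀ g, ∀ᶠ m in atTop, g ∈ K m := by
  classical
  obtain ⟨e, he⟩ := exists_surjective_nat G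
  refine ⟨fun m => (Finset.range m).image e, fun g => ?_⟩
  obtain ⟨i, rfl⟩ := he g
  filter_upwards [eventually_gt_atTop i] with m hm
  exact Finset.mem_image_of_mem _ (Finset.mem_range.2 hm)

theorem exists_dense {B : Type} [CStarAlgebra B] [SeparableSpace B] (s : Set B) :
    ∃ K : ℕ → Finset B, (∀ m, ∀ x ∈ K m, x ∈ s) ∧ s ⊆ closure {y | ∀ᶠ m in atTop, y ∈ K m} := by
  classical
  obtain ⟨t, h1, h2, h3⟩ := (IsSeparable.of_separableSpace s).exists_countable_dense_subset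
  obtain ⟨f, hf⟩ := Set.countable_iff_exists_subset_range.1 h2
  refine ⟨fun m => ((Finset.range m).image f).filter (· ∈ t),
    fun m x hx => h1 (Finset.mem_filter.1 hx).2, h3.trans (closure_mono fun y hy => ?_)⟩
  obtain ⟨i, rfl⟩ := hf hy
  filter_upwards [eventually_gt_atTop i] with m hm
  exact Finset.mem_filter.2 ⟨Finset.mem_image_of_mem _ (Finset.mem_range.2 hm), hy⟩

theorem eq_zero_of_pos {M : Type*} [CStarAlgebra M] {x : M} (h1 : Pos x) (h2 : Pos (-x)) : x = 0 := by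
  simpa using h1.norm_le (y := 0) (by rwa [zero_sub])

theorem norm_sub_le_of_pos {M : Type*} [CStarAlgebra M] {x : M} {r : ℝ} (hr : 0 ≤ r) (h1 : Pos x)
    (h2 : Pos (r • (1 : M) - x)) : ‖r • (1 : M) - x‖ ≤ r := by
  refine (h2.norm_le (y := r • (1 : M)) (by rwa [sub_sub_cancel])).trans ?_
  rw [norm_smul, Real.norm_of_nonneg hr]
  exact mul_le_of_le_one_right hr norm_one_le'

theorem pos_of_norm_sub {M : Type*} [CStarAlgebra M] {x : M} {r : ℝ} (hx : IsSelfAdjoint x)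
    (h : ‖r • (1 : M) - x‖ ≤ r) : Pos x := by
  simpa using Pos.of_norm (((IsSelfAdjoint.all r).smul (IsSelfAdjoint.one M)).sub hx) h

theorem sa_Df {M : Type*} [CStarAlgebra M] (x y : M) : IsSelfAdjoint (Df x y) :=
  (IsSelfAdjoint.one M).sub (IsSelfAdjoint.star_mul_self _)

end Vale.Agent.P095.Si
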