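import Vale.Agent.P095.Defs
import Vale.Agent.P101.JStd

/-! Internal definitions and the statements of the steps of the proof for P095. -/

open Filter Topology TopologicalSpace BoundedContinuousFunction
open scoped BoundedContinuousFunction

namespace Vale.Agent.P095

open Vale.Agent.P101

/-! ### General notions -/

/-- Positive elements, without an order instance. -/
def Pos {M : Type*} [CStarAlgebra M] (x : M) : Prop := ∃ y, x = star y * y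

/-- Actions. -/
abbrev Act (G M : Type) [Group G] [CStarAlgebra M] := G →* (M ≃⋆ₐ[ℂ] M)

open Classical in
/-- The Folner condition. -/
def Fol (G : Type) [Group G] : Prop :=
  ∀ (K : Finset G) (ε : ℝ), 0 < ε → ∃ F : Finset G, F.Nonempty ∧
    ∀ t ∈ K, ((F.filter fun g => t * g ∉ F).card : ℝ) ≤ ε * F.card

/-- The fixed point algebra. -/
def Fix {G M : Type} [Group G] [CStarAlgebra M] (α : Act G M) : StarSubalgebra ℂ M where
  carrier := {x | ∀ g, α g x = x}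
  mul_mem' hx hy g := by rw [map_mul, hx g, hy g]
  add_mem' hx hy g := by rw [map_add, hx g, hy g]
  algebraMap_mem' c g := AlgHomClass.commutes (α g) c
  star_mem' hx g := by rw [map_star, hx g]

instance {G M : Type} [Group G] [CStarAlgebra M] (α : Act G M) : IsClosed (Fix α : Set M) := by
  have : (Fix α : Set M) = ⋂ g, {x | α g x = x} := by ext; simp [Fix]
  rw [this]
  exact isClosed_iInter fun g => isClosed_eq (hom_cont (α g : M →⋆ₐ[ℂ] M)) continuous_id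

/-- The commutant of the range of a homomorphism. -/
noncomputable def Cm {B V : Type} [CStarAlgebra B] [CStarAlgebra V] (j : B →⋆ₐ[ℂ] V) :
    StarSubalgebra ℂ V := StarSubalgebra.centralizer ℂ (Set.range j)

instance {B V : Type} [CStarAlgebra B] [CStarAlgebra V] (j : B →⋆ₐ[ℂ] V) :
    IsClosed (Cm j : Set V) := Set.isClosed_centralizer _

/-- A state. -/
structure IsState {B : Type} [CStarAlgebra B] (l : B →L[ℂ] ℂ) : Prop where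
  le : ∀ x, ‖l x‖ ≤ ‖x‖
  one : l 1 = 1

/-- `B` is the unitization of the simple separable algebra `I`. -/
structure Sys (B : Type) [CStarAlgebra B] (I : TwoSidedIdeal B) : Prop where
  sep : SeparableSpace B
  closed : IsClosed (I : Set B)
  star : ∀ x ∈ I, star x ∈ I
  ne : ∃ a ∈ I, a ≠ 0
  span : ∀ b, ∃ z : ℂ, b - algebraMap ℂ B z ∈ I
  simple : ∀ J : TwoSidedIdeal B, IsClosed (J : Set B) → J ≤ I → J = ⊥ ∨ J = I

/-- `F` is the quotient of the commutant of `j` by the annihilator of `j I`. -/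
structure IsF {B V F : Type} [CStarAlgebra B] [CStarAlgebra V] [CStarAlgebra F]
    (I : TwoSidedIdeal B) (j : B →⋆ₐ[ℂ] V) (q : Cm j →⋆ₐ[ℂ] F) : Prop where
  surj : Function.Surjective q
  norm : ∀ (x : Cm j), ∀ a ∈ I, ‖(x : V) * j a‖ = ‖q x‖ * ‖a‖

/-- The ultrapower `U` of `B`, the central sequence algebra `F` of `I` and the induced actions. -/
structure Ctx {G B : Type} [Group G] [CStarAlgebra B] (I : TwoSidedIdeal B) (α : Act G B) where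
  /-- the ultrafilter -/
  ω : Ultrafilter ℕ
  /-- the ultrapower -/
  U : Type
  [iU : CStarAlgebra U]
  /-- the quotient map -/
  ul : (ℕ →ᵇ B) →⋆ₐ[ℂ] U
  /-- the action on the ultrapower -/
  β : Act G U
  /-- the central sequence algebra -/
  F : Type
  [iF : CStarAlgebra F]
  /-- the quotient map -/
  q : Cm (ul.comp cst) →⋆ₐ[ℂ] F
  /-- the action on the central sequence algebra -/
  γ : Act G F
  sys : Sys B I
  inv : ∀ g, ∀ a ∈ I, α g a ∈ I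
  free : (ω : Filter ℕ) ≤ cofinite
  ultra : IsUltra ω ul
  eqU : ∀ g x, β g (ul x) = ul (post (α g : B →⋆ₐ[ℂ] B) x)
  isF : IsF I (ul.comp cst) q
  eqF : ∀ g (x y : Cm (ul.comp cst)), (y : U) = β g x → q y = γ g (q x)

attribute [instance] Ctx.iU Ctx.iF

/-- The embedding of `B` in its ultrapower. -/
noncomputable abbrev Ctx.j {G B : Type} [Group G] [CStarAlgebra B] {I : TwoSidedIdeal B}
    {α : Act G B} (c : Ctx I α) : B →⋆ₐ[ℂ] c.U := c.ul.comp cst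

/-- The real part of a positive trace. -/
structure IsRT {M : Type*} [CStarAlgebra M] (τ : M →ₗ[ℝ] ℝ) : Prop where
  star : ∀ x, τ (star x) = τ x
  comm : ∀ x y, τ (x * y) = τ (y * x)
  pos : ∀ x, 0 ≤ τ (Star.star x * x)

/-- The 2-norm of a trace. -/
noncomputable def nu {M : Type*} [CStarAlgebra M] (τ : M →ₗ[ℝ] ℝ) (x : M) : ℝ := √(τ (star x * x))

/-- Half of the commutator. -/
noncomputable def Yc {M : Type*} [CStarAlgebra M] (u v : M) : M := (1 / 2 : ℝ) • (u * v - v * u)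

/-- The defect of a pair from being a pair of anticommuting symmetries. -/
noncomputable def Df {M : Type*} [CStarAlgebra M] (u v : M) : M := 1 - star (Yc u v) * Yc u v

/-- A selfadjoint contraction. -/
structure SC {M : Type*} [CStarAlgebra M] (x : M) : Prop where
  sa : IsSelfAdjoint x
  le : ‖x‖ ≤ 1

/-- A projection. -/
structure Prj {M : Type*} [CStarAlgebra M] (e : M) : Prop where
  sa : IsSelfAdjoint e
  sq : e * e = e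

/-- A pair of anticommuting symmetries. -/
structure Pauli {M : Type*} [CStarAlgebra M] (X Z : M) : Prop where
  sx : IsSelfAdjoint X
  sz : IsSelfAdjoint Z
  xx : X * X = 1
  zz : Z * Z = 1
  xz : X * Z = -(Z * X)

/-- Pauli pairs commuting with any separable set. -/
def FP (M : Type) [CStarAlgebra M] : Prop :=
  ∀ S : Set M, IsSeparable S → ∃ X Z, Pauli X Z ∧ ∀ s ∈ S, Commute X s ∧ Commute Z s

/-- Tracially almost invariant tracially approximate Pauli pairs. -/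
def TTc {G M : Type} [Group G] [CStarAlgebra M] (α : Act G M) : Prop :=
  ∀ (K : Finset G) (ε : ℝ), 0 < ε → ∃ u v : M, SC u ∧ SC v ∧ ∀ τ, IsRT τ →
    τ (Df u v) ≤ ε * τ 1 ∧ ∀ g ∈ K, nu τ (α g u - u) ^ 2 ≤ ε * τ 1 ∧ nu τ (α g v - v) ^ 2 ≤ ε * τ 1

/-- Almost invariant tracially approximate Pauli pairs. -/
def Good {G M : Type} [Group G] [CStarAlgebra M] (α : Act G M) : Prop :=
  ∀ (K : Finset G) (ε : ℝ), 0 < ε → ∃ u v : M, SC u ∧ SC v ∧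
    (∀ g ∈ K, ‖α g u - u‖ ≤ ε ∧ ‖α g v - v‖ ≤ ε) ∧ ∀ τ, IsRT τ → τ (Df u v) ≤ ε * τ 1

/-! ### Basic steps -/

/-- AMEN. -/
def AmenS : Prop := ∀ (G : Type) [Group G], IsAmenable G → Fol G

/-- CQ: quotients. -/
def QuotS : Prop := ∀ (R : Type) [CStarAlgebra R] (J : TwoSidedIdeal R), IsClosed (J : Set R) →
  (∀ x ∈ J, star x ∈ J) → ∃ (M : Type) (_ : CStarAlgebra M) (π : R →⋆ₐ[ℂ] M),
    Function.Surjective π ∧ ∀ x, π x = 0 ↔ x ∈ J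

/-- The quotient by the annihilator, with the induced action. -/
def IsFS : Prop := ∀ (G B V : Type) [Group G] [CStarAlgebra B] [CStarAlgebra V]
  (I : TwoSidedIdeal B) (j : B →⋆ₐ[ℂ] V) (α : Act G B) (β : Act G V), Sys B I →
  (∀ g, ∀ a ∈ I, α g a ∈ I) → (∀ a ∈ I, ‖j a‖ = ‖a‖) → (∀ g b, β g (j b) = j (α g b)) →
  ∃ (F : Type) (_ : CStarAlgebra F) (q : Cm j →⋆ₐ[ℂ] F) (γ : Act G F), IsF I j q ∧
    ∀ g (x y : Cm j), (y : V) = β g x → q y = γ g (q x)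

/-- Existence of the context. -/
def CtxS : Prop := ∀ (G B : Type) [Group G] [CStarAlgebra B] (I : TwoSidedIdeal B) (α : Act G B),
  Sys B I → (∀ g, ∀ a ∈ I, α g a ∈ I) → Nonempty (Ctx I α)

/-- Saturation of the ultrapower. -/
def SatS : Prop := ∀ (G B : Type) [Group G] [Countable G] [CStarAlgebra B] (I : TwoSidedIdeal B)
  (α : Act G B) (c : Ctx I α) (ι κ : Type) [Countable ι] [Countable κ] (X : ι → ℕ →ᵇ c.U)
  (x : κ → ℕ →ᵇ B), ∃ (Y : ι → c.U) (T : StarSubalgebra ℂ ((ℕ →ᵇ c.U) × c.U)),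
    (∀ i, (X i, Y i) ∈ T) ∧ (∀ k, (post c.j (x k), c.ul (x k)) ∈ T) ∧
    (∀ b, (const ℕ (c.j b), c.j b) ∈ T) ∧
    (∀ t ∈ T, ∀ g, (post (c.β g : c.U →⋆ₐ[ℂ] c.U) t.1, c.β g t.2) ∈ T) ∧
    ∀ t ∈ T, Tendsto (fun m => ‖t.1 m‖) c.ω (𝓝 ‖t.2‖)

/-- Saturation of the central sequence algebra. -/
def SatFS : Prop := ∀ (G B : Type) [Group G] [Countable G] [CStarAlgebra B] (I : TwoSidedIdeal B)
  (α : Act G B) (c : Ctx I α) (ι : Type) [Countable ι] (X : ι → ℕ →ᵇ c.F),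
  ∃ (Y : ι → c.F) (T : StarSubalgebra ℂ ((ℕ →ᵇ c.F) × c.F)), (∀ i, (X i, Y i) ∈ T) ∧
    (∀ t ∈ T, ∀ g, (post (c.γ g : c.F →⋆ₐ[ℂ] c.F) t.1, c.γ g t.2) ∈ T) ∧
    ∀ t ∈ T, Tendsto (fun m => ‖t.1 m‖) c.ω (𝓝 ‖t.2‖)

/-- Independent equivariant copies. -/
def CopyS : Prop := ∀ (G B : Type) [Group G] [Countable G] [CStarAlgebra B] (I : TwoSidedIdeal B)
  (α : Act G B) (c : Ctx I α), (∀ (D : Type) [CStarAlgebra D] [SeparableSpace D]
    (θ : D →⋆ₐ[ℂ] c.F) (S : Set c.F), IsSeparable S → ∃ θ' : D →⋆ₐ[ℂ] c.F,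
      (∀ d, ∀ s ∈ S, Commute (θ' d) s ∧ ‖θ' d * s‖ = ‖θ d‖ * ‖s‖) ∧
      ∀ d d' g, ‖θ' d' - c.γ g (θ' d)‖ ≤ ‖θ d' - c.γ g (θ d)‖) ∧ Fresh c.F ∧ Fresh (Fix c.γ)

/-! ### Comparison -/

/-- Local units. -/
def LocS : Prop := ∀ (B : Type) [CStarAlgebra B] (I : TwoSidedIdeal B), Sys B I →
  ∀ S : Finset B, (∀ x ∈ S, x ∈ I) → ∀ ε : ℝ, 0 < ε → ∃ b ∈ I, ∃ e ∈ I, SC b ∧ SC e ∧ e * b = b ∧
    ∀ x ∈ S, ‖b * x - x‖ ≤ ε ∧ ‖x * b - x‖ ≤ ε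

/-- Fullness. -/
def SimpS : Prop := ∀ (B : Type) [CStarAlgebra B] (I : TwoSidedIdeal B), Sys B I →
  ∀ g ∈ I, g ≠ 0 → ∀ c ∈ I, IsSelfAdjoint c → ∀ η : ℝ, 0 < η → ∃ (m : ℕ) (v : Fin m → B),
    Pos (algebraMap ℝ B η + ∑ i, star (g * v i) * (g * v i) - c)

/-- `y ≤ γ` up to self-commutators from the corner of `e`. -/
def Cmp {B : Type} [CStarAlgebra B] (e y : B) (γ : ℝ) : Prop :=
  ∃ (k : ℕ) (x : Fin k → B), (∀ i, e * x i = x i ∧ x i * e = x i) ∧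
    Pos (algebraMap ℝ B γ + ∑ i, (star (x i) * x i - x i * star (x i)) - y)

/-- Averaging. -/
def CesS : Prop := ∀ (B : Type) [CStarAlgebra B] (e y : B) (γ : ℝ), IsSelfAdjoint e → Pos y →
  e * y = y → 0 < γ → Cmp e y γ → ∃ (k : ℕ) (z : Fin k → B), (∀ i, e * z i = z i ∧ z i * e = z i) ∧
    ∑ i, star (z i) * z i = y ∧ ‖∑ i, z i * star (z i)‖ ≤ 10 * γ

/-- Limit traces by separation. -/
def HbtS : Prop := ∀ (G B : Type) [Group G] [CStarAlgebra B] (I : TwoSidedIdeal B) (α : Act G B)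
  (c : Ctx I α) (x : ℕ →ᵇ B) (hx : c.ul x ∈ Cm c.j) (γ γ' : ℝ), 0 ≤ γ → γ < γ' →
  (∀ n, IsSelfAdjoint (x n)) → (∀ τ, IsRT τ → τ (c.q ⟨c.ul x, hx⟩) ≤ γ * τ 1) →
  ∀ b ∈ I, ∀ e, SC b → IsSelfAdjoint e → e * b = b →
  ∀ᶠ n in c.ω, Cmp e (b * b * x n * (b * b)) γ'

/-- Finite models of the free group. -/
def FreeS : Prop := ∀ (B : Type) [CStarAlgebra B] (l : B →L[ℂ] ℂ), IsState l →
  ∀ (k n : ℕ) (x : Fin k → B) (d : Fin n → B) (θ η : ℝ), ‖∑ i, x i * star (x i)‖ ≤ θ → 0 < η →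
  ∃ C : ℝ, 0 ≤ C ∧ ∀ m : ℕ, ∃ (N r : ℕ) (π : Fin k → Equiv.Perm (Fin (N + 2)))
    (Ξ : Matrix (Fin r) (Fin (N + 2)) ℂ), r * m ≤ N + 2 ∧
    ∀ (E : Type) [CStarAlgebra E],
      (∀ f : Fin (N + 2) → E, Pos (∑ h, star (f h) * f h -
        ∑ s, star (∑ h, Ξ s h • f h) * ∑ h, Ξ s h • f h)) ∧
      ∀ f : Fin n → Fin (N + 2) → E,
        Pos (∑ h, ∑ a, ∑ b, (∑ i, ∑ j, (2 * l (star (d a) * (star (x i) * x j) * d b)) •
            (star (f a (π i h)) * f b (π j h)) -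
          l (star (d a) * (∑ i, star (x i) * x i - algebraMap ℝ B (3 * θ)) * d b) •
            (star (f a h) * f b h)) + η • ∑ h, ∑ a, star (f a h) * f a h +
          C • ∑ a, ∑ s, star (∑ h, Ξ s h • f a h) * ∑ h, Ξ s h • f a h)

/-- The map used to approximate the identity. -/
noncomputable def cpm {B : Type} [CStarAlgebra B] (l : B →L[ℂ] ℂ) {n k : ℕ} (d : Fin n → B)
    (c : Fin k → Fin n → B) (x : B) : B :=
  ∑ m, ∑ a, ∑ b, l (star (d a) * x * d b) • (star (c m a) * c m b)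

/-- Approximation of the identity map through the state `l`. -/
def CPA {B : Type} [CStarAlgebra B] (I : TwoSidedIdeal B) (l : B →L[ℂ] ℂ) : Prop :=
  ∀ S : Finset B, (∀ x ∈ S, x ∈ I) → ∀ ε : ℝ, 0 < ε → ∃ (n k : ℕ) (d : Fin n → B)
    (c : Fin k → Fin n → B), (∀ m a, c m a ∈ I) ∧ ‖cpm l d c 1‖ ≤ 1 + ε ∧
    ∀ x ∈ S, ‖cpm l d c x - x‖ ≤ ε

/-- Nuclearity of `I`. -/
def Nuc {B : Type} [CStarAlgebra B] (I : TwoSidedIdeal B) : Prop :=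
  ∀ (D E H K : Type) [CStarAlgebra D] [CStarAlgebra E] [NormedAddCommGroup H]
    [InnerProductSpace ℂ H] [CompleteSpace H] [NormedAddCommGroup K] [InnerProductSpace ℂ K]
    [CompleteSpace K] (π : B →⋆ₐ[ℂ] (H →L[ℂ] H)) (ρ : D →⋆ₐ[ℂ] (K →L[ℂ] K)),
    (∀ a ∈ I, π a = 0 → a = 0) → Function.Injective ρ →
    ∀ (μ : B →⋆ₐ[ℂ] E) (ν : D →⋆ₐ[ℂ] E), (∀ a d, μ a * ν d = ν d * μ a) →
    ∀ (n : ℕ) (a : Fin n → B) (d : Fin n → D), (∀ i, a i ∈ I) →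
      ‖∑ i, μ (a i) * ν (d i)‖ ≤ tensorNorm (fun i => π (a i)) (fun i => ρ (d i))

/-- Domination of functionals by a vector state. -/
def DomS : Prop := ∀ (B : Type) [CStarAlgebra B] [Nontrivial B] (k : ℕ) (f : Fin k → B →L[ℂ] ℂ),
  ∃ (H : Type) (_ : NormedAddCommGroup H) (_ : InnerProductSpace ℂ H) (_ : CompleteSpace H)
    (π : B →⋆ₐ[ℂ] (H →L[ℂ] H)) (ξ : H) (t : Fin k → H →L[ℂ] H), (DenseRange fun b => π b ξ) ∧
    (∀ i b, Commute (t i) (π b)) ∧ ∀ i b, f i b = inner ℂ ξ (π b (t i ξ))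

/-- Nuclearity gives the approximation property. -/
def CpaS : Prop := ∀ (B : Type) [CStarAlgebra B] (I : TwoSidedIdeal B), Sys B I → Nuc I →
  ∀ l, IsState l → (∃ a ∈ I, l a ≠ 0) → CPA I l

/-- Comparison at the matrix level. -/
def QaS : Prop := ∀ (B : Type) [CStarAlgebra B] (I : TwoSidedIdeal B) (l : B →L[ℂ] ℂ), Sys B I →
  IsState l → CPA I l → ∀ g₁ ∈ I, ∀ g₂ ∈ I, g₁ ≠ 0 → g₂ ≠ 0 → ∀ e ∈ I, SC e → ∀ η : ℝ, 0 < η →
  ∃ γ : ℝ, 0 < γ ∧ ∀ y, Pos y → e * y = y → Cmp e y γ →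
    ∃ (N : ℕ) (W₁ W₂ : Fin (N + 2) → Fin (N + 2) → B), ∀ (E : Type) [CStarAlgebra E]
      (μ : B →⋆ₐ[ℂ] E) (f : Fin (N + 2) → E),
      Pos (∑ a, star (∑ b, μ (g₁ * W₁ a b) * f b) * ∑ b, μ (g₁ * W₁ a b) * f b +
        ∑ a, star (∑ b, μ (g₂ * W₂ a b) * f b) * ∑ b, μ (g₂ * W₂ a b) * f b -
        ∑ b, star (f b) * μ y * f b + η • ∑ b, star (f b) * f b)

/-- Orthogonal pieces in right ideals. -/
def Pcs {B : Type} [CStarAlgebra B] (I : TwoSidedIdeal B) : Prop :=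
  ∀ g ∈ I, g ≠ 0 → ∀ k : ℕ, ∃ b : Fin k → B, (∀ i, g * b i ≠ 0) ∧
    ∀ i j, i ≠ j → star (g * b i) * (g * b j) = 0

/-- Strict comparison. -/
def Cpr {B : Type} [CStarAlgebra B] (I : TwoSidedIdeal B) : Prop :=
  ∀ g ∈ I, g ≠ 0 → ∀ e ∈ I, SC e → ∀ η : ℝ, 0 < η → ∃ γ : ℝ, 0 < γ ∧
    ∀ y, Pos y → e * y = y → Cmp e y γ → ∃ b, ‖star (g * b) * (g * b) - y‖ ≤ η

/-- PIECES. -/
def PcsS : Prop := ∀ (G B : Type) [Group G] [CStarAlgebra B] (I : TwoSidedIdeal B) (α : Act G B)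
  (c : Ctx I α), IsEmpty (c.F →⋆ₐ[ℂ] ℂ) → Pcs I

/-- Comparison. -/
def QbS : Prop := ∀ (G B : Type) [Group G] [CStarAlgebra B] (I : TwoSidedIdeal B) (α : Act G B)
  (c : Ctx I α) (l : B →L[ℂ] ℂ), IsState l → CPA I l → Fresh c.F → IsEmpty (c.F →⋆ₐ[ℂ] ℂ) →
  Pcs I → Cpr I

/-! ### Property SI -/

/-- The state `l` can be excised. -/
def Exc {B : Type} [CStarAlgebra B] (I : TwoSidedIdeal B) (l : B →L[ℂ] ℂ) : Prop :=
  ∀ (S : Finset B) (ε : ℝ), 0 < ε → ∃ y ∈ I, y ≠ 0 ∧ ∀ z ∈ S, ∀ b b',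
    ‖star (y * b) * (z - algebraMap ℂ B (l z)) * (y * b')‖ ≤ ε * (‖y * b‖ * ‖y * b'‖)

/-- Excision. -/
def ExcS : Prop := ∀ (B : Type) [CStarAlgebra B] (I : TwoSidedIdeal B), Sys B I →
  ∃ l, IsState l ∧ (∃ a ∈ I, l a ≠ 0) ∧ Exc I l

/-- Proper outerness. -/
def OutS : Prop := ∀ (G B : Type) [Group G] [Countable G] [CStarAlgebra B] (I : TwoSidedIdeal B)
  (α : Act G B) (c : Ctx I α) (g : G), c.γ g ≠ 1 → ∀ y ∈ I, y ≠ 0 → ∀ (z : B) (ε : ℝ), 0 < ε →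
  ∃ b, y * b ≠ 0 ∧ ∀ b₁ b₂, ‖star (y * b * b₁) * z * α g (y * b * b₂)‖ ≤
    ε * (‖y * b * b₁‖ * ‖y * b * b₂‖)

/-- The result of the first stage. -/
def Si1 {G B : Type} [Group G] [CStarAlgebra B] {I : TwoSidedIdeal B} {α : Act G B} (c : Ctx I α)
    (l : B →L[ℂ] ℂ) : Prop :=
  ∃ (u v : Cm c.j) (W : ℕ → c.U), SC u ∧ SC v ∧
    (∀ g, c.γ g (c.q u) = c.q u ∧ c.γ g (c.q v) = c.q v) ∧
    (∀ i k z, star (W i) * c.j z * W k = l z • (star (W i) * W k)) ∧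
    (∀ i k z g, c.γ g ≠ 1 → star (W i) * c.j z * c.β g (W k) = 0) ∧
    ∀ i k, ∀ a ∈ I, ∀ a' ∈ I, c.j a * (star (W i) * W k) * c.j a' =
      if i = k then c.j a * Df (u : c.U) v * c.j a' else 0

/-- The result of the second stage. -/
def Si2 {G F : Type} [Group G] [CStarAlgebra F] (γ : Act G F) : Prop :=
  ∃ (u v : F) (s : Bool → F), (∀ g, γ g u = u ∧ γ g v = v) ∧
    (∀ r r', star (s r) * s r' = if r = r' then Df u v else 0) ∧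
    ∀ r r' g, γ g ≠ 1 → star (s r) * γ g (s r') = 0

/-- First stage. -/
def Si1S : Prop := ∀ (G B : Type) [Group G] [Countable G] [CStarAlgebra B] (I : TwoSidedIdeal B)
  (α : Act G B) (c : Ctx I α) (l : B →L[ℂ] ℂ), IsState l → Exc I l → Pcs I → Cpr I → Good c.γ →
  Si1 c l

/-- Second stage. -/
def Si2S : Prop := ∀ (G B : Type) [Group G] [Countable G] [CStarAlgebra B] (I : TwoSidedIdeal B)
  (α : Act G B) (c : Ctx I α) (l : B →L[ℂ] ℂ), IsState l → CPA I l → Si1 c l → Si2 c.γ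

/-- Third stage. -/
def Si3S : Prop := ∀ (G B : Type) [Group G] [Countable G] [CStarAlgebra B] (I : TwoSidedIdeal B)
  (α : Act G B) (c : Ctx I α), Fol G → Si2 c.γ → IsEmpty (Fix c.γ →⋆ₐ[ℂ] ℂ)

/-! ### The tracial part -/

/-- Restriction to the commutant of an invariant separable set. -/
def ResS : Prop := ∀ (G M : Type) [Group G] [Countable G] [CStarAlgebra M] (α : Act G M), FP M →
  ∀ S : Set M, IsSeparable S → ∃ (M' : Type) (_ : CStarAlgebra M') (α' : Act G M')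
    (i : M' →⋆ₐ[ℂ] M), FP M' ∧ (∀ g x, i (α' g x) = α g (i x)) ∧
    ∀ x g, ∀ s ∈ S, Commute (i x) (α g s)

/-- The level functions. -/
noncomputable def lev (η : ℝ) (l : ℕ) (s : ℝ) : ℝ := max 0 (min 1 ((s - l * η) / η))

/-- Trace inequalities. -/
def ConS : Prop := ∀ (M : Type) [CStarAlgebra M] (τ : M →ₗ[ℝ] ℝ), IsRT τ →
  (∀ a H, Pos H → Pos (a - H) → nu τ (cfc Real.sqrt a - cfc Real.sqrt H) ^ 2 ≤ τ (a - H)) ∧
  (∀ a a' H, Pos H → Pos (a - H) → Pos (a' - H) → ∀ η t : ℝ, 0 < η → 0 < t → ∀ L : ℕ,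
    η * ∑ l ∈ Finset.range L, nu τ (cfc (lev η l) a - cfc (lev η l) a') ^ 2 ≤
      t * (τ (a - H) + τ (a' - H)) + (τ a + τ a') / t) ∧
  ∀ (ι : Type) [Fintype ι] (P : ι → M) (κ : ℝ → ℝ), (∀ i, Prj (P i)) → Continuous κ →
    (∀ s, 0 ≤ κ s) → (∀ s, 0 ≤ s → s * κ s ≤ 1) →
    τ (cfc (fun s => s * κ s) (∑ i, P i)) ≤ τ (∑ i, P i)

/-- The block operator. -/
noncomputable def blkOp {M ι : Type} [CStarAlgebra M] [Fintype ι] (κ : ℝ → ℝ) (E X : ι → M) : M :=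
  cfc (fun s => √(κ s)) (∑ g, E g) * (∑ g, E g * X g) * cfc (fun s => √(κ s)) (∑ g, E g)

/-- The projection attached to a symmetry. -/
noncomputable def pj {M : Type} [CStarAlgebra M] (X : M) : M := (1 / 2 : ℝ) • (1 + X)

/-- A configuration of projections and Pauli pairs. -/
structure Cfg {M ι : Type} [CStarAlgebra M] (E X Z : ι → M) : Prop where
  prj : ∀ g, Prj (E g)
  pauli : ∀ g, Pauli (X g) (Z g)
  cx : ∀ g g', Commute (E g) (X g')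
  cz : ∀ g g', Commute (E g) (Z g')

/-- Block estimates. -/
def BlkS : Prop := ∀ (ι : Type) [Fintype ι] (κ : ℝ → ℝ), Continuous κ → (∀ s, 0 ≤ κ s) →
  (∀ (M : Type) [CStarAlgebra M] (E X Z : ι → M), Cfg E X Z → IsSelfAdjoint (blkOp κ E X) ∧
    Pos (cfc (fun s => s * κ s) (∑ g, E g) - blkOp κ E X) ∧
    Pos (cfc (fun s => s * κ s) (∑ g, E g) + blkOp κ E X)) ∧
  ∀ ε : ℝ, 0 < ε → ∃ C : ℝ, 0 ≤ C ∧ ∀ (M : Type) [CStarAlgebra M] (τ : M →ₗ[ℝ] ℝ) (E X Z : ι → M)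
    (ρ s : ℝ), IsRT τ → Cfg E X Z → 0 ≤ ρ → 0 ≤ s → (∀ g, nu τ (E g) ≤ s) →
    (∀ g g', nu τ (E g' * E g * (X g - X g')) ≤ ρ) →
    nu τ (blkOp κ E X - (cfc (fun s => s * κ s) (∑ g, E g * pj (X g)) -
      cfc (fun s => s * κ s) (∑ g, E g * pj (-X g)))) ≤ C * ρ + ε * s ∧
    τ (cfc (fun s => (s * κ s) ^ 2) (∑ g, E g)) - τ (blkOp κ E X * blkOp κ E X) ≤
      (C * ρ + ε * s) * s ∧
    ((∀ g g', nu τ (E g' * E g * (Z g - Z g')) ≤ ρ) →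
      τ (cfc (fun s => (s * κ s) ^ 4) (∑ g, E g)) -
        τ (star (Yc (blkOp κ E X) (blkOp κ E Z)) * Yc (blkOp κ E X) (blkOp κ E Z)) ≤
      (C * ρ + ε * s) * s)

/-- A chain of projections and Pauli pairs. -/
structure Chain {G M : Type} [Group G] [CStarAlgebra M] (α : Act G M) (E X Z : ℕ → M) : Prop where
  prj : ∀ i, Prj (E i)
  pauli : ∀ i, Pauli (X i) (Z i)
  ce : ∀ i j g g', i ≤ j → Commute (α g (E i)) (α g' (X j)) ∧ Commute (α g (E i)) (α g' (Z j))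
  cx : ∀ i j g g', i < j → Commute (α g (X i)) (α g' (X j)) ∧ Commute (α g (X i)) (α g' (Z j))
  tr : ∀ τ, IsRT τ → ∀ i, τ (E i) = (1 / 2) ^ i * τ 1

/-- Families with small overlaps. -/
def FamS : Prop := ∀ (G M : Type) [Group G] [Countable G] [CStarAlgebra M] (α : Act G M), FP M →
  (∃ E X Z : ℕ → M, Chain α E X Z ∧ ∀ τ, IsRT τ → ∀ g g' a, ∑ i ∈ Finset.range a,
    2 ^ i * nu τ (α g' (E i) * α g (E i) * (α g (X i) - α g' (X i))) ^ 2 ≤ 4 * τ 1) ∧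
  ∀ a : ℕ, ∃ (J : Type) (_ : Fintype J) (_ : Nonempty J) (E X Z : J → ℕ → M),
    (∀ s, Chain α (E s) (X s) (Z s)) ∧ ∀ τ, IsRT τ → ∀ g g', ∑ s, ∑ i ∈ Finset.range a,
      2 ^ i * (nu τ (α g' (E s i) * α g (E s i) * (α g (X s i) - α g' (X s i))) ^ 2 +
        nu τ (α g' (E s i) * α g (E s i) * (α g (Z s i) - α g' (Z s i))) ^ 2) ≤
      8 * Fintype.card J * τ 1

/-- Almost invariant martingale increments. -/
def IncS : Prop := ∀ (G : Type) [Group G] [Countable G], Fol G → ∀ (K : Finset G) (ε : ℝ), 0 < ε →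
  ∃ R : ℝ, 0 < R ∧ ∀ (M : Type) [CStarAlgebra M] (α : Act G M), FP M → ∃ y : M,
    IsSelfAdjoint y ∧ ‖y‖ ≤ R ∧ ∀ τ, IsRT τ → τ y = 0 ∧ τ 1 / 2 ≤ τ (y * y) ∧ τ (y * y) ≤ τ 1 ∧
      ∀ g ∈ K, nu τ (α g y - y) ^ 2 ≤ ε * τ 1

/-- Almost invariant selectors. -/
def SelS : Prop := ∀ (G : Type) [Group G] [Countable G], Fol G → ∀ (M : Type) [CStarAlgebra M]
  (α : Act G M), FP M → ∀ (K : Finset G) (ε : ℝ), 0 < ε → ∃ t : M, Pos t ∧ Pos (1 - t) ∧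
    ∀ τ, IsRT τ → τ t = τ 1 / 2 ∧ τ (t - t * t) ≤ ε * τ 1 ∧ ∀ g ∈ K, nu τ (α g t - t) ^ 2 ≤ ε * τ 1

/-- A block. -/
structure Blk {M : Type} [CStarAlgebra M] (u v q : M) : Prop where
  su : IsSelfAdjoint u
  sv : IsSelfAdjoint v
  u1 : Pos (q - u)
  u2 : Pos (q + u)
  v1 : Pos (q - v)
  v2 : Pos (q + v)
  le : Pos (1 - q)

/-- The cost of a block. -/
noncomputable def cost {G M : Type} [Group G] [CStarAlgebra M] (α : Act G M) (K : Finset G)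
    (τ : M →ₗ[ℝ] ℝ) (u v q : M) : ℝ :=
  τ (q - star (Yc u v) * Yc u v) +
    ∑ g ∈ K, (nu τ (α g u - u) ^ 2 + nu τ (α g v - v) ^ 2 + nu τ (α g q - q) ^ 2)

/-- Convex combinations of blocks. -/
def MixS : Prop := ∀ (G : Type) [Group G] [Countable G], Fol G → ∀ (M : Type) [CStarAlgebra M]
  (α : Act G M), FP M → ∀ (K : Finset G) (J : Type) [Fintype J] (w : J → ℝ) (u v q : J → M),
  (∀ j, 0 ≤ w j) → ∑ j, w j = 1 → (∀ j, Blk (u j) (v j) (q j)) → ∀ ε : ℝ, 0 < ε →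
  ∃ u' v' q' : M, Blk u' v' q' ∧ ∀ τ, IsRT τ → |τ q' - ∑ j, w j * τ (q j)| ≤ ε * τ 1 ∧
    cost α K τ u' v' q' ≤ ∑ j, w j * cost α K τ (u j) (v j) (q j) + ε * τ 1

/-- Existence of good blocks. -/
def BlS : Prop := ∀ (G : Type) [Group G] [Countable G], Fol G → ∀ (K : Finset G) (ε : ℝ), 0 < ε →
  ∃ δ : ℝ, 0 < δ ∧ δ ≤ 1 ∧ ∀ (M : Type) [CStarAlgebra M] (α : Act G M), FP M → ∃ u v q : M,
    Blk u v q ∧ ∀ τ, IsRT τ → δ * τ 1 ≤ τ q ∧ τ q ≤ 3 * δ * τ 1 ∧ cost α K τ u v q ≤ ε * δ * τ 1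

/-- The tracial theorem. -/
def TtS : Prop := ∀ (G : Type) [Group G] [Countable G], Fol G → ∀ (M : Type) [CStarAlgebra M]
  (α : Act G M), FP M → TTc α

/-- Passage through the tracial ultrapower. -/
def TuS : Prop := ∀ (G : Type) [Group G] [Countable G], Fol G → ∀ (F : Type) [CStarAlgebra F]
  (γ : Act G F), Fresh F → IsEmpty (F →⋆ₐ[ℂ] ℂ) → TTc γ

/-- Averaging over Folner sets. -/
def GoodS : Prop := ∀ (G : Type) [Group G], Fol G → ∀ (F : Type) [CStarAlgebra F]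
  (γ : Act G F), TTc γ → Good γ

/-! ### Absorption -/

/-- Approximate uniqueness of embeddings. -/
def ZP (Z : Type) [CStarAlgebra Z] : Prop :=
  ∀ (S : Finset Z) (ε : ℝ), 0 < ε → ∃ p q : ℕ, 2 ≤ p ∧ 2 ≤ q ∧ p.Coprime q ∧
    ∃ (J : DD p q →⋆ₐ[ℂ] Z) (f : Z → DD p q), (∀ z ∈ S, ‖J (f z) - z‖ ≤ ε) ∧
      ∀ (C : Type) [CStarAlgebra C] (a b : DD p q →⋆ₐ[ℂ] C), (∀ x y, Commute (a x) (b y)) →
        ∃ V ∈ unitary C, ∀ z ∈ S, ‖V * a (f z) * star V - b (f z)‖ ≤ ε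

/-- Asymptotically central copies of a dimension drop algebra. -/
def ZC (Z : Type) [CStarAlgebra Z] : Prop :=
  ∃ θ : ℕ → DD 2 3 →⋆ₐ[ℂ] Z, ∀ f z, Tendsto (fun n => ‖θ n f * z - z * θ n f‖) atTop (𝓝 0)

/-- The Jiang-Su algebra. -/
def ZzS : Prop := ∃ (Z : Type) (_ : CStarAlgebra Z), IsJiangSu Z ∧ ZP Z ∧ ZC Z

/-- The closed span of `ι I * κ Z`. -/
def tsp {B Z P : Type} [CStarAlgebra B] [CStarAlgebra Z] [CStarAlgebra P] (I : TwoSidedIdeal B)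
    (ι : B →⋆ₐ[ℂ] P) (κ : Z →⋆ₐ[ℂ] P) : Set P :=
  closure {x | ∃ (n : ℕ) (a : Fin n → B) (z : Fin n → Z), (∀ k, a k ∈ I) ∧
    x = ∑ k, ι (a k) * κ (z k)}

/-- A consequence of `Z`-stability of `I`. -/
def AZ {B : Type} [CStarAlgebra B] (I : TwoSidedIdeal B) (Z : Type) [CStarAlgebra Z] : Prop :=
  ∃ (P : Type) (_ : CStarAlgebra P) (i ι : B →⋆ₐ[ℂ] P) (κ : Z →⋆ₐ[ℂ] P),
    (∀ b z, Commute (ι b) (κ z)) ∧ (∀ a ∈ I, ‖i a‖ = ‖a‖) ∧
    (∀ a ∈ I, ∀ z, ∃ a' ∈ I, i a' = ι a * κ z) ∧ ∀ a ∈ I, i a ∈ tsp I ι κ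

/-- The central sequence algebra has no character. -/
def CharS : Prop := ∀ (G B : Type) [Group G] [CStarAlgebra B] (I : TwoSidedIdeal B) (α : Act G B)
  (c : Ctx I α) (Z : Type) [CStarAlgebra Z], ZC Z → AZ I Z → IsEmpty (c.F →⋆ₐ[ℂ] ℂ)

/-- Products of exponentials. -/
noncomputable def exps {Q : Type} [CStarAlgebra Q] (l : List (selfAdjoint Q)) : Q :=
  ((l.map selfAdjoint.expUnitary).prod : unitary Q)

/-- Commutators of unitaries. -/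
def ComS : Prop := ∀ (Q : Type) [CStarAlgebra Q] (p q : ℕ), 2 ≤ p → 2 ≤ q →
  ∀ (θ : DD p q →⋆ₐ[ℂ] Q), ∀ u ∈ unitary Q, ∀ s ∈ unitary Q, (∀ f, Commute u (θ f)) →
  (∀ f, Commute s (θ f)) → ∃ l, exps l = u * s * star u * star s

/-- The half-flip by products of exponentials. -/
def HfS : Prop := ∀ (Z E Q : Type) [CStarAlgebra Z] [CStarAlgebra E] [CStarAlgebra Q]
  (κ : Z →⋆ₐ[ℂ] Q) (Ψ : E →⋆ₐ[ℂ] Q), ZP Z → Fresh E → IsEmpty (E →⋆ₐ[ℂ] ℂ) →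
  (∀ e z, Commute (Ψ e) (κ z)) → ∀ (S : Finset Z) (ε : ℝ), 0 < ε →
  ∃ l, ∀ z ∈ S, ∃ e, ‖star (exps l) * κ z * exps l - Ψ e‖ ≤ ε

/-- The unitaries for the intertwining argument. -/
def UniS : Prop := ∀ (G B : Type) [Group G] [CStarAlgebra B] (I : TwoSidedIdeal B) (α : Act G B)
  (c : Ctx I α) (Z P : Type) [CStarAlgebra Z] [CStarAlgebra P] (ι : B →⋆ₐ[ℂ] P) (κ : Z →⋆ₐ[ℂ] P)
  (β : Act G P), Fol G → ZP Z → Fresh (Fix c.γ) → IsEmpty (Fix c.γ →⋆ₐ[ℂ] ℂ) →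
  Function.Injective ι → (∀ b z, Commute (ι b) (κ z)) → (∀ g b, β g (ι b) = ι (α g b)) →
  (∀ g z, β g (κ z) = κ z) → ∀ (S : Finset B) (T : Finset P) (K : Finset G) (ε : ℝ), 0 < ε →
  (∀ x ∈ T, x ∈ tsp I ι κ) → ∃ w ∈ unitary P, (∀ a ∈ S, ‖w * ι a - ι a * w‖ ≤ ε) ∧
    (∀ g ∈ K, ‖β g w - w‖ ≤ ε) ∧ ∀ x ∈ T, ∃ a ∈ I, ‖star w * x * w - ι a‖ ≤ ε

/-- Intertwining. -/
def IntS : Prop := ∀ (G A C P : Type) [Group G] [Countable G] [NonUnitalCStarAlgebra A]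
  [NonUnitalCStarAlgebra C] [CStarAlgebra P] [SeparableSpace A] [SeparableSpace C]
  (i : A →⋆ₙₐ[ℂ] P) (j : C →⋆ₙₐ[ℂ] P) (α : G →* (A ≃⋆ₐ[ℂ] A)) (β : G →* (C ≃⋆ₐ[ℂ] C))
  (β' : Act G P), Function.Injective i → Function.Injective j → (∀ a, ∃ c, j c = i a) →
  (∀ c x, (∃ c', j c' = x * j c) ∧ ∃ c', j c' = j c * x) → (∀ g a, β' g (i a) = i (α g a)) →
  (∀ g c, β' g (j c) = j (β g c)) →
  (∀ (S : Finset A) (T : Finset C) (K : Finset G) (ε : ℝ), 0 < ε → ∃ w ∈ unitary P,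
    (∀ a ∈ S, ‖w * i a - i a * w‖ ≤ ε) ∧ (∀ g ∈ K, ‖β' g w - w‖ ≤ ε) ∧
    ∀ x ∈ T, ∃ a, ‖star w * j x * w - i a‖ ≤ ε) → CocycleConj α β

/-- The middle part. -/
def MidS : Prop := ∀ (G B : Type) [Group G] [Countable G] [CStarAlgebra B] (I : TwoSidedIdeal B)
  (α : Act G B) (c : Ctx I α) (Z : Type) [CStarAlgebra Z], Fol G → ZC Z → AZ I Z → Nuc I →
  Fresh (Fix c.γ) ∧ IsEmpty (Fix c.γ →⋆ₐ[ℂ] ℂ)

/-- The main theorem. -/
def MainS : Prop := ∃ (Z : Type) (_ : CStarAlgebra Z), IsJS Z ∧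
  ∀ (A : Type) [NonUnitalCStarAlgebra A] [SeparableSpace A], IsSimple A → IsNuclear A →
    IsStable A Z → ∀ (G : Type) [Group G] [Countable G], IsAmenable G →
    ∀ α : G →* (A ≃⋆ₐ[ℂ] A), ∃ (C : Type) (_ : NonUnitalCStarAlgebra C) (t : A → Z → C),
      IsTensor t ∧ ∃ β : G →* (C ≃⋆ₐ[ℂ] C), (∀ g a z, β g (t a z) = t (α g a) z) ∧
        CocycleConj α β

end Vale.Agent.P095
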